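import Vale.Agent.P168.Ass0

/-! The lower bound for finite models from the cavity estimate. -/

namespace Vale.Agent.P168

open Finset

theorem ass_abs_sum {M : ℕ} {f : Fin M → ℝ} {c : ℝ} (h : ∀ k, |f k| ≤ c) :
    |∑ k, f k| ≤ M * c := by
  refine (abs_sum_le_sum_abs _ _).trans ((sum_le_sum fun k _ => h k).trans_eq ?_)
  simp

theorem ass_gr {Sg : Type} {Φ : (Sg → ℝ) → ℝ} (hΦ : assL Φ) (H₀ H : Sg → ℝ) {D : ℝ} {M : ℕ}
    (h : ∀ σ, |H σ - H₀ σ| ≤ D * (M + 1)) : |Φ H| ≤ (|Φ H₀| + D) * (M + 1) := by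
  have h1 := hΦ H H₀ _ h
  have h2 := abs_sub_abs_le_abs_sub (Φ H) (Φ H₀)
  have h3 : 0 ≤ |Φ H₀| * M := by positivity
  linarith

/-- summing out the first spin -/
noncomputable def assC {n : ℕ} (Φ : ((Fin n → Bool) → ℝ) → ℝ) (H : (Fin (n + 1) → Bool) → ℝ) : ℝ :=
  Φ fun σ => Real.log (∑ s : Bool, Real.exp (H (Fin.cons s σ)))

theorem assL.assC {n : ℕ} {Φ : ((Fin n → Bool) → ℝ) → ℝ} (hΦ : assL Φ) : assL (assC Φ) :=
  fun _ _ c h => hΦ _ _ c fun _ => ass_lse _ _ c fun _ => h _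

/-- adding a first spin with the field `b` -/
def assE {n : ℕ} (b : ℝ) (H : (Fin n → Bool) → ℝ) : (Fin (n + 1) → Bool) → ℝ :=
  fun σ => H (Fin.tail σ) + b * sg (σ 0)

section
variable {K : ℕ} {Θ Hh : Type} [Fintype Θ] [Fintype Hh] (p : Θ → ℝ)
  (θ : Θ → (Fin K → Bool) → ℝ) (ph hv : Hh → ℝ) (lam : ℝ) {n : ℕ}

def assF (h : Fin n → Hh) : (Fin n → Bool) → ℝ := fun σ => ∑ i, hv (h i) * sg (σ i)

noncomputable def assX (Φ : ((Fin n → Bool) → ℝ) → ℝ) : ℝ :=
  ∑ h : Fin n → Hh, (∏ i, ph (h i)) * Pois (assN p θ (lam * n) id) Φ (assF hv h)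

noncomputable def assU (Φ : ((Fin n → Bool) → ℝ) → ℝ) (H : (Fin n → Bool) → ℝ) : ℝ :=
  PF p (K * lam) fun M c => ∑ h, ph h * avg fun l : Fin M → Fin K =>
    avg fun idx : Fin M × Fin K → Fin n => Φ fun σ =>
      H σ + Real.log (UU (fun k => θ (c k)) (hv h) l fun j => sg (σ (idx j)))

noncomputable def assV (Φ : ((Fin n → Bool) → ℝ) → ℝ) (H : (Fin n → Bool) → ℝ) : ℝ :=
  PF p ((K - 1) * lam) fun M c => avg fun idx : Fin M × Fin K → Fin n => Φ fun σ =>
    H σ + Real.log (VV (fun k => θ (c k)) fun j => sg (σ (idx j)))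

variable {p θ ph hv lam} {c : ℝ}

theorem ass_press_eq [NeZero n] (hp : Prob p) (hl : 0 ≤ lam) (hc : 0 ≤ c)
    (hθ : ∀ t σ, |θ t σ| ≤ c) (hh : ∀ h, |hv h| ≤ c) : n * pressF p θ ph hv lam n =
      assX p θ ph hv lam fun f : (Fin n → Bool) → ℝ => Real.log (∑ σ, Real.exp (f σ)) := by
  have hn : (n : ℝ) ≠ 0 := Nat.cast_ne_zero.2 (NeZero.ne n)
  rw [pressF, ← mul_assoc, mul_one_div_cancel hn, one_mul, assX,
    PF_sum (C := |Real.log (∑ _σ : Fin n → Bool, Real.exp 0)| + (c + n * c)) hp (by positivity)]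
  · refine sum_congr rfl fun h _ => ?_
    rw [assN_pois hp]
    simp only [logZ, ham, assF, add_comm, id]
  · intro h _ M a
    refine abs_avg_le_of (by positivity) fun idx => ass_gr ass_lse (fun _ => 0) _ fun σ => ?_
    have h1 := ass_abs_sum (M := M) (f := fun k => θ (a k) fun j => σ (idx k j)) fun k => hθ _ _
    have h2 := ass_abs_sum (M := n) (f := fun i => hv (h i) * sg (σ i)) (c := c) fun i => by
      rw [abs_mul, abs_sg, mul_one]
      exact hh _
    have h3 : 0 ≤ n * c * M := by positivity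
    rw [sub_zero, ham]
    refine (abs_add_le _ _).trans ?_
    linarith

theorem ass_X_le (hp : Prob p) (hph : Prob ph) (hl : 0 ≤ lam) (hθ : ∀ t σ, |θ t σ| ≤ c)
    {Φ Ψ : ((Fin n → Bool) → ℝ) → ℝ} (hΦ : assL Φ) (hΨ : assL Ψ) {b : ℝ}
    (h : ∀ H, Φ H ≤ Ψ H + b) : assX p θ ph hv lam Φ ≤ assX p θ ph hv lam Ψ + b :=
  ass_prob_le (hph.pi (Fin n)) fun _ =>
    ass_pois_le (assN_jmp hp hθ (by positivity) _) (hΦ.lip c) (hΨ.lip c) h _

theorem ass_V_eq [NeZero n] (hp : Prob p) (Φ : ((Fin n → Bool) → ℝ) → ℝ) :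
    assV p θ lam Φ = Pois (assN p θ ((K - 1) * lam) id) Φ := by
  funext H
  rw [assN_pois hp, assV]
  congr 1
  funext M a
  rw [← avg_equiv (Equiv.curry (Fin M) (Fin K) (Fin n))]
  congr 1
  funext idx
  congr 1
  funext σ
  rw [VV_spin (fun k => θ (a k)) fun j => σ (idx j), Real.log_exp]
  rfl

theorem ass_U_eq [NeZero n] [NeZero K] (hp : Prob p) (hl : 0 ≤ lam) (hc : 0 ≤ c)
    (hθ : ∀ t σ, |θ t σ| ≤ c) (hh : ∀ h, |hv h| ≤ c) {Φ : ((Fin n → Bool) → ℝ) → ℝ}
    (hΦ : assL Φ) : assU p θ ph hv lam Φ = fun H => ∑ h, ph h *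
      Pois (assN p θ (K * lam) fun y : Fin K × (Fin K → Fin n) =>
        Function.update (fun j => (y.2 j).succ) y.1 0) (assC Φ) (assE (hv h) H) := by
  funext H
  rw [assU, PF_sum (C := |Φ H| + (c + 1)) hp (by positivity)]
  · refine sum_congr rfl fun h _ => ?_
    rw [assN_pois hp]
    congr 2
    funext M a
    rw [← avg_equiv (Equiv.arrowProdEquivProdArrow (Fin M) (fun _ => Fin K)
      fun _ => Fin K → Fin n).symm, avg_prod]
    congr 1
    funext l
    rw [← avg_equiv (Equiv.curry (Fin M) (Fin K) (Fin n))]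
    congr 1
    funext idx
    rw [assC]
    congr 1
    funext σ
    rw [UU_spin (fun k => θ (a k)) (hv h) l fun j => σ (idx j), ← Real.log_exp (H σ),
      ← Real.log_mul (Real.exp_pos _).ne'
        (sum_pos (fun _ _ => Real.exp_pos _) univ_nonempty).ne', mul_sum]
    congr 1
    refine sum_congr rfl fun s _ => ?_
    rw [← Real.exp_add, ← add_assoc]
    congr 2
    refine sum_congr rfl fun k _ => ?_
    congr 1
    funext j
    by_cases hj : j = l k
    · simp [hj]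
    · simp [Function.update_of_ne hj]
  · intro h _ M a
    refine abs_avg_le_of (by positivity) fun l => abs_avg_le_of (by positivity) fun idx =>
      ass_gr hΦ H _ fun σ => ?_
    rw [add_sub_cancel_left]
    exact (UU_bd (fun k => hθ (a k)) (hh h) l _ (cube_sg fun j => σ (idx j))).2

omit [Fintype Hh] in
theorem ass_F_cons (h₀ : Hh) (h : Fin n → Hh) :
    assF hv (Fin.cons h₀ h : Fin (n + 1) → Hh) = assE (hv h₀) (assF hv h) := by
  funext σ
  simp [assF, assE, Fin.sum_univ_succ, Fin.tail, add_comm]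

theorem ass_pois_E (a b : ℝ) (Ψ : ((Fin (n + 1) → Bool) → ℝ) → ℝ) (H : (Fin n → Bool) → ℝ) :
    Pois (assN p θ a fun (idx : Fin K → Fin n) j => (idx j).succ) Ψ (assE b H) =
      Pois (assN p θ a id) (fun x => Ψ (assE b x)) H := by
  refine pois_map _ (fun x i => ?_) Ψ H
  funext σ
  simp [assE, Fin.tail, add_right_comm]

theorem ass_lip_E {Ψ : ((Fin (n + 1) → Bool) → ℝ) → ℝ} (h : Lip (assA _ c) c Ψ) (b : ℝ) :
    Lip (assA _ c) c fun x : (Fin n → Bool) → ℝ => Ψ (assE b x) := by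
  intro s hs η
  have e : assE b (η + s) = assE b η + fun σ => s (Fin.tail σ) := by
    funext σ
    simp [assE, add_right_comm]
  simp only [e]
  exact h _ (fun _ => hs _) _

theorem ass_step (hK : 1 ≤ K) (hn : K ≤ n) (hp : Prob p) (hph : Prob ph) (hl : 0 ≤ lam)
    (hc : 0 ≤ c) (hθ : ∀ t σ, |θ t σ| ≤ c) (hh : ∀ h, |hv h| ≤ c)
    {Φ : ((Fin n → Bool) → ℝ) → ℝ} (hΦ : assL Φ) {v : ℝ}
    (hv' : ∀ H, v ≤ assU p θ ph hv lam Φ H - assV p θ lam Φ H) :
    assX p θ ph hv lam Φ + v ≤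
      assX p θ ph hv lam (assC Φ) + 2 * (c * (K * lam * (K / (n + 1)))) := by
  have : NeZero K := ⟨by omega⟩
  have : NeZero n := ⟨by omega⟩
  have hK' : (1 : ℝ) ≤ K := by exact_mod_cast hK
  have hn' : (K : ℝ) ≤ n := by exact_mod_cast hn
  have ha : 0 ≤ lam * (n + 1 - K) := mul_nonneg hl (by linarith)
  have hd : 0 ≤ K * lam * (K / ((n : ℝ) + 1)) := by positivity
  have hb : 0 ≤ K * lam * (1 - K / ((n : ℝ) + 1)) := by
    refine mul_nonneg (by positivity) ?_
    rw [sub_nonneg, div_le_one (by linarith)]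
    linarith
  have hC := hΦ.assC.lip c
  set e₁ : Fin K × (Fin K → Fin n) → Fin K → Fin (n + 1) :=
    fun y => Function.update (fun j => (y.2 j).succ) y.1 0 with he₁
  set e₀ : (Fin K → Fin n) → Fin K → Fin (n + 1) := fun idx j => (idx j).succ with he₀
  have j₀ := assN_jmp hp hθ ha e₀
  have j₁ := assN_jmp hp hθ hb e₁
  have j₂ := assN_jmp hp hθ (a := K * lam) (by positivity) e₁
  have j₃ := assN_jmp hp hθ ha (id : (Fin K → Fin n) → _)
  have j₄ := assN_jmp hp hθ (a := (K - 1) * lam) (mul_nonneg (by linarith) hl)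
    (id : (Fin K → Fin n) → _)
  have h1 : ∀ η, Pois (assN p θ (lam * (n + 1 - K)) e₀) (Pois (assN p θ (K * lam) e₁) (assC Φ)) η ≤
      Pois (assN p θ (lam * (n + 1 : ℕ)) id) (assC Φ) η +
        2 * (c * (K * lam * (K / (n + 1)))) := by
    intro η
    have h2 := ass_dom (assN_jmp hp hθ (by positivity) _) (j₀.add j₁) (assN_le hp hK hn hl) hC η
    have h3 := ass_dom (j₀.add j₂) (j₀.add j₁) (fun x => by
      have e : (K : ℝ) * lam = K * lam * (1 - K / (n + 1)) + K * lam * (K / (n + 1)) := by ring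
      have h4 := (assN_jmp hp hθ hd e₁).1 x
      conv_rhs => rw [e, assN_add]
      simp only [Finsupp.add_apply]
      linarith) hC η
    rw [pois_add j₀ j₂ hC] at h3
    simp only [mass_add, assN_mass hp] at h2 h3
    have e2 : lam * ((n + 1 : ℕ) : ℝ) - (lam * (n + 1 - K) + K * lam * (1 - K / (n + 1))) =
        K * lam * (K / (n + 1)) := by
      push_cast
      ring
    have e3 : lam * (n + 1 - K) + K * lam - (lam * (n + 1 - K) + K * lam * (1 - K / (n + 1))) =
        K * lam * (K / ((n : ℝ) + 1)) := by ring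
    rw [e2] at h2
    rw [e3] at h3
    linarith only [(abs_le.1 h2).1, (abs_le.1 h3).2]
  have hL : ∀ h₀, Lip (assA _ c) c fun x : (Fin n → Bool) → ℝ =>
      Pois (assN p θ (K * lam) e₁) (assC Φ) (assE (hv h₀) x) :=
    fun h₀ => ass_lip_E (pois_lip j₂ hC) _
  have hU : Lip (assA _ c) c (assU p θ ph hv lam Φ) := by
    intro s hs η
    simp only [ass_U_eq hp hl hc hθ hh hΦ]
    rw [← sum_sub_distrib]
    simp only [← mul_sub]
    exact hph.abs_le fun h₀ => hL h₀ s hs η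
  have h5 : ∀ η, Pois (assN p θ (lam * n) id) Φ η ≤ ∑ h₀, ph h₀ *
      Pois (assN p θ (lam * (n + 1 - K)) e₀) (Pois (assN p θ (K * lam) e₁) (assC Φ))
        (assE (hv h₀) η) + -v := by
    intro η
    have e : lam * n = lam * (n + 1 - K) + (K - 1) * lam := by ring
    rw [e, assN_add, pois_add j₃ j₄ (hΦ.lip c)]
    simp only [he₀, ass_pois_E]
    rw [← pois_sum univ ph j₃ fun h₀ _ => hL h₀, ← ass_U_eq hp hl hc hθ hh hΦ]
    refine ass_pois_le j₃ (pois_lip j₄ (hΦ.lip c)) hU (fun H => ?_) η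
    rw [← ass_V_eq hp]
    linarith only [hv' H]
  have h6 : assX p θ ph hv lam (assC Φ) = ∑ h : Fin n → Hh, (∏ i, ph (h i)) * ∑ h₀, ph h₀ *
      Pois (assN p θ (lam * (n + 1 : ℕ)) id) (assC Φ) (assE (hv h₀) (assF hv h)) := by
    rw [assX, ← (Fin.consEquiv fun _ => Hh).sum_comp, Fintype.sum_prod_type, sum_comm]
    refine sum_congr rfl fun h _ => ?_
    rw [mul_sum]
    refine sum_congr rfl fun h₀ _ => ?_
    rw [← ass_F_cons, Fin.prod_univ_succ, mul_left_comm, mul_assoc]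
    rfl
  have h7 := ass_prob_le (hph.pi (Fin n)) (b := 2 * (c * (K * lam * (K / (n + 1)))) + -v)
    fun h => (h5 (assF hv h)).trans (by
      rw [← add_assoc]
      exact add_le_add_left (ass_prob_le hph fun h₀ => h1 _) _)
  rw [← h6] at h7
  unfold assX at h7 ⊢
  linarith only [h7]

end

theorem ass_tel {X P : ℕ → ℝ} {v B : ℝ} {n₂ : ℕ} (h1 : ∀ n, n₂ ≤ n → X n + v ≤ X (n + 1))
    (h2 : ∀ n, n₂ ≤ n → X n ≤ n * P n + B) {ε : ℝ} (hε : 0 < ε) :
    ∀ᶠ n in Filter.atTop, v ≤ P n + ε := by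
  have h3 : ∀ n, n₂ ≤ n → X n₂ + (n - n₂) * v ≤ X n := by
    intro n hn
    induction n, hn using Nat.le_induction with
    | base => simp
    | succ n hn ih =>
      have h4 := h1 n hn
      push_cast
      linarith
  have h5 := (tendsto_natCast_atTop_atTop (R := ℝ)).eventually_gt_atTop
    (|B + n₂ * v - X n₂| / ε)
  filter_upwards [h5, Filter.eventually_ge_atTop n₂] with n h6 h7
  have h8 : (0 : ℝ) < n := lt_of_le_of_lt (by positivity) h6
  rw [div_lt_iff₀ hε] at h6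
  have h9 := le_abs_self (B + n₂ * v - X n₂)
  have h10 := h3 n h7
  have h11 := h2 n h7
  refine le_of_mul_le_mul_left ?_ h8
  linarith

theorem ass_main (hC : CoreStmt) {K : ℕ} {Θ Hh : Type} [Fintype Θ] [Fintype Hh] {p : Θ → ℝ}
    {θ : Θ → (Fin K → Bool) → ℝ} {ph hv : Hh → ℝ} {lam : ℝ} (hK : 1 ≤ K) (hp : Prob p)
    (hph : Prob ph) (hl : 0 < lam) {v : ℝ}
    (hv' : ∀ r m x, Adm r m x → v ≤ trialF p θ ph hv lam r m x) {ε : ℝ} (hε : 0 < ε) :
    ∀ᶠ N in Filter.atTop, v ≤ pressF p θ ph hv lam N + 4 * ε := by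
  obtain ⟨n₀, R, t, η, hR, h0, h1, hcore⟩ := hC K Θ Hh p θ ph hv lam hK hp hph hl ε hε
  obtain ⟨n₁, hcav⟩ := XX_cav (Fin n₀) hR t η hε
  set c := ‖θ‖ + ‖hv‖
  have hc : 0 ≤ c := by positivity
  have hθ : ∀ t σ, |θ t σ| ≤ c := fun t σ =>
    ((norm_le_pi_norm (θ t) σ).trans (norm_le_pi_norm θ t)).trans
      (le_add_of_nonneg_right (norm_nonneg _))
  have hh : ∀ h, |hv h| ≤ c := fun h =>
    (norm_le_pi_norm hv h).trans (le_add_of_nonneg_left (norm_nonneg _))
  obtain ⟨n₃, hn₃⟩ := exists_nat_ge (2 * (c * (K * lam * K)) / ε)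
  have hL : ∀ n [NeZero n], assL (XX (Fin n₀) R t η (id : (Fin n → Bool) → _)) :=
    fun n _ _ _ _ h => XX_lip hR h
  have h2 := ass_tel (v := v - 3 * ε) (B := R * t) (n₂ := n₁ + n₃ + K)
    (X := fun n => assX p θ ph hv lam (XX (Fin n₀) R t η (id : (Fin n → Bool) → _)) +
      n * Real.log 2) (P := pressF p θ ph hv lam) (fun n hn => ?_) (fun n hn => ?_) hε
  · filter_upwards [h2] with N hN
    linarith only [hN]
  · have : NeZero n := ⟨by omega⟩
    have h3 := ass_step (ph := ph) (hv := hv) (v := v - ε) hK (show K ≤ n by omega) hp hph hl.le hc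
      hθ hh (hL n) fun H => by
        obtain ⟨r, m, x, h4, h5⟩ := hcore n (by omega) H
        have h6 := hv' r m x h4
        unfold assU assV
        linarith only [h5, h6]
    have h4 := ass_X_le (ph := ph) (hv := hv) hp hph hl.le hθ (hL n).assC (hL (n + 1))
      (b := Real.log 2 + ε) fun H => by
        have h5 := hcav n (by omega) H
        unfold assC
        linarith only [h5]
    have h5 : 2 * (c * (K * lam * (K / ((n : ℝ) + 1)))) ≤ ε := by
      have h6 : (n₃ : ℝ) ≤ n := by exact_mod_cast (show n₃ ≤ n by omega)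
      rw [div_le_iff₀ hε] at hn₃
      have e : 2 * (c * (K * lam * (K / ((n : ℝ) + 1)))) = 2 * (c * (K * lam * K)) / (n + 1) := by
        ring
      rw [e, div_le_iff₀ (by positivity)]
      nlinarith only [hn₃, h6, hε]
    push_cast
    linarith only [h3, h4, h5]
  · have : NeZero n := ⟨by omega⟩
    rw [ass_press_eq hp hl.le hc hθ hh]
    have h3 := ass_X_le (ph := ph) (hv := hv) hp hph hl.le hθ (hL n) ass_lse
      (b := R * t - n * Real.log 2) fun H => by
        have h4 := (abs_le.1 (XX_pert (L := Fin n₀) (t := t) (ev := id) hR h0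
          (by simpa using h1) H)).2
        rw [avg, Real.log_div (sum_pos (fun _ _ => Real.exp_pos _) univ_nonempty).ne'
          (by positivity)] at h4
        simp only [Fintype.card_pi, Fintype.card_bool, prod_const, card_univ, Fintype.card_fin,
          Nat.cast_pow, Nat.cast_ofNat, Real.log_pow] at h4
        linarith only [h4]
    linarith only [h3]

theorem lowerF (hC : CoreStmt) : LowerF := by
  intro K Θ Hh _ _ p θ ph hv lam hK hp hph hl ε hε
  let T : Set ℝ := {y | ∃ r m x, Adm r m x ∧ trialF p θ ph hv lam r m x = y}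
  by_cases hT : BddBelow T
  · obtain ⟨n₀, R, t, η, -, -, -, hcore⟩ := hC K Θ Hh p θ ph hv lam hK hp hph hl ε hε
    obtain ⟨r₀, m₀, x₀, h₀, -⟩ := hcore 1 le_rfl 0
    obtain ⟨_, ⟨r, m, x, h1, rfl⟩, h2⟩ := exists_lt_of_csInf_lt (s := T)
      ⟨_, r₀, m₀, x₀, h₀, rfl⟩ (lt_add_of_pos_right _ (show 0 < ε / 5 by positivity))
    filter_upwards [ass_main hC hK hp hph hl (v := sInf T)
      (fun r m x h => csInf_le hT ⟨r, m, x, h, rfl⟩) (show 0 < ε / 5 by positivity)] with N hN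
    exact ⟨r, m, x, h1, by linarith only [h2, hN]⟩
  · refine Filter.Eventually.of_forall fun N => ?_
    obtain ⟨_, ⟨r, m, x, h1, rfl⟩, h2⟩ := not_bddBelow_iff.1 hT (pressF p θ ph hv lam N + ε)
    exact ⟨r, m, x, h1, h2.le⟩

end Vale.Agent.P168
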