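import Vale.Agent.P168.Casc2

/-! Clauses, the variables `U` and `V`, the partition function. -/

namespace Vale.Agent.P168

open Finset

section
variable {K M : ℕ} {J : Type} [Fintype J] [DecidableEq J]

omit [Fintype J] [DecidableEq J] in
theorem cube_sg (τ : J → Bool) : Cube fun j => sg (τ j) := fun j => (abs_sg _).le

theorem cl_fac_nonneg {x : ℝ} (hx : |x| ≤ 1) (s : Bool) : 0 ≤ (1 + x * sg s) / 2 := by
  have := abs_le.1 hx
  cases s <;> simp only [sg] <;> norm_num <;> linarith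

omit [DecidableEq J] in
theorem cl_wt_nonneg {X : J → ℝ} (hX : Cube X) (τ : J → Bool) :
    0 ≤ ∏ j, (1 + X j * sg (τ j)) / 2 := prod_nonneg fun j _ => cl_fac_nonneg (hX j) _

theorem cl_wt_prod (g : J → Bool → ℝ) (X : J → ℝ) :
    ∑ τ : J → Bool, (∏ j, g j (τ j)) * ∏ j, (1 + X j * sg (τ j)) / 2 =
      ∏ j, ∑ s : Bool, g j s * ((1 + X j * sg s) / 2) := by
  rw [Fintype.prod_sum]
  exact sum_congr rfl fun τ _ => prod_mul_distrib.symm

theorem cl_wt_sum (X : J → ℝ) : ∑ τ : J → Bool, ∏ j, (1 + X j * sg (τ j)) / 2 = 1 := by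
  have := cl_wt_prod (fun _ _ => 1) X
  simp only [prod_const_one, one_mul] at this
  rw [this]
  refine prod_eq_one fun j _ => ?_
  simp [sg]; ring

omit [DecidableEq J] in
theorem cl_wt_spin (σ τ : J → Bool) :
    ∏ j, (1 + sg (σ j) * sg (τ j)) / 2 = if τ = σ then 1 else 0 := by
  split_ifs with h
  · subst h
    refine prod_eq_one fun j _ => ?_
    cases τ j <;> simp [sg]
  · obtain ⟨j, hj⟩ := Function.ne_iff.1 h
    refine prod_eq_zero (mem_univ j) ?_
    revert hj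
    cases τ j <;> cases σ j <;> simp [sg]

theorem cl_spin (θ : (Fin K → Bool) → ℝ) (σ : Fin K → Bool) :
    cl θ (fun j => sg (σ j)) = Real.exp (θ σ) := by
  simp only [cl, cl_wt_spin, mul_ite, mul_one, mul_zero, sum_ite_eq', mem_univ, if_true]

theorem cl_log_le {a b δ : ℝ} (ha : 0 < a) (hb : 0 < b) (h : a ≤ Real.exp δ * b) :
    Real.log a - Real.log b ≤ δ := by
  have := Real.log_le_log ha h
  rw [Real.log_mul (Real.exp_pos _).ne' hb.ne', Real.log_exp] at this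
  linarith

theorem cl_abs_log_le {a b δ : ℝ} (ha : 0 < a) (hb : 0 < b) (h : a ≤ Real.exp δ * b)
    (h' : b ≤ Real.exp δ * a) : |Real.log a - Real.log b| ≤ δ :=
  abs_le.2 ⟨by linarith [cl_log_le hb ha h'], cl_log_le ha hb h⟩

theorem cl_le (θ θ' : (Fin K → Bool) → ℝ) {δ : ℝ} (h : ∀ σ, θ σ ≤ δ + θ' σ) {X : Fin K → ℝ}
    (hX : Cube X) : cl θ X ≤ Real.exp δ * cl θ' X := by
  unfold cl
  rw [mul_sum]
  refine sum_le_sum fun σ _ => ?_
  rw [← mul_assoc, ← Real.exp_add]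
  exact mul_le_mul_of_nonneg_right (Real.exp_le_exp.2 (h σ)) (cl_wt_nonneg hX σ)

theorem cl_zero (X : Fin K → ℝ) : cl (fun _ => 0) X = 1 := by
  simp only [cl, Real.exp_zero, one_mul, cl_wt_sum]

theorem cl_pos (θ : (Fin K → Bool) → ℝ) {X : Fin K → ℝ} (hX : Cube X) : 0 < cl θ X := by
  have h := cl_le (fun _ => 0) θ (δ := ‖θ‖) (fun σ => by
    have := (abs_le.1 (norm_le_pi_norm θ σ)).1
    linarith) hX
  rw [cl_zero] at h
  exact (mul_pos_iff_of_pos_left (Real.exp_pos _)).1 (one_pos.trans_le h)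

theorem cl_bd {θ : (Fin K → Bool) → ℝ} {c : ℝ} (h : ∀ σ, |θ σ| ≤ c) : Bd c (cl θ) := by
  intro X hX
  refine ⟨cl_pos θ hX, ?_⟩
  have := cl_abs_log_le (cl_pos θ hX) (cl_pos (fun _ => 0) hX)
    (cl_le _ _ (δ := c) (fun σ => by linarith [(abs_le.1 (h σ)).2]) hX)
    (cl_le _ _ (δ := c) (fun σ => by linarith [(abs_le.1 (h σ)).1]) hX)
  simpa [cl_zero] using this

theorem cl_ma (θ : (Fin K → Bool) → ℝ) : MA (cl θ) := by
  intro X
  simp only [cl_spin]
  rfl

theorem cl_sub_le (θ θ' : (Fin K → Bool) → ℝ) (σ : Fin K → Bool) :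
    θ σ ≤ ‖θ - θ'‖ + θ' σ ∧ θ' σ ≤ ‖θ - θ'‖ + θ σ := by
  have := abs_le.1 (norm_le_pi_norm (θ - θ') σ)
  simp only [Pi.sub_apply] at this
  constructor <;> linarith [this.1, this.2]

theorem cl_lip (θ θ' : (Fin K → Bool) → ℝ) {X : Fin K → ℝ} (hX : Cube X) :
    |Real.log (cl θ X) - Real.log (cl θ' X)| ≤ ‖θ - θ'‖ :=
  cl_abs_log_le (cl_pos θ hX) (cl_pos θ' hX) (cl_le _ _ (fun σ => (cl_sub_le θ θ' σ).1) hX)
    (cl_le _ _ (fun σ => (cl_sub_le θ θ' σ).2) hX)

/-- the clause weight under the product structure -/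
theorem cl_pt {θ : (Fin K → Bool) → ℝ} {a b : ℝ} {f : Fin K → Bool → ℝ}
    (h : ∀ σ, Real.exp (θ σ) = a * (1 + b * ∏ j, f j (σ j))) (X : Fin K → ℝ) :
    cl θ X = a * (1 + b * ∏ j, ∑ s : Bool, f j s * ((1 + X j * sg s) / 2)) := by
  have e : cl θ X = a * (∑ τ : Fin K → Bool, ∏ j, (1 + X j * sg (τ j)) / 2 +
      b * ∑ τ : Fin K → Bool, (∏ j, f j (τ j)) * ∏ j, (1 + X j * sg (τ j)) / 2) := by
    simp only [cl, h, mul_sum, ← sum_add_distrib]
    exact sum_congr rfl fun σ _ => by ring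
  rw [e, cl_wt_sum, cl_wt_prod]

theorem UU_eq (θ : Fin M → (Fin K → Bool) → ℝ) (h : ℝ) (l : Fin M → Fin K)
    (X : Fin M × Fin K → ℝ) : UU θ h l X = ∑ ε : Bool, Real.exp (h * sg ε) *
      ∏ k, cl (θ k) (Function.update (fun j => X (k, j)) (l k) (sg ε)) := by
  unfold UU cl
  refine sum_congr rfl fun ε _ => ?_
  congr 1
  refine prod_congr rfl fun k _ => ?_
  rw [sum_filter]
  refine sum_congr rfl fun σ _ => ?_
  rw [← mul_prod_erase univ _ (mem_univ (l k)), Function.update_self, filter_ne',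
    prod_congr (s₂ := univ.erase (l k)) (f := fun j => (1 + Function.update (fun j => X (k, j)) (l k)
      (sg ε) j * sg (σ j)) / 2) (g := fun j => (1 + X (k, j) * sg (σ j)) / 2) rfl
      fun j hj => by rw [Function.update_of_ne (ne_of_mem_erase hj)]]
  cases ε <;> cases σ (l k) <;> simp [sg]

theorem VV_eq (θ : Fin M → (Fin K → Bool) → ℝ) (X : Fin M × Fin K → ℝ) :
    VV θ X = ∏ k, cl (θ k) fun j => X (k, j) := rfl

omit [Fintype J] in
theorem cl_update_sg (τ : J → Bool) (l : J) (ε : Bool) :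
    Function.update (fun j => sg (τ j)) l (sg ε) = fun j => sg (Function.update τ l ε j) := by
  funext j
  by_cases h : j = l
  · subst h; simp
  · simp [Function.update_of_ne h]

theorem UU_spin (θ : Fin M → (Fin K → Bool) → ℝ) (h : ℝ) (l : Fin M → Fin K)
    (τ : Fin M × Fin K → Bool) : UU θ h l (fun j => sg (τ j)) = ∑ ε : Bool,
      Real.exp (h * sg ε + ∑ k, θ k (Function.update (fun j => τ (k, j)) (l k) ε)) := by
  rw [UU_eq]
  refine sum_congr rfl fun ε _ => ?_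
  rw [Real.exp_add, Real.exp_sum]
  congr 1
  refine prod_congr rfl fun k _ => ?_
  rw [cl_update_sg (fun j => τ (k, j)), cl_spin]

theorem VV_spin (θ : Fin M → (Fin K → Bool) → ℝ) (τ : Fin M × Fin K → Bool) :
    VV θ (fun j => sg (τ j)) = Real.exp (∑ k, θ k fun j => τ (k, j)) := by
  rw [VV_eq, Real.exp_sum]
  exact prod_congr rfl fun k _ => cl_spin (θ k) fun j => τ (k, j)

theorem cl_ma_sum {ι : Type} [Fintype ι] (a : ι → ℝ) {Y : ι → (J → ℝ) → ℝ} (h : ∀ i, MA (Y i)) :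
    MA fun X => ∑ i, a i * Y i X := by
  intro X
  simp only [sum_mul]
  rw [sum_comm]
  refine sum_congr rfl fun i _ => ?_
  rw [h i X, mul_sum]
  exact sum_congr rfl fun τ _ => by ring

theorem cl_ma_aff (α β : J → ℝ) : MA fun X => ∏ j, (α j + β j * X j) := by
  intro X
  rw [cl_wt_prod (fun j s => α j + β j * sg s) X]
  refine prod_congr rfl fun j _ => ?_
  simp [sg]; ring

theorem cl_ma_update (θ : (Fin K → Bool) → ℝ) (l : Fin K) (c : ℝ) :
    MA fun X => cl θ (Function.update X l c) := by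
  have := cl_ma_sum (fun σ => Real.exp (θ σ)) fun σ : Fin K → Bool => cl_ma_aff
    (fun j => if j = l then (1 + c * sg (σ j)) / 2 else 1 / 2)
    fun j => if j = l then 0 else sg (σ j) / 2
  have e : (fun X => cl θ (Function.update X l c)) = fun X : Fin K → ℝ => ∑ σ : Fin K → Bool,
      Real.exp (θ σ) * ∏ j, ((if j = l then (1 + c * sg (σ j)) / 2 else 1 / 2) +
        (if j = l then 0 else sg (σ j) / 2) * X j) := by
    funext X
    refine sum_congr rfl fun σ _ => ?_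
    congr 1
    refine prod_congr rfl fun j _ => ?_
    by_cases h : j = l
    · subst h; simp
    · simp only [Function.update_of_ne h, if_neg h]; ring
  rwa [e]

theorem cl_ma_prod {Y : Fin M → (Fin K → ℝ) → ℝ} (h : ∀ k, MA (Y k)) :
    MA fun X : Fin M × Fin K → ℝ => ∏ k, Y k fun j => X (k, j) := by
  intro X
  have e : ∏ k, Y k (fun j => X (k, j)) = ∏ k, ∑ σ : Fin K → Bool,
      Y k (fun j => sg (σ j)) * ∏ j, (1 + X (k, j) * sg (σ j)) / 2 :=
    prod_congr rfl fun k _ => h k _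
  simp only
  rw [e, Fintype.prod_sum]
  refine (Fintype.sum_equiv (Equiv.curry (Fin M) (Fin K) Bool) _ _ fun τ => ?_).symm
  rw [prod_mul_distrib, Fintype.prod_prod_type]
  rfl

theorem UU_ma (θ : Fin M → (Fin K → Bool) → ℝ) (h : ℝ) (l : Fin M → Fin K) : MA (UU θ h l) := by
  have := cl_ma_sum (fun ε => Real.exp (h * sg ε)) fun ε : Bool =>
    cl_ma_prod fun k => cl_ma_update (θ k) (l k) (sg ε)
  have e := funext (UU_eq θ h l)
  rwa [e]

theorem VV_ma (θ : Fin M → (Fin K → Bool) → ℝ) : MA (VV θ) := cl_ma_prod fun k => cl_ma (θ k)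

omit [Fintype J] in
theorem cl_cube_update {X : J → ℝ} (hX : Cube X) (l : J) {c : ℝ} (hc : |c| ≤ 1) :
    Cube (Function.update X l c) := by
  intro j
  by_cases h : j = l
  · subst h; simpa
  · rw [Function.update_of_ne h]; exact hX j

theorem VV_pos (θ : Fin M → (Fin K → Bool) → ℝ) {X : Fin M × Fin K → ℝ} (hX : Cube X) :
    0 < VV θ X := prod_pos fun k _ => cl_pos (θ k) fun j => hX (k, j)

theorem UU_pos (θ : Fin M → (Fin K → Bool) → ℝ) (h : ℝ) (l : Fin M → Fin K)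
    {X : Fin M × Fin K → ℝ} (hX : Cube X) : 0 < UU θ h l X := by
  rw [UU_eq]
  exact sum_pos (fun ε _ => mul_pos (Real.exp_pos _) (prod_pos fun k _ => cl_pos (θ k)
    (cl_cube_update (fun j => hX (k, j)) _ (abs_sg ε).le))) univ_nonempty

theorem cl_prod_le (θ θ' : Fin M → (Fin K → Bool) → ℝ) {δ : Fin M → ℝ}
    (h : ∀ k σ, θ k σ ≤ δ k + θ' k σ) {X : Fin M → Fin K → ℝ} (hX : ∀ k, Cube (X k)) :
    ∏ k, cl (θ k) (X k) ≤ Real.exp (∑ k, δ k) * ∏ k, cl (θ' k) (X k) := by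
  rw [Real.exp_sum, ← prod_mul_distrib]
  exact prod_le_prod (fun k _ => (cl_pos _ (hX k)).le) fun k _ => cl_le _ _ (h k) (hX k)

theorem UU_le (θ θ' : Fin M → (Fin K → Bool) → ℝ) {δ : Fin M → ℝ}
    (hθ : ∀ k σ, θ k σ ≤ δ k + θ' k σ) (h h' : ℝ) (l : Fin M → Fin K)
    {X : Fin M × Fin K → ℝ} (hX : Cube X) :
    UU θ h l X ≤ Real.exp (∑ k, δ k + |h - h'|) * UU θ' h' l X := by
  rw [UU_eq, UU_eq, mul_sum]
  refine sum_le_sum fun ε _ => ?_
  have hc : ∀ k, Cube (Function.update (fun j => X (k, j)) (l k) (sg ε)) := fun k =>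
    cl_cube_update (fun j => hX (k, j)) _ (abs_sg ε).le
  have h1 : Real.exp (h * sg ε) ≤ Real.exp (|h - h'|) * Real.exp (h' * sg ε) := by
    rw [← Real.exp_add, Real.exp_le_exp]
    have := le_abs_self ((h - h') * sg ε)
    rw [abs_mul, abs_sg] at this
    linarith
  refine (mul_le_mul h1 (cl_prod_le θ θ' hθ hc) (prod_nonneg fun k _ => (cl_pos _ (hc k)).le)
    (by positivity)).trans_eq ?_
  rw [Real.exp_add]; ring

theorem UU_lip (θ θ' : Fin M → (Fin K → Bool) → ℝ) (h h' : ℝ) (l : Fin M → Fin K)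
    {X : Fin M × Fin K → ℝ} (hX : Cube X) :
    |Real.log (UU θ h l X) - Real.log (UU θ' h' l X)| ≤ ∑ k, ‖θ k - θ' k‖ + |h - h'| :=
  cl_abs_log_le (UU_pos _ _ _ hX) (UU_pos _ _ _ hX)
    (UU_le _ _ (fun k σ => (cl_sub_le (θ k) (θ' k) σ).1) h h' l hX)
    (abs_sub_comm h' h ▸ UU_le _ _ (fun k σ => (cl_sub_le (θ k) (θ' k) σ).2) h' h l hX)

theorem VV_lip (θ θ' : Fin M → (Fin K → Bool) → ℝ) {X : Fin M × Fin K → ℝ} (hX : Cube X) :
    |Real.log (VV θ X) - Real.log (VV θ' X)| ≤ ∑ k, ‖θ k - θ' k‖ :=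
  cl_abs_log_le (VV_pos _ hX) (VV_pos _ hX)
    (cl_prod_le _ _ (fun k σ => (cl_sub_le (θ k) (θ' k) σ).1) fun k j => hX (k, j))
    (cl_prod_le _ _ (fun k σ => (cl_sub_le (θ k) (θ' k) σ).2) fun k j => hX (k, j))

theorem cl_norm_sum_le {θ : Fin M → (Fin K → Bool) → ℝ} {c : ℝ} (hc : 0 ≤ c)
    (hθ : ∀ k σ, |θ k σ| ≤ c) : ∑ k, ‖θ k - fun _ => 0‖ ≤ M * c := by
  refine (sum_le_card_nsmul _ _ c fun k _ => ?_).trans_eq (by simp)
  exact (pi_norm_le_iff_of_nonneg hc).2 fun σ => by simpa using hθ k σ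

theorem UU_bd {θ : Fin M → (Fin K → Bool) → ℝ} {h c : ℝ} (hθ : ∀ k σ, |θ k σ| ≤ c)
    (hh : |h| ≤ c) (l : Fin M → Fin K) : Bd ((c + 1) * (M + 1)) (UU θ h l) := by
  intro X hX
  refine ⟨UU_pos _ _ _ hX, ?_⟩
  have h1 := UU_lip θ (fun _ _ => 0) h 0 l hX
  have h2 : UU (fun _ _ => 0) 0 l X = 2 := by
    rw [UU_eq]
    simp [cl_zero]
  have h3 := cl_norm_sum_le ((abs_nonneg h).trans hh) hθ
  have h4 : Real.log 2 ≤ 1 := by linarith [Real.log_le_sub_one_of_pos two_pos]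
  have h5 : 0 ≤ Real.log 2 := Real.log_nonneg one_le_two
  have h6 : (0 : ℝ) ≤ M := Nat.cast_nonneg M
  rw [h2, sub_zero] at h1
  have := abs_le.1 h1
  rw [abs_le]
  constructor <;> nlinarith

theorem VV_bd {θ : Fin M → (Fin K → Bool) → ℝ} {c : ℝ} (hc : 0 ≤ c) (hθ : ∀ k σ, |θ k σ| ≤ c) :
    Bd ((c + 1) * (M + 1)) (VV θ) := by
  intro X hX
  refine ⟨VV_pos _ hX, ?_⟩
  have h1 := VV_lip θ (fun _ _ => 0) hX
  have h2 : VV (fun _ _ => 0) X = 1 := by
    rw [VV_eq]
    simp [cl_zero]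
  have h3 := cl_norm_sum_le hc hθ
  have h6 : (0 : ℝ) ≤ M := Nat.cast_nonneg M
  rw [h2, Real.log_one, sub_zero] at h1
  nlinarith

theorem MA.continuous {Y : (J → ℝ) → ℝ} (h : MA Y) : Continuous Y := by
  have e : Y = fun X => ∑ τ : J → Bool,
    Y (fun j => sg (τ j)) * ∏ j, (1 + X j * sg (τ j)) / 2 := funext h
  rw [e]
  fun_prop

theorem MA.cl_update {Y : (J → ℝ) → ℝ} (h : MA Y) (Z : J → ℝ) (j : J) (t t' : ℝ) :
    Y (Function.update Z j t) - Y (Function.update Z j t') =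
      (t - t') / 2 * (Y (Function.update Z j 1) - Y (Function.update Z j (-1))) := by
  have key : ∀ (s : ℝ) (τ : J → Bool), ∏ i, (1 + Function.update Z j s i * sg (τ i)) / 2 =
      (1 + s * sg (τ j)) / 2 * ∏ i ∈ univ.erase j, (1 + Z i * sg (τ i)) / 2 := by
    intro s τ
    rw [← mul_prod_erase univ _ (mem_univ j), Function.update_self]
    congr 1
    exact prod_congr rfl fun i hi => by rw [Function.update_of_ne (ne_of_mem_erase hi)]
  rw [h (Function.update Z j t), h (Function.update Z j t'), h (Function.update Z j 1),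
    h (Function.update Z j (-1))]
  simp only [key, ← sum_sub_distrib, mul_sum]
  exact sum_congr rfl fun τ _ => by ring

omit [Fintype J] [DecidableEq J] in
theorem Bd.cl_le {Y : (J → ℝ) → ℝ} {c : ℝ} (hc : Bd c Y) {X : J → ℝ} (hX : Cube X) :
    Real.exp (-c) ≤ Y X ∧ Y X ≤ Real.exp c := by
  obtain ⟨h1, h2⟩ := hc X hX
  rw [← Real.exp_log h1, Real.exp_le_exp, Real.exp_le_exp]
  exact abs_le.1 h2

theorem MA.cl_lip {Y : (J → ℝ) → ℝ} (h : MA Y) {c : ℝ} (hc : Bd c Y) {X X' : J → ℝ} (hX : Cube X)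
    (hX' : Cube X') : |Y X - Y X'| ≤ Real.exp c * ∑ j, |X j - X' j| := by
  have key : ∀ s : Finset J, |Y (s.piecewise X X') - Y X'| ≤ Real.exp c * ∑ j ∈ s, |X j - X' j| := by
    intro s
    induction s using Finset.induction_on with
    | empty => simp
    | insert j s hj ih =>
      have hZ : Cube (s.piecewise X X') := fun i => by
        by_cases hi : i ∈ s
        · rw [piecewise_eq_of_mem _ _ _ hi]; exact hX i
        · rw [piecewise_eq_of_notMem _ _ _ hi]; exact hX' i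
      have e : s.piecewise X X' = Function.update (s.piecewise X X') j (X' j) := by
        rw [← piecewise_eq_of_notMem s X X' hj, Function.update_eq_self]
      have h1 := h.cl_update (s.piecewise X X') j (X j) (X' j)
      rw [← e, ← piecewise_insert] at h1
      have a1 := hc.cl_le (cl_cube_update hZ j (c := 1) (by simp))
      have a2 := hc.cl_le (cl_cube_update hZ j (c := -1) (by simp))
      have a3 := Real.exp_pos (-c)
      have h2 : |Y (Function.update (s.piecewise X X') j 1) -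
          Y (Function.update (s.piecewise X X') j (-1))| ≤ Real.exp c :=
        abs_le.2 ⟨by linarith [a1.1, a2.2], by linarith [a1.2, a2.1]⟩
      have h3 : |Y ((insert j s).piecewise X X') - Y (s.piecewise X X')| ≤
          Real.exp c * |X j - X' j| := by
        rw [h1, abs_mul, abs_div, abs_two]
        nlinarith [abs_nonneg (X j - X' j), Real.exp_pos c]
      rw [sum_insert hj, mul_add]
      exact (abs_sub_le _ _ _).trans (add_le_add h3 ih)
  simpa using key univ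

theorem MA.lip {Y : (J → ℝ) → ℝ} (h : MA Y) {c : ℝ} (hc : Bd c Y) {X X' : J → ℝ} (hX : Cube X)
    (hX' : Cube X') :
    |Real.log (Y X) - Real.log (Y X')| ≤ Real.exp (2 * c) * ∑ j, |X j - X' j| := by
  have key : ∀ {a b δ : ℝ}, Real.exp (-c) ≤ a → Real.exp (-c) ≤ b → a - b ≤ δ → 0 ≤ δ →
      Real.log a - Real.log b ≤ Real.exp c * δ := by
    intro a b δ ha hb h hδ
    have ha' := (Real.exp_pos _).trans_le ha
    have hb' := (Real.exp_pos _).trans_le hb
    have h1 := Real.log_le_sub_one_of_pos (div_pos ha' hb')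
    rw [Real.log_div ha'.ne' hb'.ne'] at h1
    refine h1.trans ?_
    rw [div_sub_one hb'.ne', div_le_iff₀ hb']
    have h2 : 1 ≤ Real.exp c * b := by
      have := mul_le_mul_of_nonneg_left hb (Real.exp_pos c).le
      rwa [← Real.exp_add, add_neg_cancel, Real.exp_zero] at this
    nlinarith
  have h1 := abs_le.1 (h.cl_lip hc hX hX')
  have h0 : 0 ≤ Real.exp c * ∑ j, |X j - X' j| :=
    mul_nonneg (Real.exp_pos c).le (sum_nonneg fun _ _ => abs_nonneg _)
  rw [two_mul, Real.exp_add, mul_assoc, abs_le]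
  exact ⟨by linarith [key (hc.cl_le hX').1 (hc.cl_le hX).1 (by linarith [h1.1]) h0],
    key (hc.cl_le hX).1 (hc.cl_le hX').1 h1.2 h0⟩

theorem logZ_lip (N : ℕ) (θ θ' : Fin M → (Fin K → Bool) → ℝ) (h h' : Fin N → ℝ) :
    |logZ N θ h - logZ N θ' h'| ≤ ∑ k, ‖θ k - θ' k‖ + ∑ i, |h i - h' i| := by
  unfold logZ
  rw [← avg_sub]
  refine abs_avg_le_of (by positivity) fun idx => ?_
  have key : ∀ σ, |ham θ idx h σ - ham θ' idx h' σ| ≤ ∑ k, ‖θ k - θ' k‖ + ∑ i, |h i - h' i| := by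
    intro σ
    have e : ham θ idx h σ - ham θ' idx h' σ = ∑ k, (θ k - θ' k) (fun j => σ (idx k j)) +
        ∑ i, (h i - h' i) * sg (σ i) := by
      simp only [ham, Pi.sub_apply, sub_mul, sum_sub_distrib]; ring
    rw [e]
    refine (abs_add_le _ _).trans (add_le_add ((abs_sum_le_sum_abs _ _).trans
      (sum_le_sum fun k _ => norm_le_pi_norm (θ k - θ' k) _))
      ((abs_sum_le_sum_abs _ _).trans (sum_le_sum fun i _ => ?_)))
    rw [abs_mul, abs_sg, mul_one]
  refine cl_abs_log_le (sum_pos (fun _ _ => Real.exp_pos _) univ_nonempty)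
    (sum_pos (fun _ _ => Real.exp_pos _) univ_nonempty) ?_ ?_ <;>
  · rw [mul_sum]
    refine sum_le_sum fun σ _ => ?_
    rw [← Real.exp_add, Real.exp_le_exp]
    linarith [(abs_le.1 (key σ)).1, (abs_le.1 (key σ)).2]

theorem logZ_zero (N : ℕ) : |logZ N (0 : Fin M → (Fin K → Bool) → ℝ) 0| ≤ N := by
  unfold logZ
  refine abs_avg_le_of (Nat.cast_nonneg N) fun idx => ?_
  have h4 : Real.log 2 ≤ 1 := by linarith [Real.log_le_sub_one_of_pos two_pos]
  have h5 : 0 ≤ Real.log 2 := Real.log_nonneg one_le_two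
  have h6 : (0 : ℝ) ≤ N := Nat.cast_nonneg N
  simp only [ham, Pi.zero_apply, sum_const_zero, zero_mul, add_zero, Real.exp_zero, sum_const,
    card_univ, Fintype.card_pi, Fintype.card_bool, prod_const, Fintype.card_fin, nsmul_eq_mul,
    mul_one, Nat.cast_pow, Nat.cast_ofNat, Real.log_pow]
  rw [abs_of_nonneg (mul_nonneg h6 h5)]
  nlinarith

end

end Vale.Agent.P168
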