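import Vale.Agent.P168.Casc2

/-! Poisson sums over finite types. -/

namespace Vale.Agent.P168

open Finset

theorem po_nonneg {a : ℝ} (ha : 0 ≤ a) (M : ℕ) : 0 ≤ po a M := by
  unfold po
  positivity

theorem hasSum_po (a : ℝ) : HasSum (po a) 1 := by
  have h := (NormedSpace.expSeries_div_hasSum_exp a).mul_left (Real.exp (-a))
  rw [← Real.exp_eq_exp_ℝ, ← Real.exp_add, neg_add_cancel, Real.exp_zero] at h
  have e : po a = fun M => Real.exp (-a) * (a ^ M / M.factorial) :=
    funext fun M => mul_div_assoc _ _ _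
  rw [e]
  exact h

theorem hasSum_po_mul (a : ℝ) : HasSum (fun M => po a M * M) a := by
  rw [← hasSum_nat_add_iff' 1]
  have h := (hasSum_po a).mul_left a
  have e : (fun n : ℕ => po a (n + 1) * ((n + 1 : ℕ) : ℝ)) = fun n => a * po a n := funext fun n => by
    unfold po
    rw [Nat.factorial_succ, Nat.cast_mul, pow_succ]
    have h1 : ((n + 1 : ℕ) : ℝ) ≠ 0 := by positivity
    have h2 : (n.factorial : ℝ) ≠ 0 := by positivity
    field_simp
  rw [e]
  simpa using h

theorem hasSum_po_succ (a C : ℝ) : HasSum (fun M => po a M * (C * (M + 1))) (C * (a + 1)) := by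
  have h := ((hasSum_po_mul a).add (hasSum_po a)).mul_left C
  have e : (fun M : ℕ => po a M * (C * (M + 1))) = fun M => C * (po a M * M + po a M) :=
    funext fun M => by ring
  rw [e]
  exact h

section
variable {Θ : Type} [Fintype Θ] {p : Θ → ℝ} {a C C' : ℝ} {G G' : (M : ℕ) → (Fin M → Θ) → ℝ}

theorem Prob.pi (hp : Prob p) (J : Type) [Fintype J] [DecidableEq J] :
    Prob fun c : J → Θ => ∏ k, p (c k) := by
  refine ⟨fun c => prod_nonneg fun k _ => hp.1 _, ?_⟩
  rw [← Fintype.prod_sum fun (_ : J) (t : Θ) => p t]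
  simp only [hp.2, prod_const_one]

theorem Prob.sum_const (hp : Prob p) (c : ℝ) : ∑ t, p t * c = c := by
  rw [← sum_mul, hp.2, one_mul]

theorem Prob.sum_le (hp : Prob p) {f g : Θ → ℝ} {c : ℝ} (h : ∀ t, f t ≤ g t + c) :
    ∑ t, p t * f t ≤ ∑ t, p t * g t + c := by
  rw [← hp.sum_const c, ← sum_add_distrib]
  exact sum_le_sum fun t _ => by
    rw [← mul_add]
    exact mul_le_mul_of_nonneg_left (h t) (hp.1 t)

theorem Prob.abs_le (hp : Prob p) {f : Θ → ℝ} {c : ℝ} (h : ∀ t, |f t| ≤ c) :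
    |∑ t, p t * f t| ≤ c := by
  refine (abs_sum_le_sum_abs _ _).trans ((sum_le_sum fun t _ => ?_).trans_eq (hp.sum_const c))
  rw [abs_mul, abs_of_nonneg (hp.1 t)]
  exact mul_le_mul_of_nonneg_left (h t) (hp.1 t)

theorem Prob.unif (hp : Prob p) (I : Type) [Fintype I] [Nonempty I] :
    Prob fun x : Θ × I => p x.1 * (Fintype.card I : ℝ)⁻¹ := by
  refine ⟨fun x => mul_nonneg (hp.1 _) (by positivity), ?_⟩
  have h : (Fintype.card I : ℝ) ≠ 0 := by exact_mod_cast Fintype.card_ne_zero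
  simp only [Fintype.sum_prod_type, ← mul_sum, Finset.sum_const, card_univ, nsmul_eq_mul,
    mul_inv_cancel₀ h, mul_one, hp.2]

theorem PF_term (hp : Prob p) (ha : 0 ≤ a) (hG : Gr C G) (M : ℕ) :
    ‖po a M * ∑ c : Fin M → Θ, (∏ k, p (c k)) * G M c‖ ≤ po a M * (C * (M + 1)) := by
  rw [Real.norm_eq_abs, abs_mul, abs_of_nonneg (po_nonneg ha M)]
  exact mul_le_mul_of_nonneg_left ((hp.pi (Fin M)).abs_le (hG M)) (po_nonneg ha M)

theorem PF_summable (hp : Prob p) (ha : 0 ≤ a) (hG : Gr C G) :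
    Summable fun M => po a M * ∑ c : Fin M → Θ, (∏ k, p (c k)) * G M c :=
  Summable.of_norm_bounded (hasSum_po_succ a C).summable (PF_term hp ha hG)

theorem PF_const (hp : Prob p) (a c : ℝ) : PF p a (fun _ _ => c) = c := by
  have h := ((hasSum_po a).mul_right c).tsum_eq
  rw [one_mul] at h
  exact (tsum_congr fun M => by rw [(hp.pi (Fin M)).sum_const]).trans h

theorem PF_add (hp : Prob p) (ha : 0 ≤ a) (hG : Gr C G) (hG' : Gr C' G') :
    PF p a (fun M c => G M c + G' M c) = PF p a G + PF p a G' := by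
  rw [PF, PF, PF, ← (PF_summable hp ha hG).tsum_add (PF_summable hp ha hG')]
  simp only [mul_add, sum_add_distrib]

theorem PF_add_const (hp : Prob p) (ha : 0 ≤ a) (hG : Gr C G) (b : ℝ) :
    PF p a (fun M c => G M c + b) = PF p a G + b := by
  rw [PF_add hp ha hG (C' := |b|) (G' := fun _ _ => b) fun M _ =>
    le_mul_of_one_le_right (abs_nonneg b) (le_add_of_nonneg_left (Nat.cast_nonneg M)), PF_const hp]

theorem PF_sum (hp : Prob p) (ha : 0 ≤ a) {ι : Type} (s : Finset ι) (w : ι → ℝ)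
    {F : ι → (M : ℕ) → (Fin M → Θ) → ℝ} (hF : ∀ i ∈ s, Gr C (F i)) :
    PF p a (fun M c => ∑ i ∈ s, w i * F i M c) = ∑ i ∈ s, w i * PF p a (F i) := by
  refine HasSum.tsum_eq ?_
  have h := hasSum_sum fun i hi => (PF_summable hp ha (hF i hi)).hasSum.mul_left (w i)
  have e : (fun M => po a M * ∑ c : Fin M → Θ, (∏ k, p (c k)) * ∑ i ∈ s, w i * F i M c) =
      fun M => ∑ i ∈ s, w i * (po a M * ∑ c : Fin M → Θ, (∏ k, p (c k)) * F i M c) :=
    funext fun M => by
      simp only [mul_sum]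
      rw [sum_comm]
      exact sum_congr rfl fun i _ => sum_congr rfl fun c _ => by ring
  rw [e]
  exact h

theorem PF_mono (hp : Prob p) (ha : 0 ≤ a) (hG : Gr C G) (hG' : Gr C' G')
    (h : ∀ M c, G M c ≤ G' M c) : PF p a G ≤ PF p a G' :=
  (PF_summable hp ha hG).tsum_le_tsum (fun M => mul_le_mul_of_nonneg_left
    (sum_le_sum fun c _ => mul_le_mul_of_nonneg_left (h M c) ((hp.pi (Fin M)).1 c))
    (po_nonneg ha M)) (PF_summable hp ha hG')

theorem abs_PF_le (hp : Prob p) (ha : 0 ≤ a) (hG : Gr C G) : |PF p a G| ≤ C * (a + 1) :=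
  tsum_of_norm_bounded (hasSum_po_succ a C) (PF_term hp ha hG)

theorem Prob.pi_coord (hp : Prob p) {J : Type} [Fintype J] [DecidableEq J] (φ : Θ → ℝ) (k : J) :
    ∑ c : J → Θ, (∏ j, p (c j)) * φ (c k) = ∑ t, p t * φ t := by
  have h := Fintype.prod_sum fun (j : J) (t : Θ) => p t * if j = k then φ t else 1
  simp only [prod_mul_distrib, prod_ite_eq', mem_univ, if_true] at h
  rw [← h, prod_eq_single k]
  · simp only [if_true]
  · intro j _ hj
    simp only [if_neg hj, mul_one, hp.2]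
  · exact fun hk => absurd (mem_univ k) hk

theorem PF_single (hp : Prob p) (a : ℝ) (φ : Θ → ℝ) :
    PF p a (fun _ c => ∑ k, φ (c k)) = a * ∑ t, p t * φ t := by
  refine (tsum_congr fun M => ?_).trans ((hasSum_po_mul a).mul_right _).tsum_eq
  simp only [mul_sum _ _ (∏ _k : Fin M, _)]
  rw [sum_comm]
  simp only [hp.pi_coord, Finset.sum_const, card_univ, Fintype.card_fin, nsmul_eq_mul, mul_assoc]

theorem PF_unif {I : Type} [Fintype I] (p : Θ → ℝ) (a : ℝ)
    (G : (M : ℕ) → (Fin M → Θ × I) → ℝ) :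
    PF (fun x : Θ × I => p x.1 * (Fintype.card I : ℝ)⁻¹) a G =
      PF p a fun M c => avg fun idx : Fin M → I => G M fun k => (c k, idx k) := by
  refine tsum_congr fun M => congrArg _ ?_
  rw [← (Equiv.arrowProdEquivProdArrow (Fin M) (fun _ => Θ) fun _ => I).symm.sum_comp,
    Fintype.sum_prod_type]
  refine sum_congr rfl fun c _ => ?_
  simp only [avg]
  rw [div_eq_mul_inv, sum_mul, mul_sum]
  refine sum_congr rfl fun idx _ => ?_
  rw [prod_mul_distrib, prod_const, Fintype.card_fun, Nat.cast_pow, ← inv_pow, card_univ, mul_assoc,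
    mul_comm (_ ^ _)]
  rfl

end

/-- truncation -/
theorem PF_trunc {a : ℝ} (ha : 0 ≤ a) (C : ℝ) {ε : ℝ} (hε : 0 < ε) :
    ∃ M₀ : ℕ, ∀ (Θ : Type) [Fintype Θ] (p : Θ → ℝ) (G G' : (M : ℕ) → (Fin M → Θ) → ℝ) (δ : ℝ),
      Prob p → Gr C G → Gr C G' → 0 ≤ δ → (∀ M ≤ M₀, ∀ c, G M c ≤ G' M c + δ) →
        PF p a G ≤ PF p a G' + δ + ε := by
  have h1 := hasSum_po_succ a (2 * C)
  obtain ⟨N, hN⟩ := Filter.eventually_atTop.1 (h1.tendsto_sum_nat.eventually
    (lt_mem_nhds (sub_lt_self (2 * C * (a + 1)) hε)))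
  refine ⟨N, fun Θ _ p G G' δ hp hG hG' hδ h => ?_⟩
  have h2 : HasSum (fun M => if M ∈ range N then po a M * (2 * C * (M + 1)) else 0)
      (∑ M ∈ range N, po a M * (2 * C * (M + 1))) := by
    have := hasSum_sum_of_ne_finset_zero (L := SummationFilter.unconditional ℕ) (s := range N)
      (f := fun M => if M ∈ range N then po a M * (2 * C * (M + 1)) else 0) fun M hM => if_neg hM
    rwa [sum_congr rfl fun M hM => if_pos hM] at this
  have h3 := hasSum_le (fun M => ?_) (PF_summable hp ha hG).hasSum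
    (((PF_summable hp ha hG').hasSum.add ((hasSum_po a).mul_right δ)).add (h1.sub h2))
  · have h4 := hN N le_rfl
    rw [PF, PF]
    linarith
  · have h0 := po_nonneg ha M
    split_ifs with hM
    · rw [sub_self, add_zero, ← mul_add]
      exact mul_le_mul_of_nonneg_left
        ((hp.pi (Fin M)).sum_le (h M (mem_range.1 hM).le)) h0
    · rw [sub_zero, ← mul_add, ← mul_add, add_assoc]
      refine mul_le_mul_of_nonneg_left ((hp.pi (Fin M)).sum_le fun c => ?_) h0
      linarith [(abs_le.1 (hG M c)).2, (abs_le.1 (hG' M c)).1]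

end Vale.Agent.P168
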