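import Vale.Agent.P168.FDefs

/-! Poisson operators on a commutative monoid. -/

namespace Vale.Agent.P168

open Finset

section
variable {S : Type} [AddCommMonoid S] {𝒜 : Set S} {ν ν' : S →₀ ℝ} {c : ℝ} {Φ Ψ : S → ℝ}

omit [AddCommMonoid S] in
theorem Jmp.add (h : Jmp 𝒜 ν) (h' : Jmp 𝒜 ν') : Jmp 𝒜 (ν + ν') := by
  classical
  refine ⟨fun s => add_nonneg (h.1 s) (h'.1 s), fun s hs => ?_⟩
  rcases mem_union.1 (Finsupp.support_add hs) with h1 | h1
  exacts [h.2 s h1, h'.2 s h1]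

omit [AddCommMonoid S] in
theorem Jmp.sum {ι : Type} {s : Finset ι} {f : ι → S →₀ ℝ} (h : ∀ i ∈ s, Jmp 𝒜 (f i)) :
    Jmp 𝒜 (∑ i ∈ s, f i) :=
  sum_induction f (Jmp 𝒜) (fun _ _ => Jmp.add) ⟨fun _ => le_rfl, by simp⟩ h

omit [AddCommMonoid S] in
theorem mass_add (ν ν' : S →₀ ℝ) : mass (ν + ν') = mass ν + mass ν' :=
  Finsupp.sum_add_index' (fun _ => rfl) fun _ _ _ => rfl

theorem LL_add (ν ν' : S →₀ ℝ) : LL (ν + ν') = LL ν + LL ν' := by
  ext Φ η
  exact Finsupp.sum_add_index' (h := fun s w => w * Φ (η + s)) (fun _ => zero_mul _)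
    fun _ _ _ => add_mul _ _ _

theorem poi_succ (ν : S →₀ ℝ) (M : ℕ) (Φ : S → ℝ) (η : S) :
    (LL ν ^ (M + 1)) Φ η = ∑ s ∈ ν.support, ν s * (LL ν ^ M) Φ (η + s) := by
  rw [pow_succ']
  rfl

omit [AddCommMonoid S] in
theorem poi_mass (ν : S →₀ ℝ) (a : ℝ) : ∑ s ∈ ν.support, ν s * a = mass ν * a :=
  (sum_mul _ _ _).symm

omit [AddCommMonoid S] in
theorem poi_m0 (h : Jmp 𝒜 ν) : 0 ≤ mass ν := sum_nonneg fun s _ => h.1 s

theorem poi_le (h : Jmp 𝒜 ν) (hle : ∀ x, Φ x ≤ Ψ x) (M : ℕ) (η : S) :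
    (LL ν ^ M) Φ η ≤ (LL ν ^ M) Ψ η := by
  induction M generalizing η with
  | zero => exact hle η
  | succ M ih =>
    rw [poi_succ, poi_succ]
    exact sum_le_sum fun s _ => mul_le_mul_of_nonneg_left (ih _) (h.1 s)

theorem poi_inv (h : ∀ s ∈ ν.support, ∀ x, Φ (x + s) = Φ x) (M : ℕ) (η : S) :
    (LL ν ^ M) Φ η = mass ν ^ M * Φ η := by
  induction M generalizing η with
  | zero => simp
  | succ M ih =>
    rw [poi_succ, pow_succ', mul_assoc, ← poi_mass]
    exact sum_congr rfl fun s hs => by rw [ih, h s hs]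

theorem poi_lip (h : Jmp 𝒜 ν) (hΦ : Lip 𝒜 c Φ) (M : ℕ) :
    Lip 𝒜 (mass ν ^ M * c) ((LL ν ^ M) Φ) := by
  intro s hs η
  induction M generalizing η with
  | zero => simpa using hΦ s hs η
  | succ M ih =>
    rw [poi_succ, poi_succ, ← sum_sub_distrib, pow_succ', mul_assoc, ← poi_mass]
    refine (abs_sum_le_sum_abs _ _).trans (sum_le_sum fun x _ => ?_)
    rw [← mul_sub, abs_mul, abs_of_nonneg (h.1 x), add_right_comm]
    exact mul_le_mul_of_nonneg_left (ih _) (h.1 x)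

theorem poi_key (h : Jmp 𝒜 ν) (hΦ : Lip 𝒜 c Φ) (M : ℕ) (η : S) :
    |(LL ν ^ M) Φ η - mass ν ^ M * Φ η| ≤ mass ν ^ M * M * c := by
  induction M with
  | zero => simp
  | succ M ih =>
    have e : mass ν ^ (M + 1) * (M + 1 : ℕ) * c =
        mass ν * (mass ν ^ M * c + mass ν ^ M * M * c) := by
      push_cast
      ring
    rw [poi_succ, e, pow_succ', mul_assoc, ← poi_mass, ← poi_mass, ← sum_sub_distrib]
    refine (abs_sum_le_sum_abs _ _).trans (sum_le_sum fun x hx => ?_)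
    rw [← mul_sub, abs_mul, abs_of_nonneg (h.1 x)]
    exact mul_le_mul_of_nonneg_left ((abs_sub_le _ _ _).trans
      (add_le_add (poi_lip h hΦ M x (h.2 x hx) η) ih)) (h.1 x)

theorem poi_s0 (a : ℝ) : HasSum (fun M : ℕ => Real.exp (-a) / M.factorial * a ^ M) 1 := by
  have h := (NormedSpace.expSeries_div_hasSum_exp a).mul_left (Real.exp (-a))
  rw [← Real.exp_eq_exp_ℝ, ← Real.exp_add, neg_add_cancel, Real.exp_zero] at h
  simpa only [div_mul_eq_mul_div, mul_div_assoc] using h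

theorem poi_s1 (a : ℝ) : HasSum (fun M : ℕ => Real.exp (-a) / M.factorial * (a ^ M * M)) a := by
  refine (hasSum_nat_add_iff' 1).1 ?_
  have e : ∀ M : ℕ, Real.exp (-a) / (M + 1).factorial * (a ^ (M + 1) * (M + 1 : ℕ)) =
      a * (Real.exp (-a) / M.factorial * a ^ M) := by
    intro M
    rw [Nat.factorial_succ]
    push_cast
    field_simp
    ring
  simpa only [e, sum_range_one, Nat.cast_zero, mul_zero, sub_zero, mul_one] using
    (poi_s0 a).mul_left a

theorem poi_abs (h : Jmp 𝒜 ν) (hΦ : Lip 𝒜 c Φ) (M : ℕ) (η : S) :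
    |(LL ν ^ M) Φ η| ≤ mass ν ^ M * |Φ η| + mass ν ^ M * M * c := by
  have h1 := poi_key h hΦ M η
  have h2 := abs_sub_abs_le_abs_sub ((LL ν ^ M) Φ η) (mass ν ^ M * Φ η)
  rw [abs_mul, abs_of_nonneg (pow_nonneg (poi_m0 h) M)] at h2
  linarith

theorem poi_hs (h : Jmp 𝒜 ν) (hΦ : Lip 𝒜 c Φ) (η : S) :
    HasSum (fun M : ℕ => Real.exp (-mass ν) / M.factorial * (LL ν ^ M) Φ η) (Pois ν Φ η) := by
  refine (Summable.of_norm_bounded (((poi_s0 (mass ν)).mul_right |Φ η|).add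
    ((poi_s1 (mass ν)).mul_right c)).summable fun M => ?_).hasSum
  rw [Real.norm_eq_abs, abs_mul, abs_of_nonneg (by positivity), mul_assoc, mul_assoc, ← mul_add]
  exact mul_le_mul_of_nonneg_left (poi_abs h hΦ M η) (by positivity)

theorem poi_tsum (ν : S →₀ ℝ) {F : ℕ → S → ℝ} (hF : ∀ x, HasSum (fun j => F j x) (Φ x)) (M : ℕ)
    (η : S) : HasSum (fun j => (LL ν ^ M) (F j) η) ((LL ν ^ M) Φ η) := by
  induction M generalizing η with
  | zero => exact hF η
  | succ M ih =>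
    simp only [poi_succ]
    exact hasSum_sum fun s _ => (ih _).mul_left _

theorem poi_comm (ν ν' : S →₀ ℝ) : Commute (LL ν) (LL ν') := by
  ext Φ η
  change ∑ s ∈ ν.support, ν s * ∑ x ∈ ν'.support, ν' x * Φ (η + s + x) =
    ∑ x ∈ ν'.support, ν' x * ∑ s ∈ ν.support, ν s * Φ (η + x + s)
  simp only [mul_sum]
  rw [sum_comm]
  exact sum_congr rfl fun x _ => sum_congr rfl fun s _ => by rw [add_right_comm, mul_left_comm]

theorem pois_add (h : Jmp 𝒜 ν) (h' : Jmp 𝒜 ν') (hΦ : Lip 𝒜 c Φ) (η : S) :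
    Pois (ν + ν') Φ η = Pois ν (Pois ν' Φ) η := by
  obtain ⟨f, hf⟩ : ∃ f : ℕ × ℕ → ℝ, f = fun q => Real.exp (-mass ν) / q.1.factorial *
    (LL ν ^ q.1) ((Real.exp (-mass ν') / q.2.factorial) • (LL ν' ^ q.2) Φ) η := ⟨_, rfl⟩
  have m0 := poi_m0 h
  have m1 := poi_m0 h'
  have hs : Summable f := by
    have a0 := (poi_s0 (mass ν)).summable
    have a1 := (poi_s1 (mass ν)).summable
    have b0 := (poi_s0 (mass ν')).summable
    have b1 := (poi_s1 (mass ν')).summable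
    refine Summable.of_norm_bounded ((((a0.mul_of_nonneg b0 (fun _ => by positivity)
      fun _ => by positivity).mul_right |Φ η|).add ((a0.mul_of_nonneg b1 (fun _ => by positivity)
      fun _ => by positivity).mul_right c)).add ((a1.mul_of_nonneg b0 (fun _ => by positivity)
      fun _ => by positivity).mul_right c)) fun q => ?_
    have h1 := poi_abs h (poi_lip h' hΦ q.2) q.1 η
    have h2 := mul_le_mul_of_nonneg_left (poi_abs h' hΦ q.2 η) (pow_nonneg m0 q.1)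
    have h3 : 0 ≤ Real.exp (-mass ν) / q.1.factorial * (Real.exp (-mass ν') / q.2.factorial) := by
      positivity
    simp only [hf, map_smul, Pi.smul_apply, smul_eq_mul]
    rw [Real.norm_eq_abs, ← mul_assoc, abs_mul, abs_of_nonneg h3]
    refine (mul_le_mul_of_nonneg_left (h1.trans (add_le_add_left h2 _)) h3).trans (le_of_eq ?_)
    ring
  have e0 : ∀ i, HasSum (fun j => f (i, j))
      (Real.exp (-mass ν) / i.factorial * (LL ν ^ i) (Pois ν' Φ) η) := by
    intro i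
    simp only [hf]
    exact (poi_tsum ν (F := fun j => (Real.exp (-mass ν') / j.factorial) • (LL ν' ^ j) Φ)
      (poi_hs h' hΦ) i η).mul_left _
  have e1 := hs.hasSum.prod_fiberwise e0
  have e2 := (HasAntidiagonal.sigmaAntidiagonalEquivProd.hasSum_iff.2 hs.hasSum).sigma
    fun n => (antidiagonal n).hasSum f
  rw [Pois, Pois, e1.tsum_eq, ← e2.tsum_eq]
  refine tsum_congr fun M => ?_
  rw [LL_add, (poi_comm ν ν').add_pow', LinearMap.sum_apply, Finset.sum_apply, mul_sum]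
  refine sum_congr rfl fun q hq => ?_
  have e3 : ((M.choose q.1 : ℕ) : ℝ) * q.1.factorial * q.2.factorial = M.factorial := by
    rw [← mem_antidiagonal.1 hq, add_comm, mul_right_comm]
    exact_mod_cast Nat.add_choose_mul_factorial_mul_factorial q.2 q.1
  have e4 : ((M.choose q.1 : ℕ) : ℝ) ≠ 0 := by
    intro h0
    rw [h0, zero_mul, zero_mul] at e3
    exact_mod_cast M.factorial_ne_zero (by exact_mod_cast e3.symm)
  rw [LinearMap.smul_apply, Pi.smul_apply, nsmul_eq_mul]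
  simp only [hf, map_smul, Pi.smul_apply, smul_eq_mul, Module.End.mul_apply, mass_add, neg_add,
    Real.exp_add, ← e3]
  field_simp

theorem pois_lip (h : Jmp 𝒜 ν) (hΦ : Lip 𝒜 c Φ) : Lip 𝒜 c (Pois ν Φ) := by
  intro s hs η
  have h1 := ((poi_hs h hΦ (η + s)).sub (poi_hs h hΦ η)).norm_le_of_bounded
    ((poi_s0 (mass ν)).mul_right c) fun M => by
      rw [Real.norm_eq_abs, ← mul_sub, abs_mul, abs_of_nonneg (by positivity), mul_assoc]
      exact mul_le_mul_of_nonneg_left (poi_lip h hΦ M s hs η) (by positivity)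
  rwa [one_mul] at h1

theorem pois_sub_le (h : Jmp 𝒜 ν) (hΦ : Lip 𝒜 c Φ) (η : S) :
    |Pois ν Φ η - Φ η| ≤ c * mass ν := by
  have h1 := ((poi_hs h hΦ η).sub ((poi_s0 (mass ν)).mul_right (Φ η))).norm_le_of_bounded
    ((poi_s1 (mass ν)).mul_right c) fun M => by
      rw [Real.norm_eq_abs, mul_assoc, ← mul_sub, abs_mul, abs_of_nonneg (by positivity), mul_assoc]
      exact mul_le_mul_of_nonneg_left (poi_key h hΦ M η) (by positivity)
  rwa [one_mul, mul_comm] at h1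

theorem pois_congr {P : Set S} (hP : ∀ s ∈ ν.support, ∀ x ∈ P, x + s ∈ P)
    (h : ∀ x ∈ P, Φ x = Ψ x) {η : S} (hη : η ∈ P) : Pois ν Φ η = Pois ν Ψ η := by
  refine tsum_congr fun M => congrArg _ ?_
  induction M generalizing η with
  | zero => exact h η hη
  | succ M ih =>
    rw [poi_succ, poi_succ]
    exact sum_congr rfl fun s hs => by rw [ih (hP s hs η hη)]

theorem pois_mono {c' : ℝ} (h : Jmp 𝒜 ν) (hΦ : Lip 𝒜 c Φ) (hΨ : Lip 𝒜 c' Ψ)
    (hle : ∀ x, Φ x ≤ Ψ x) (η : S) : Pois ν Φ η ≤ Pois ν Ψ η :=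
  hasSum_le (fun M => mul_le_mul_of_nonneg_left (poi_le h hle M η) (by positivity))
    (poi_hs h hΦ η) (poi_hs h hΨ η)

theorem pois_inv (h : ∀ s ∈ ν.support, ∀ x, Φ (x + s) = Φ x) (η : S) : Pois ν Φ η = Φ η := by
  simp only [Pois, poi_inv h, ← mul_assoc]
  rw [((poi_s0 (mass ν)).mul_right (Φ η)).tsum_eq, one_mul]

theorem pois_const (ν : S →₀ ℝ) (a : ℝ) (η : S) : Pois ν (fun _ => a) η = a :=
  pois_inv (fun _ _ _ => rfl) η

theorem pois_add_fun {c' : ℝ} (h : Jmp 𝒜 ν) (hΦ : Lip 𝒜 c Φ) (hΨ : Lip 𝒜 c' Ψ) (η : S) :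
    Pois ν (fun x => Φ x + Ψ x) η = Pois ν Φ η + Pois ν Ψ η := by
  rw [← ((poi_hs h hΦ η).add (poi_hs h hΨ η)).tsum_eq]
  refine tsum_congr fun M => ?_
  rw [← mul_add]
  exact congrArg _ (congrFun (map_add (LL ν ^ M) Φ Ψ) η)

theorem pois_add_const (h : Jmp 𝒜 ν) (hΦ : Lip 𝒜 c Φ) (a : ℝ) (η : S) :
    Pois ν (fun x => Φ x + a) η = Pois ν Φ η + a := by
  rw [pois_add_fun (c' := 0) h hΦ (fun _ _ _ => by simp), pois_const]

theorem pois_sum {ι : Type} (s : Finset ι) (w : ι → ℝ) {F : ι → S → ℝ} (h : Jmp 𝒜 ν)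
    (hF : ∀ i ∈ s, Lip 𝒜 c (F i)) (η : S) :
    Pois ν (fun x => ∑ i ∈ s, w i * F i x) η = ∑ i ∈ s, w i * Pois ν (F i) η := by
  rw [← (hasSum_sum fun i hi => (poi_hs h (hF i hi) η).mul_left (w i)).tsum_eq]
  refine tsum_congr fun M => ?_
  have e : (fun x => ∑ i ∈ s, w i * F i x) = ∑ i ∈ s, w i • F i := by
    funext x
    simp
  simp only [e, map_sum, map_smul, Finset.sum_apply, Pi.smul_apply, smul_eq_mul, mul_sum,
    mul_left_comm]

theorem pois_le_of_LL (h : Jmp 𝒜 ν) (h' : Jmp 𝒜 ν') (hΦ : Lip 𝒜 c Φ) (hm : mass ν = mass ν')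
    (hle : ∀ x, LL ν Φ x ≤ LL ν' Φ x) (η : S) : Pois ν Φ η ≤ Pois ν' Φ η := by
  refine hasSum_le (fun M => ?_) (poi_hs h hΦ η) (poi_hs h' hΦ η)
  rw [hm]
  refine mul_le_mul_of_nonneg_left ?_ (by positivity)
  induction M generalizing η with
  | zero => exact le_rfl
  | succ M ih =>
    have h1 := poi_le h hle M η
    have h2 := poi_le h' ih 1 η
    rw [← Module.End.mul_apply, ← pow_succ, ← Module.End.mul_apply,
      ((poi_comm ν ν').pow_left M).eq] at h1
    rw [pow_one, ← Module.End.mul_apply, ← Module.End.mul_apply, ← pow_succ'] at h2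
    exact h1.trans h2

variable {ι : Type} [Fintype ι]

omit [AddCommMonoid S] in
theorem poi_fam (w : ι → ℝ) (s : ι → S) (φ : S → ℝ) :
    ((fam w s).sum fun x a => a * φ x) = ∑ i, w i * φ (s i) := by
  have h := map_sum (Finsupp.linearCombination ℝ φ) (fun i => Finsupp.single (s i) (w i)) univ
  simp only [Finsupp.linearCombination_single] at h
  exact h

theorem LL_fam (w : ι → ℝ) (s : ι → S) (Φ : S → ℝ) (η : S) :
    LL (fam w s) Φ η = ∑ i, w i * Φ (η + s i) :=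
  poi_fam w s fun x => Φ (η + x)

omit [AddCommMonoid S] in
theorem mass_fam (w : ι → ℝ) (s : ι → S) : mass (fam w s) = ∑ i, w i := by
  have h := poi_fam w s fun _ => 1
  simp only [mul_one] at h
  exact h

omit [AddCommMonoid S] in
theorem mem_support_fam {w : ι → ℝ} {s : ι → S} {x : S} (h : x ∈ (fam w s).support) :
    ∃ i, w i ≠ 0 ∧ s i = x := by
  rw [Finsupp.mem_support_iff, fam, Finsupp.finsetSum_apply] at h
  obtain ⟨i, -, hi⟩ := exists_ne_zero_of_sum_ne_zero h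
  obtain ⟨h1, h2⟩ := Finsupp.single_apply_ne_zero.1 hi
  exact ⟨i, h2, h1.symm⟩

omit [AddCommMonoid S] in
theorem jmp_fam {w : ι → ℝ} {s : ι → S} (hw : ∀ i, 0 ≤ w i) (hs : ∀ i, w i ≠ 0 → s i ∈ 𝒜) :
    Jmp 𝒜 (fam w s) := by
  refine ⟨fun x => ?_, fun x hx => ?_⟩
  · rw [fam, Finsupp.finsetSum_apply]
    exact sum_nonneg fun i _ => Finsupp.single_nonneg.2 (hw i) x
  · obtain ⟨i, h1, rfl⟩ := mem_support_fam hx
    exact hs i h1

omit [AddCommMonoid S] in
theorem fam_add (w w' : ι → ℝ) (s : ι → S) :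
    fam (fun i => w i + w' i) s = fam w s + fam w' s := by
  simp only [fam, Finsupp.single_add, sum_add_distrib]

omit [AddCommMonoid S] in
/-- two jump measures with the same action are equal -/
theorem fam_ext {ι' : Type} [Fintype ι'] {w : ι → ℝ} {s : ι → S} {w' : ι' → ℝ} {s' : ι' → S}
    (h : ∀ φ : S → ℝ, ∑ i, w i * φ (s i) = ∑ i, w' i * φ (s' i)) : fam w s = fam w' s' := by
  classical
  ext x
  simpa [fam, Finsupp.finsetSum_apply, Finsupp.single_apply] using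
    h fun y => if y = x then 1 else 0

theorem poi_pow (w : ι → ℝ) (s : ι → S) (Φ : S → ℝ) (M : ℕ) (η : S) :
    (LL (fam w s) ^ M) Φ η = ∑ c : Fin M → ι, (∏ k, w (c k)) * Φ (η + ∑ k, s (c k)) := by
  induction M generalizing η with
  | zero => simp
  | succ M ih =>
    rw [pow_succ', Module.End.mul_apply, LL_fam, ← (Fin.consEquiv fun _ => ι).sum_comp,
      Fintype.sum_prod_type]
    simp only [ih, mul_sum, Fin.consEquiv_apply, Fin.prod_univ_succ, Fin.sum_univ_succ,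
      Fin.cons_zero, Fin.cons_succ, mul_assoc, add_assoc]

theorem pois_fam {p : ι → ℝ} (hp : ∑ i, p i = 1) (a : ℝ) (s : ι → S) (Φ : S → ℝ) (η : S) :
    Pois (fam (fun i => a * p i) s) Φ η = PF p a fun _ c => Φ (η + ∑ k, s (c k)) := by
  refine tsum_congr fun M => ?_
  simp only [poi_pow, mass_fam, ← mul_sum, hp, po, prod_mul_distrib, prod_const, card_univ,
    Fintype.card_fin, mul_assoc, mul_one]
  ring

theorem pois_map {S' : Type} [AddCommMonoid S'] (w : ι → ℝ) {s : ι → S} {s' : ι → S'}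
    {φ : S → S'} (hφ : ∀ x i, φ (x + s i) = φ x + s' i) (Φ : S' → ℝ) (η : S) :
    Pois (fam w s') Φ (φ η) = Pois (fam w s) (fun x => Φ (φ x)) η := by
  refine tsum_congr fun M => ?_
  rw [mass_fam, mass_fam]
  refine congrArg _ ?_
  induction M generalizing η with
  | zero => rfl
  | succ M ih => simp only [pow_succ', Module.End.mul_apply, LL_fam, ← hφ, ih]

theorem pois_intensity {p : ι → ℝ} (hp : Prob p) {s : ι → S} (hs : ∀ i, s i ∈ 𝒜)
    (hΦ : Lip 𝒜 c Φ) {a b : ℝ} (ha : 0 ≤ a) (hb : 0 ≤ b) (η : S) :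
    |Pois (fam (fun i => a * p i) s) Φ η - Pois (fam (fun i => b * p i) s) Φ η| ≤
      c * |a - b| := by
  wlog hab : a ≤ b generalizing a b
  · rw [abs_sub_comm, abs_sub_comm a]
    exact this hb ha (le_of_not_ge hab)
  have j : ∀ t : ℝ, 0 ≤ t → Jmp 𝒜 (fam (fun i => t * p i) s) := fun t ht =>
    jmp_fam (fun i => mul_nonneg ht (hp.1 i)) fun i _ => hs i
  have e : (fun i => b * p i) = fun i => (b - a) * p i + a * p i := by
    funext i
    ring
  have h1 := pois_sub_le (j _ (sub_nonneg.2 hab)) (pois_lip (j a ha) hΦ) η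
  rw [mass_fam, ← mul_sum, hp.2, mul_one] at h1
  rwa [e, fam_add, pois_add (j _ (sub_nonneg.2 hab)) (j a ha) hΦ, abs_sub_comm, abs_sub_comm a,
    abs_of_nonneg (sub_nonneg.2 hab)]

end

end Vale.Agent.P168
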