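import Vale.Agent.P168.XXl
import Vale.Agent.P168.Cl
import Vale.Agent.P168.Pois
import Vale.Agent.P168.PFl

/-! Preliminaries for the cavity step. -/

namespace Vale.Agent.P168

open Finset

/-- functions that are `1`-Lipschitz for the sup norm -/
def assL {Sg : Type} (Φ : (Sg → ℝ) → ℝ) : Prop :=
  ∀ (H H' : Sg → ℝ) (c : ℝ), (∀ σ, |H σ - H' σ| ≤ c) → |Φ H - Φ H'| ≤ c

def assA (Sg : Type) (c : ℝ) : Set (Sg → ℝ) := {s | ∀ σ, |s σ| ≤ c}

theorem assL.lip {Sg : Type} {Φ : (Sg → ℝ) → ℝ} (h : assL Φ) (c : ℝ) : Lip (assA Sg c) c Φ :=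
  fun s hs η => h _ _ _ fun σ => by simpa using hs σ

theorem ass_lse_le {X : Type} [Fintype X] [Nonempty X] {f g : X → ℝ} {c : ℝ}
    (h : ∀ x, f x ≤ g x + c) :
    Real.log (∑ x, Real.exp (f x)) ≤ Real.log (∑ x, Real.exp (g x)) + c := by
  have h1 : 0 < ∑ x, Real.exp (f x) := sum_pos (fun _ _ => Real.exp_pos _) univ_nonempty
  have h2 : 0 < ∑ x, Real.exp (g x) := sum_pos (fun _ _ => Real.exp_pos _) univ_nonempty
  rw [← Real.log_exp c, ← Real.log_mul h2.ne' (Real.exp_pos c).ne', sum_mul]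
  refine Real.log_le_log h1 (sum_le_sum fun x _ => ?_)
  rw [← Real.exp_add]
  exact Real.exp_le_exp.2 (h x)

theorem ass_lse {X : Type} [Fintype X] [Nonempty X] :
    assL fun f : X → ℝ => Real.log (∑ x, Real.exp (f x)) := by
  intro f g c h
  have h1 := ass_lse_le (f := f) (g := g) (c := c) fun x => by linarith [(abs_le.1 (h x)).2]
  have h2 := ass_lse_le (f := g) (g := f) (c := c) fun x => by linarith [(abs_le.1 (h x)).1]
  exact abs_le.2 ⟨by linarith, by linarith⟩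

theorem ass_prob_le {Θ : Type} [Fintype Θ] {p : Θ → ℝ} (hp : Prob p) {f g : Θ → ℝ} {b : ℝ}
    (h : ∀ t, f t ≤ g t + b) : ∑ t, p t * f t ≤ ∑ t, p t * g t + b := by
  calc ∑ t, p t * f t ≤ ∑ t, p t * (g t + b) :=
        sum_le_sum fun t _ => mul_le_mul_of_nonneg_left (h t) (hp.1 t)
    _ = ∑ t, p t * g t + b := by
        simp only [mul_add, sum_add_distrib, ← sum_mul, hp.2, one_mul]

section
variable {S : Type} [AddCommMonoid S] {𝒜 : Set S} {ν μ : S →₀ ℝ} {c : ℝ} {Φ Ψ : S → ℝ}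

theorem ass_pois_le {c' b : ℝ} (h : Jmp 𝒜 ν) (hΦ : Lip 𝒜 c Φ) (hΨ : Lip 𝒜 c' Ψ)
    (hle : ∀ x, Φ x ≤ Ψ x + b) (η : S) : Pois ν Φ η ≤ Pois ν Ψ η + b := by
  rw [← pois_add_const h hΨ]
  refine pois_mono (c' := c') h hΦ (fun s hs x => ?_) hle η
  simpa using hΨ s hs x

theorem ass_dom (hν : Jmp 𝒜 ν) (hμ : Jmp 𝒜 μ) (hle : ∀ x, μ x ≤ ν x) (hΦ : Lip 𝒜 c Φ) (η : S) :
    |Pois ν Φ η - Pois μ Φ η| ≤ c * (mass ν - mass μ) := by
  have h1 : Jmp 𝒜 (ν - μ) := by
    refine ⟨fun s => by simpa using hle s, fun s hs => hν.2 s ?_⟩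
    rw [Finsupp.mem_support_iff] at hs ⊢
    intro h0
    apply hs
    have h2 := hle s
    have h3 := hμ.1 s
    simp only [Finsupp.coe_sub, Pi.sub_apply]
    linarith
  have h3 : mass ν = mass (ν - μ) + mass μ := by rw [← mass_add, sub_add_cancel]
  have h4 := pois_sub_le h1 (pois_lip hμ hΦ) η
  rw [← pois_add h1 hμ hΦ, sub_add_cancel] at h4
  rwa [h3, add_sub_cancel_right]

omit [AddCommMonoid S] in
open Classical in
theorem ass_fam_apply {ι : Type} [Fintype ι] (w : ι → ℝ) (s : ι → S) (x : S) :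
    fam w s x = ∑ i, w i * if s i = x then 1 else 0 := by
  simp [fam, Finsupp.finsetSum_apply, Finsupp.single_apply]

end

theorem ass_count {K n : ℕ} (g : (Fin K → Fin (n + 1)) → ℝ) (hg : ∀ x, 0 ≤ g x) :
    (n + 1) * ∑ idx : Fin K → Fin n, g (fun j => (idx j).succ) +
      ∑ y : Fin K × (Fin K → Fin n), g (Function.update (fun j => (y.2 j).succ) y.1 0) ≤
      (n + 1) * ∑ x, g x := by
  let e : ((Fin K → Fin n) × Fin (n + 1)) ⊕ (Fin K × (Fin K → Fin n)) →
      (Fin K → Fin (n + 1)) × Fin (n + 1) :=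
    Sum.elim (fun y => (fun j => (y.1 j).succ, y.2))
      fun y => (Function.update (fun j => (y.2 j).succ) y.1 0, (y.2 y.1).succ)
  have he : Function.Injective e := by
    rintro (⟨a, b⟩ | ⟨l, a⟩) (⟨a', b'⟩ | ⟨l', a'⟩) h
    · simp only [e, Sum.elim_inl, Prod.mk.injEq] at h
      obtain ⟨h1, rfl⟩ := h
      obtain rfl : a = a' := funext fun j => Fin.succ_injective _ (congrFun h1 j)
      rfl
    · simp only [e, Sum.elim_inl, Sum.elim_inr, Prod.mk.injEq] at h
      have h1 := congrFun h.1 l'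
      simp at h1
    · simp only [e, Sum.elim_inl, Sum.elim_inr, Prod.mk.injEq] at h
      have h1 := congrFun h.1 l
      simp only [Function.update_self] at h1
      exact absurd h1.symm (Fin.succ_ne_zero _)
    · simp only [e, Sum.elim_inr, Prod.mk.injEq] at h
      obtain ⟨h1, h2⟩ := h
      obtain rfl : l = l' := by
        by_contra hne
        have h3 := congrFun h1 l
        rw [Function.update_self, Function.update_of_ne hne] at h3
        exact Fin.succ_ne_zero _ h3.symm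
      obtain rfl : a = a' := by
        funext j
        apply Fin.succ_injective
        by_cases hj : j = l
        · rw [hj, h2]
        · have h3 := congrFun h1 j
          rwa [Function.update_of_ne hj, Function.update_of_ne hj] at h3
      rfl
  have h1 : ∑ y, g (e y).1 ≤ ∑ z : (Fin K → Fin (n + 1)) × Fin (n + 1), g z.1 := by
    have h2 := sum_map univ ⟨e, he⟩ fun z => g z.1
    exact h2.symm.trans_le (sum_le_univ_sum_of_nonneg fun z => hg _)
  rw [Fintype.sum_sum_type, Fintype.sum_prod_type, Fintype.sum_prod_type (α₂ := Fin (n + 1))] at h1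
  simpa [e, mul_sum] using h1

theorem ass_arith {K n : ℕ} (hK : 1 ≤ K) (hn : K ≤ n) {lam G₀ G₁ G : ℝ} (hl : 0 ≤ lam)
    (hG : 0 ≤ G) (h : (n + 1) * G₀ + G₁ ≤ (n + 1) * G) :
    lam * (n + 1 - K) * ((n : ℝ) ^ K)⁻¹ * G₀ +
      K * lam * (1 - K / (n + 1)) * (K * (n : ℝ) ^ K)⁻¹ * G₁ ≤
      lam * (n + 1) * (((n : ℝ) + 1) ^ K)⁻¹ * G := by
  have hK' : (1 : ℝ) ≤ K := by exact_mod_cast hK
  have hn' : (K : ℝ) ≤ n := by exact_mod_cast hn
  have hn0 : (0 : ℝ) < n := by linarith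
  have h1 : 1 - K / ((n : ℝ) + 1) ≤ (n / (n + 1)) ^ K := by
    have h2 := one_add_mul_le_pow (a := -(1 / ((n : ℝ) + 1))) (by
      have : 1 / ((n : ℝ) + 1) ≤ 1 := by rw [div_le_one (by linarith)]; linarith
      linarith) K
    have e1 : 1 + -(1 / ((n : ℝ) + 1)) = n / (n + 1) := by field_simp; ring
    rw [e1] at h2
    refine le_of_eq_of_le ?_ h2
    ring
  have h0 : 0 ≤ 1 - K / ((n : ℝ) + 1) := by
    rw [sub_nonneg, div_le_one (by linarith)]
    linarith
  have h3 : (1 - K / ((n : ℝ) + 1)) * ((n : ℝ) ^ K)⁻¹ ≤ (((n : ℝ) + 1) ^ K)⁻¹ := by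
    refine (mul_le_mul_of_nonneg_right h1 (by positivity)).trans_eq ?_
    rw [div_pow]
    field_simp
  have e2 : lam * (n + 1 - K) * ((n : ℝ) ^ K)⁻¹ * G₀ +
      K * lam * (1 - K / (n + 1)) * (K * (n : ℝ) ^ K)⁻¹ * G₁ =
      lam * ((1 - K / ((n : ℝ) + 1)) * ((n : ℝ) ^ K)⁻¹) * ((n + 1) * G₀ + G₁) := by
    field_simp
  rw [e2]
  calc _ ≤ lam * ((1 - K / ((n : ℝ) + 1)) * ((n : ℝ) ^ K)⁻¹) * ((n + 1) * G) :=
        mul_le_mul_of_nonneg_left h (by positivity)
    _ ≤ lam * (((n : ℝ) + 1) ^ K)⁻¹ * ((n + 1) * G) := by gcongr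
    _ = _ := by ring

section
variable {K : ℕ} {Θ : Type} [Fintype Θ] (p : Θ → ℝ) (θ : Θ → (Fin K → Bool) → ℝ)
  {I : Type} [Fintype I] {N : ℕ}

/-- jump measure: a clause of type `t` at the sites `e i`, total intensity `a` -/
noncomputable def assN (a : ℝ) (e : I → Fin K → Fin N) : ((Fin N → Bool) → ℝ) →₀ ℝ :=
  fam (fun x : Θ × I => a * (p x.1 * (Fintype.card I : ℝ)⁻¹)) fun x σ => θ x.1 fun j => σ (e x.2 j)

variable {p θ}

theorem assN_jmp (hp : Prob p) {c a : ℝ} (hθ : ∀ t σ, |θ t σ| ≤ c) (ha : 0 ≤ a)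
    (e : I → Fin K → Fin N) : Jmp (assA _ c) (assN p θ a e) :=
  jmp_fam (fun x => mul_nonneg ha (mul_nonneg (hp.1 _) (by positivity))) fun _ _ _ => hθ _ _

theorem assN_mass [Nonempty I] (hp : Prob p) (a : ℝ) (e : I → Fin K → Fin N) :
    mass (assN p θ a e) = a := by
  rw [assN, mass_fam, ← mul_sum, (hp.unif I).2, mul_one]

theorem assN_add (a b : ℝ) (e : I → Fin K → Fin N) :
    assN p θ (a + b) e = assN p θ a e + assN p θ b e := by
  simp only [assN, add_mul, fam_add]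

theorem assN_pois [Nonempty I] (hp : Prob p) (a : ℝ) (e : I → Fin K → Fin N)
    (Φ : ((Fin N → Bool) → ℝ) → ℝ) (η : (Fin N → Bool) → ℝ) :
    Pois (assN p θ a e) Φ η = PF p a fun M c => avg fun y : Fin M → I =>
      Φ fun σ => η σ + ∑ k, θ (c k) fun j => σ (e (y k) j) := by
  rw [assN, pois_fam (hp.unif I).2, PF_unif]
  congr 1
  funext M c
  congr 1
  funext y
  congr 1
  funext σ
  simp

open Classical in
theorem assN_apply (a : ℝ) (e : I → Fin K → Fin N) (x : (Fin N → Bool) → ℝ) :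
    assN p θ a e x = ∑ t, p t * (a * (Fintype.card I : ℝ)⁻¹ *
      ∑ i, if (fun σ : Fin N → Bool => θ t fun j => σ (e i j)) = x then 1 else 0) := by
  rw [assN, ass_fam_apply, Fintype.sum_prod_type]
  refine sum_congr rfl fun t _ => ?_
  simp only [mul_sum]
  refine sum_congr rfl fun i _ => ?_
  split_ifs <;> ring

theorem assN_le (hp : Prob p) {n : ℕ} (hK : 1 ≤ K) (hn : K ≤ n) {lam : ℝ} (hl : 0 ≤ lam)
    (x : (Fin (n + 1) → Bool) → ℝ) :
    (assN p θ (lam * (n + 1 - K)) (fun (idx : Fin K → Fin n) j => (idx j).succ) +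
      assN p θ (K * lam * (1 - K / (n + 1))) fun y : Fin K × (Fin K → Fin n) =>
        Function.update (fun j => (y.2 j).succ) y.1 0) x ≤
      assN p θ (lam * (n + 1 : ℕ)) id x := by
  classical
  rw [Finsupp.add_apply, assN_apply, assN_apply, assN_apply, ← sum_add_distrib]
  refine sum_le_sum fun t _ => ?_
  rw [← mul_add]
  refine mul_le_mul_of_nonneg_left ?_ (hp.1 t)
  have h1 := ass_count (K := K) (n := n) (fun i =>
    if (fun σ : Fin (n + 1) → Bool => θ t fun j => σ (i j)) = x then (1 : ℝ) else 0)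
    fun i => by positivity
  have h2 := ass_arith hK hn hl (sum_nonneg fun i _ => by positivity) h1
  simpa using h2

end

end Vale.Agent.P168
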