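import Vale.Agent.P168.Casc2

/-! Top-down expectations along a tree; conditional variances. -/

set_option linter.unusedSectionVars false

namespace Vale.Agent.P168

open Finset

theorem Nest.le {L : Type*} {g : L → ℕ → ℕ} (hg : Nest g) {l l' : L} {d e : ℕ} (h : d ≤ e)
    (he : g l e = g l' e) : g l d = g l' d := by
  induction e, h using Nat.le_induction with
  | base => exact he
  | succ e _ ih => exact ih (hg l l' e he)

theorem abs_ind (b b' : Bool) : |ind b b'| ≤ 1 := by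
  unfold ind
  split_ifs <;> simp

private theorem tdl_abs_prod {ι : Type*} (s : Finset ι) {x : ι → ℝ} (h : ∀ i ∈ s, |x i| ≤ 1) :
    |∏ i ∈ s, x i| ≤ 1 := by
  rw [abs_prod]
  exact prod_le_one (fun _ _ => abs_nonneg _) h

private theorem tdl_prod_sub {ι : Type*} (s : Finset ι) {x y : ι → ℝ} (hx : ∀ i, |x i| ≤ 1)
    (hy : ∀ i, |y i| ≤ 1) : |∏ i ∈ s, x i - ∏ i ∈ s, y i| ≤ ∑ i ∈ s, |x i - y i| := by
  classical
  induction s using Finset.induction_on with
  | empty => simp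
  | insert a s ha ih =>
    rw [prod_insert ha, prod_insert ha, sum_insert ha]
    have e : x a * ∏ i ∈ s, x i - y a * ∏ i ∈ s, y i =
        (x a - y a) * ∏ i ∈ s, x i + y a * (∏ i ∈ s, x i - ∏ i ∈ s, y i) := by ring
    rw [e]
    refine (abs_add_le _ _).trans (add_le_add ?_ ?_)
    · rw [abs_mul]
      exact mul_le_of_le_one_right (abs_nonneg _) (tdl_abs_prod s fun i _ => hx i)
    · rw [abs_mul]
      exact (mul_le_of_le_one_left (abs_nonneg _) (hy a)).trans ih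

namespace Casc

variable {Ω : Type} [Fintype Ω] (C : Casc Ω) {L : Type} [DecidableEq L] {g : L → ℕ → ℕ}
  {f : L → Ω → ℝ} {R d : ℕ} {D : Finset L}

private theorem TDk_zero (d : ℕ) (D : Finset L) (ω : Ω) :
    C.TDk g f 0 d D ω = ∏ l ∈ D, f l ω := rfl

private theorem TDk_succ (k d : ℕ) (D : Finset L) (ω : Ω) :
    C.TDk g f (k + 1) d D ω = ∏ c ∈ D.image fun l => g l (d + 1),
      C.E d (C.TDk g f k (d + 1) (D.filter fun l => g l (d + 1) = c)) ω := rfl

private theorem TDk_empty : ∀ (k d : ℕ) (ω : Ω), C.TDk g f k d ∅ ω = 1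
  | 0, _, _ => by simp [TDk]
  | _ + 1, _, _ => by simp [TDk]

private theorem TDk_single (l : L) : ∀ (k d : ℕ) (ω : Ω),
    C.TDk g f (k + 1) d {l} ω = C.E d (f l) ω
  | 0, _, _ => by simp [TDk, filter_singleton]
  | k + 1, d, ω => by
    rw [TDk_succ, image_singleton, prod_singleton, filter_singleton, if_pos rfl,
      funext (TDk_single l k (d + 1)), C.E_E (Nat.le_succ d)]

private theorem abs_TDk_le (hf : ∀ l ω, |f l ω| ≤ 1) : ∀ (k d : ℕ) (D : Finset L) (ω : Ω),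
    |C.TDk g f k d D ω| ≤ 1
  | 0, _, D, ω => tdl_abs_prod D fun l _ => hf l ω
  | k + 1, d, _, ω => tdl_abs_prod _ fun _ _ => C.abs_E_le_of (abs_TDk_le hf k (d + 1) _) ω

private theorem TDk_congr {g' : L → ℕ → ℕ} {f' : L → Ω → ℝ} : ∀ (k d : ℕ) (D : Finset L),
    (∀ l ∈ D, ∀ e, d < e → g l e = g' l e) → (∀ l ∈ D, f l = f' l) →
    C.TDk g f k d D = C.TDk g' f' k d D
  | 0, _, _, _, hf => funext fun ω => prod_congr rfl fun l hl => by rw [hf l hl]
  | k + 1, d, D, hg, hf => funext fun ω => by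
    have h1 : ∀ l ∈ D, g l (d + 1) = g' l (d + 1) := fun l hl => hg l hl _ (Nat.lt_succ_self d)
    refine prod_congr (image_congr h1) fun c _ => ?_
    rw [filter_congr fun l hl => by rw [h1 l hl], TDk_congr k (d + 1) _
      (fun l hl e he => hg l (mem_filter.1 hl).1 e (by omega)) fun l hl => hf l (mem_filter.1 hl).1]

private theorem TDk_map {L' : Type} [DecidableEq L'] (e : L' ↪ L) : ∀ (k d : ℕ) (D : Finset L'),
    C.TDk g f k d (D.map e) = C.TDk (fun l => g (e l)) (fun l => f (e l)) k d D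
  | 0, _, D => funext fun ω => prod_map D e fun l => f l ω
  | k + 1, d, D => funext fun ω => by
    have h1 : (D.map e).image (fun l => g l (d + 1)) = D.image fun l => g (e l) (d + 1) := by
      rw [map_eq_image, image_image]
      rfl
    refine prod_congr h1 fun c _ => ?_
    rw [filter_map, TDk_map e k (d + 1)]
    rfl

private theorem TDk_mul_meas {p : L} {φ : Ω → ℝ} : ∀ (k d : ℕ) (D : Finset L), p ∈ D →
    C.Meas d φ → ∀ ω, C.TDk g (Function.update f p fun x => φ x * f p x) k d D ω =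
      φ ω * C.TDk g f k d D ω
  | 0, _, D, hp, _, ω => by
    rw [TDk_zero, TDk_zero, ← mul_prod_erase D _ hp, ← mul_prod_erase D _ hp,
      Function.update_self, mul_assoc]
    congr 2
    exact prod_congr rfl fun l hl => by rw [Function.update_of_ne (mem_erase.1 hl).1]
  | k + 1, d, D, hp, hφ, ω => by
    have hc : g p (d + 1) ∈ D.image fun l => g l (d + 1) := mem_image_of_mem _ hp
    rw [TDk_succ, TDk_succ, ← mul_prod_erase _ _ hc, ← mul_prod_erase _ _ hc,
      funext (TDk_mul_meas k (d + 1) (D.filter fun l => g l (d + 1) = g p (d + 1))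
        (mem_filter.2 ⟨hp, rfl⟩) (hφ.mono (Nat.le_succ d))),
      C.E_meas_mul hφ, mul_assoc]
    congr 2
    refine prod_congr rfl fun c hc => ?_
    have h1 : ∀ l ∈ D.filter (fun l => g l (d + 1) = c), l ≠ p := by
      rintro l hl rfl
      exact (mem_erase.1 hc).1 (mem_filter.1 hl).2.symm
    rw [C.TDk_congr (f' := f) k (d + 1) _ (fun _ _ _ _ => rfl) fun l hl =>
      Function.update_of_ne (h1 l hl) _ _]

theorem TD_ge (h : R ≤ d) (ω : Ω) : C.TD g f R d D ω = ∏ l ∈ D, f l ω := by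
  rw [TD, Nat.sub_eq_zero_of_le h, TDk]

theorem TD_lt (h : d < R) (ω : Ω) : C.TD g f R d D ω = ∏ c ∈ D.image fun l => g l (d + 1),
    C.E d (C.TD g f R (d + 1) (D.filter fun l => g l (d + 1) = c)) ω := by
  rw [TD, show R - d = R - (d + 1) + 1 by omega, TDk]
  rfl

theorem TD_empty (ω : Ω) : C.TD g f R d ∅ ω = 1 :=
  C.TDk_empty _ _ ω

theorem TD_mer (h : d < R) (hD : Mer g D (d + 1)) (ω : Ω) :
    C.TD g f R d D ω = C.E d (C.TD g f R (d + 1) D) ω := by
  rcases D.eq_empty_or_nonempty with rfl | ⟨l, hl⟩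
  · rw [TD_empty, funext C.TD_empty, E_const]
  · have h1 : (D.image fun l => g l (d + 1)) = {g l (d + 1)} :=
      eq_singleton_iff_unique_mem.2 ⟨mem_image_of_mem _ hl, fun c hc => by
        obtain ⟨l', hl', rfl⟩ := mem_image.1 hc
        exact hD l' hl' l hl⟩
    rw [C.TD_lt h, h1, prod_singleton, filter_true_of_mem fun l' hl' => hD l' hl' l hl]

theorem TD_single (h : d < R) (l : L) (ω : Ω) : C.TD g f R d {l} ω = C.E d (f l) ω := by
  rw [TD, show R - d = R - (d + 1) + 1 by omega, TDk_single]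

theorem TD_meas (h : d < R) : C.Meas d (C.TD g f R d D) := fun a b hab => by
  rw [C.TD_lt h, C.TD_lt h]
  exact prod_congr rfl fun c _ => C.E_meas _ _ a b hab

theorem abs_TD_le (hf : ∀ l ω, |f l ω| ≤ 1) (ω : Ω) : |C.TD g f R d D ω| ≤ 1 :=
  C.abs_TDk_le hf _ _ _ ω

theorem TD_congr {g' : L → ℕ → ℕ} {f' : L → Ω → ℝ}
    (hg : ∀ l ∈ D, ∀ e, d < e → g l e = g' l e) (hf : ∀ l ∈ D, f l = f' l) :
    C.TD g f R d D = C.TD g' f' R d D :=
  C.TDk_congr _ _ _ hg hf

theorem TD_map {L' : Type} [DecidableEq L'] (e : L' ↪ L) (D : Finset L') :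
    C.TD g f R d (D.map e) = C.TD (fun l => g (e l)) (fun l => f (e l)) R d D :=
  C.TDk_map e _ _ D

/-- pull-out -/
theorem TD_mul_meas {p : L} (hp : p ∈ D) {φ : Ω → ℝ} (hφ : C.Meas d φ) (ω : Ω) :
    C.TD g (Function.update f p fun x => φ x * f p x) R d D ω = φ ω * C.TD g f R d D ω :=
  C.TDk_mul_meas _ _ _ hp hφ ω

theorem vr_nonneg (d : ℕ) (φ : Ω → ℝ) (ω : Ω) : 0 ≤ C.vr d φ ω :=
  sub_nonneg.2 (C.sq_E_le d φ ω)

theorem vr_meas (d : ℕ) (φ : Ω → ℝ) : C.Meas d (C.vr d φ) := fun a b hab => by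
  rw [vr, vr, C.E_meas d _ a b hab, C.E_meas d φ a b hab]

theorem vr_eq (d : ℕ) (φ : Ω → ℝ) (ω : Ω) :
    C.vr d φ ω = C.E d (fun x => (φ x - C.E d φ ω) ^ 2) ω := by
  have e : (fun x => (φ x - C.E d φ ω) ^ 2) =
      fun x => φ x ^ 2 - (2 * C.E d φ ω) * φ x + C.E d φ ω ^ 2 := funext fun x => by ring
  rw [e, E_add, E_sub, E_const_mul, E_const, vr]
  ring

theorem vr_le (d : ℕ) (φ : Ω → ℝ) (c : ℝ) (ω : Ω) :
    C.vr d φ ω ≤ C.E d (fun x => (φ x - c) ^ 2) ω := by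
  have e : (fun x => (φ x - c) ^ 2) =
      fun x => φ x ^ 2 - (2 * c) * φ x + c ^ 2 := funext fun x => by ring
  rw [e, E_add, E_sub, E_const_mul, E_const, vr]
  nlinarith [sq_nonneg (C.E d φ ω - c)]

theorem vr_const_mul (d : ℕ) (c : ℝ) (φ : Ω → ℝ) (ω : Ω) :
    C.vr d (fun x => c * φ x) ω = c ^ 2 * C.vr d φ ω := by
  simp only [vr, mul_pow, E_const_mul]
  ring

theorem vr_avg_le {I : Type} [Fintype I] (d : ℕ) {a : I → ℝ} (ha : Cube a) (φ : I → Ω → ℝ)
    (ω : Ω) : C.vr d (fun x => avg fun i => a i * φ i x) ω ≤ avg fun i => C.vr d (φ i) ω := by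
  refine (C.vr_le d _ (avg fun i => a i * C.E d (φ i) ω) ω).trans ?_
  simp only [vr_eq, ← E_avg]
  refine C.E_mono (fun x => ?_) ω
  rw [← avg_sub]
  refine (sq_avg_le _).trans (avg_mono fun i => ?_)
  rw [← mul_sub, mul_pow]
  exact mul_le_of_le_one_left (sq_nonneg _) ((sq_le_one_iff_abs_le_one _).2 (ha i))

theorem vr_prod_le {ι : Type*} (s : Finset ι) (d : ℕ) {φ : ι → Ω → ℝ} (hφ : ∀ i ω, |φ i ω| ≤ 1)
    (ω : Ω) : C.vr d (fun x => ∏ i ∈ s, φ i x) ω ≤ s.card * ∑ i ∈ s, C.vr d (φ i) ω := by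
  refine (C.vr_le d _ (∏ i ∈ s, C.E d (φ i) ω) ω).trans ?_
  simp only [vr_eq, ← E_sum, ← E_const_mul]
  refine C.E_mono (fun x => ?_) ω
  have h1 := tdl_prod_sub s (fun i => hφ i x) fun i => C.abs_E_le_of (d := d) (hφ i) ω
  have h2 := sq_sum_le_card_mul_sum_sq (s := s) (f := fun i => |φ i x - C.E d (φ i) ω|)
  simp only [sq_abs] at h2
  rw [← sq_abs]
  exact (pow_le_pow_left₀ (abs_nonneg _) h1 2).trans h2

theorem dl_nonneg {I : Type} [Fintype I] (f : I → L → Ω → ℝ) (ω : Ω) :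
    0 ≤ C.dl g f R d D ω :=
  avg_nonneg fun _ => C.vr_nonneg _ _ ω

theorem ww_nonneg {I : Type} [Fintype I] (f : I → L → Ω → ℝ) (ω : Ω) (e : ℕ) :
    0 ≤ C.ww g f R D ω e := by
  refine sum_nonneg fun b _ => ?_
  split_ifs
  · exact add_nonneg (C.E_nonneg (C.dl_nonneg f) ω) (C.E_nonneg (C.dl_nonneg f) ω)
  · exact le_rfl

theorem hypE_map {I L' : Type} [Fintype I] [DecidableEq L'] (f : I → L → Ω → ℝ) (e : L' ↪ L)
    {D₀ : Finset L'} {ε : ℝ}
    (h : C.HypE (fun l => g (e l)) (fun i l => f i (e l)) R D₀ ε) :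
    C.HypE g f R (D₀.map e) ε := by
  intro D hD hne j d hj hd hm a ha ω
  obtain ⟨D', hD', rfl⟩ := subset_map_iff.1 hD
  have := h D' hD' (map_nonempty.1 hne) j d hj hd
    (fun l hl l' hl' => hm _ (mem_map_of_mem e hl) _ (mem_map_of_mem e hl')) a ha ω
  unfold hh at this ⊢
  simpa only [TD_map] using this

end Casc

end Vale.Agent.P168
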