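import Vale.Agent.P168.Rep
import Vale.Agent.P168.TDl

/-! Addresses of replicas; sequential and top-down expectations agree. -/

namespace Vale.Agent.P168

open Finset

section
variable {d₀ R n : ℕ} {z : ℕ → ℕ × ℕ}

theorem dep_lt (hz : Valid R n z) (hd : d₀ < R) {l : ℕ} (hl : l ≤ n) : dep d₀ z l < R := by
  induction l using Nat.strong_induction_on with
  | _ l ih =>
    cases l with
    | zero => rwa [dep]
    | succ l =>
      rw [dep]
      exact max_lt (hz l hl).2 (ih _ (by omega) (by omega))

theorem addr_le (l d : ℕ) : addr d₀ z l d ≤ l := by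
  induction l using Nat.strong_induction_on with
  | _ l ih =>
    cases l with
    | zero => rw [addr]
    | succ l =>
      rw [addr]
      split_ifs
      · exact (ih _ (by omega)).trans (by omega)
      · exact le_rfl

theorem addr_low {d : ℕ} (h : d ≤ d₀) (l : ℕ) : addr d₀ z l d = 0 := by
  induction l using Nat.strong_induction_on with
  | _ l ih =>
    cases l with
    | zero => rw [addr]
    | succ l => rw [addr, if_pos (h.trans (le_dep _ _ _)), ih _ (by omega)]

theorem addr_high {l d : ℕ} (h : dep d₀ z l < d) : addr d₀ z l d = l := by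
  cases l with
  | zero => rw [addr]
  | succ l => rw [addr, if_neg h.not_ge]

theorem bridge_addr (l d : ℕ) : addr d₀ z l d = addr d₀ z (addr d₀ z l (d + 1)) d := by
  induction l using Nat.strong_induction_on with
  | _ l ih =>
    cases l with
    | zero => simp only [addr]
    | succ l =>
      by_cases h : d + 1 ≤ dep d₀ z (l + 1)
      · rw [addr, addr, if_pos h, if_pos (by omega)]
        exact ih _ (by omega)
      · rw [addr_high (not_le.1 h)]

theorem nest_addr : Nest (addr d₀ z) := fun l l' d h => by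
  rw [bridge_addr l, h, ← bridge_addr]

theorem bridge_name (l e : ℕ) :
    addr d₀ z l (e + 1) = 0 ∨ dep d₀ z (addr d₀ z l (e + 1)) ≤ e := by
  induction l using Nat.strong_induction_on with
  | _ l ih =>
    cases l with
    | zero => exact Or.inl (by rw [addr])
    | succ l =>
      rw [addr]
      split_ifs with h
      · exact ih _ (by omega)
      · exact Or.inr (by omega)

theorem bridge_dep (l : ℕ) : l = 0 ∨ ∃ q < l, dep d₀ z l = max (z q).2 d₀ := by
  induction l using Nat.strong_induction_on with
  | _ l ih =>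
    cases l with
    | zero => exact Or.inl rfl
    | succ l =>
      refine Or.inr ?_
      rw [dep]
      rcases ih (min (z l).1 l) (by omega) with h | ⟨q, h, h'⟩
      · exact ⟨l, by omega, by rw [h, dep]⟩
      · rw [h']
        rcases le_total (z l).2 (z q).2 with h1 | h1
        · exact ⟨q, by omega, by omega⟩
        · exact ⟨l, by omega, by omega⟩

theorem addr_branch {l l' e : ℕ} (hl : l ≤ n) (hl' : l' ≤ n)
    (h1 : addr d₀ z l e = addr d₀ z l' e) (h2 : addr d₀ z l (e + 1) ≠ addr d₀ z l' (e + 1)) :
    ∃ q < n, e = max (z q).2 d₀ := by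
  have key : ∀ l ≤ n, (∃ q < n, e = max (z q).2 d₀) ∨ addr d₀ z l e = addr d₀ z l (e + 1) := by
    intro l hl
    have h3 := addr_le (d₀ := d₀) (z := z) l (e + 1)
    rw [bridge_addr l]
    rcases bridge_name (d₀ := d₀) (z := z) l e with h | h
    · rw [h, addr]
      exact Or.inr rfl
    rcases h.eq_or_lt with h | h
    · rcases bridge_dep (d₀ := d₀) (z := z) (addr d₀ z l (e + 1)) with h4 | ⟨q, h4, h5⟩
      · rw [h4, addr]
        exact Or.inr rfl
      · exact Or.inl ⟨q, by omega, h.symm.trans h5⟩
    · exact Or.inr (addr_high h)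
  rcases key l hl with h | h
  · exact h
  · exact (key l' hl').resolve_right fun h' => h2 (h.symm.trans (h1.trans h'))

theorem bridge_ext {z' : ℕ → ℕ × ℕ} {d : ℕ}
    (h : ∀ k, (z k).1 = (z' k).1 ∧ (d ≤ (z k).2 ↔ d ≤ (z' k).2)) (l : ℕ) :
    (d ≤ dep d₀ z l ↔ d ≤ dep d₀ z' l) ∧ addr d₀ z l d = addr d₀ z' l d := by
  induction l using Nat.strong_induction_on with
  | _ l ih =>
    cases l with
    | zero => simp only [dep, addr, and_self]
    | succ l =>
      obtain ⟨h1, h2⟩ := ih (min (z l).1 l) (by omega)
      have h3 : d ≤ dep d₀ z (l + 1) ↔ d ≤ dep d₀ z' (l + 1) := by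
        rw [dep, dep, le_max_iff, le_max_iff, h1, (h l).2, (h l).1]
      refine ⟨h3, ?_⟩
      rw [addr, addr, h2, (h l).1]
      exact if_congr h3 rfl rfl

theorem addr_update (q p : ℕ) {e e' d : ℕ} (h : e < d) (h' : e' < d) (l : ℕ) :
    addr d₀ (Function.update z q (p, e)) l d = addr d₀ (Function.update z q (p, e')) l d := by
  refine (bridge_ext (fun k => ?_) l).2
  rcases eq_or_ne k q with rfl | hk
  · simp only [Function.update_self, true_and]
    omega
  · simp only [Function.update_of_ne hk, and_self]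

theorem bridge_insert {Ω : Type} [Fintype Ω] (C : Casc Ω) (f : ℕ → Ω → ℝ)
    (hR : dep d₀ z (n + 1) < R) : ∀ d ≤ dep d₀ z (n + 1), ∀ D : Finset ℕ, (∀ l ∈ D, l ≤ n) →
      min (z n).1 n ∈ D → C.TD (addr d₀ z) f R d (insert (n + 1) D) =
        C.TD (addr d₀ z) (Function.update f (min (z n).1 n) fun x =>
          C.E (dep d₀ z (n + 1)) (f (n + 1)) x * f (min (z n).1 n) x) R d D := by
  refine down_ind (fun D hD hp => funext fun ω => ?_) fun d hd ih D hD hp => funext fun ω => ?_
  · have h1 : addr d₀ z (n + 1) (dep d₀ z (n + 1) + 1) = n + 1 := addr_high (Nat.lt_succ_self _)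
    have h2 : ∀ l ∈ D, addr d₀ z l (dep d₀ z (n + 1) + 1) ≠ n + 1 := fun l hl =>
      ((addr_le l _).trans_lt (Nat.lt_succ_of_le (hD l hl))).ne
    rw [C.TD_mul_meas hp (C.E_meas _ _), C.TD_lt hR, C.TD_lt hR, image_insert, h1,
      prod_insert (by simpa using h2), filter_insert, if_pos h1, filter_false_of_mem h2,
      insert_empty_eq, ← C.TD_mer hR (by simp [Mer]), C.TD_single hR]
    refine congrArg _ (prod_congr rfl fun c hc => ?_)
    obtain ⟨l, hl, rfl⟩ := mem_image.1 hc
    rw [filter_insert, if_neg (by rw [h1]; exact (h2 l hl).symm)]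
  · have h1 : addr d₀ z (n + 1) (d + 1) = addr d₀ z (min (z n).1 n) (d + 1) := by
      rw [addr, if_pos (Nat.succ_le_of_lt hd)]
    rw [C.TD_lt (hd.trans hR), C.TD_lt (hd.trans hR), image_insert, h1,
      insert_eq_of_mem (mem_image_of_mem (fun l => addr d₀ z l (d + 1)) hp)]
    refine prod_congr rfl fun c _ => ?_
    rw [filter_insert, h1]
    split_ifs with h
    · rw [ih _ (fun l hl => hD l (mem_filter.1 hl).1) (mem_filter.2 ⟨hp, h⟩)]
    · rw [C.TD_congr (fun _ _ _ _ => rfl) fun l hl => (Function.update_of_ne ?_ _ f).symm]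
      rintro rfl
      exact h (mem_filter.1 hl).2

theorem ES_TD {Ω : Type} [Fintype Ω] (C : Casc Ω) (hz : Valid R n z) (hd : d₀ < R)
    (f : ℕ → Ω → ℝ) (ω : Ω) : C.ES d₀ z n (fun w => ∏ l ∈ range (n + 1), f l (w l)) ω =
      C.TD (addr d₀ z) f R d₀ (range (n + 1)) ω := by
  induction n generalizing f with
  | zero =>
    rw [zero_add, range_one, C.TD_single hd]
    simp only [Casc.ES, prod_singleton]
  | succ n ih =>
    have hp : min (z n).1 n ∈ range (n + 1) := mem_range.2 (by omega)
    conv_rhs => rw [range_add_one (n := n + 1)]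
    rw [bridge_insert C f (dep_lt hz hd le_rfl) _ (le_dep _ _ _) _ (fun l hl => by
      have := mem_range.1 hl; omega) hp, ← ih fun l hl => hz l (by omega), Casc.ES]
    refine congrFun (congrArg _ (funext fun w => ?_)) ω
    have h1 : ∀ ω', ∏ l ∈ range (n + 1 + 1), f l (Function.update w (n + 1) ω' l) =
        (∏ l ∈ range (n + 1), f l (w l)) * f (n + 1) ω' := fun ω' => by
      rw [prod_range_succ, Function.update_self]
      exact congrArg (· * _) (prod_congr rfl fun l hl => by
        rw [Function.update_of_ne (mem_range.1 hl).ne])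
    simp only [h1]
    rw [C.E_const_mul, ← mul_prod_erase _ _ hp, ← mul_prod_erase _ _ hp, Function.update_self,
      mul_right_comm, mul_comm (f _ _)]
    exact congrArg _ (prod_congr rfl fun l hl => by
      rw [Function.update_of_ne (ne_of_mem_erase hl)])

end

end Vale.Agent.P168
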