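import Vale.Agent.P168.Defs

/-! Finite filtered probability spaces (cascades), conditional expectations, the operator `T`. -/

namespace Vale.Agent.P168

open Finset

/-- Positive weights (not normalized) and a decreasing chain of equivalence relations. -/
structure Casc (Ω : Type) where
  μ : Ω → ℝ
  pos : ∀ ω, 0 < μ ω
  rel : ℕ → Setoid Ω
  mono : ∀ d a b, rel (d + 1) a b → rel d a b

theorem down_ind {P : ℕ → Prop} {R : ℕ} (h0 : P R) (hs : ∀ d < R, P (d + 1) → P d) :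
    ∀ d ≤ R, P d := fun _ hd => Nat.decreasingInduction (fun d h ih => hs d h ih) h0 hd

namespace Casc

variable {Ω : Type} [Fintype Ω] (C : Casc Ω)

open Classical in
/-- mass of the class of `ω` at depth `d` -/
noncomputable def cls (d : ℕ) (ω : Ω) : ℝ := ∑ ω', if C.rel d ω ω' then C.μ ω' else 0

open Classical in
/-- conditional law given the class at depth `d` -/
noncomputable def ker (d : ℕ) (ω ω' : Ω) : ℝ :=
  (if C.rel d ω ω' then C.μ ω' else 0) / C.cls d ω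

/-- conditional expectation -/
noncomputable def E (d : ℕ) (f : Ω → ℝ) (ω : Ω) : ℝ := ∑ ω', C.ker d ω ω' * f ω'

/-- total average -/
noncomputable def av (f : Ω → ℝ) : ℝ := (∑ ω, C.μ ω * f ω) / ∑ ω, C.μ ω

/-- measurability at depth `d` -/
def Meas {X : Type*} (d : ℕ) (f : Ω → X) : Prop := ∀ a b, C.rel d a b → f a = f b

/-- the relation at depth `R` is equality -/
def Top (R : ℕ) : Prop := ∀ a b, C.rel R a b → a = b

noncomputable def Tk (m : ℕ → ℝ) : ℕ → ℕ → (Ω → ℝ) → Ω → ℝ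
  | 0, _, A => A
  | k + 1, d, A => fun ω =>
    (m (d + 1))⁻¹ * Real.log (C.E d (fun ω' => Real.exp (m (d + 1) * Tk m k (d + 1) A ω')) ω)

/-- the nested log-exp operator from depth `R` up to depth `d` -/
noncomputable def T (m : ℕ → ℝ) (R d : ℕ) (A : Ω → ℝ) : Ω → ℝ := C.Tk m (R - d) d A

/-- density of the tilted conditional law -/
noncomputable def rho (m : ℕ → ℝ) (R d : ℕ) (A : Ω → ℝ) (ω : Ω) : ℝ :=
  ∏ e ∈ Ico d R, Real.exp (m (e + 1) * (C.T m R (e + 1) A ω - C.T m R e A ω))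

/-- the tilted cascade -/
noncomputable def tilt (m : ℕ → ℝ) (R : ℕ) (A : Ω → ℝ) : Casc Ω where
  μ ω := C.μ ω * C.rho m R 0 A ω
  pos ω := mul_pos (C.pos ω) (prod_pos fun _ _ => Real.exp_pos _)
  rel := C.rel
  mono := C.mono

omit [Fintype Ω] in
theorem rel_le {d e : ℕ} (h : d ≤ e) {a b : Ω} (hr : C.rel e a b) : C.rel d a b := by
  induction e, h using Nat.le_induction with
  | base => exact hr
  | succ e _ ih => exact ih (C.mono _ _ _ hr)

omit [Fintype Ω] in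
theorem Meas.mono {C : Casc Ω} {X : Type*} {d e : ℕ} {f : Ω → X} (hf : C.Meas d f) (h : d ≤ e) :
    C.Meas e f := fun a b hr => hf a b (C.rel_le h hr)

omit [Fintype Ω] in
theorem Top.meas {C : Casc Ω} {X : Type*} {R : ℕ} (h : C.Top R) (f : Ω → X) : C.Meas R f :=
  fun a b hr => by rw [h a b hr]

theorem cls_pos (d : ℕ) (ω : Ω) : 0 < C.cls d ω := by
  classical
  refine sum_pos' (fun ω' _ => ?_) ⟨ω, mem_univ _, ?_⟩
  · split_ifs
    · exact (C.pos _).le
    · exact le_rfl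
  · rw [if_pos ((C.rel d).refl' ω)]
    exact C.pos ω

theorem cls_congr {d : ℕ} {a b : Ω} (h : C.rel d a b) : C.cls d a = C.cls d b := by
  classical
  refine sum_congr rfl fun ω' _ => if_congr ⟨fun h' => ?_, fun h' => ?_⟩ rfl rfl
  · exact (C.rel d).trans' ((C.rel d).symm' h) h'
  · exact (C.rel d).trans' h h'

theorem ker_nonneg (d : ℕ) (a b : Ω) : 0 ≤ C.ker d a b := by
  unfold ker
  refine div_nonneg ?_ (C.cls_pos d a).le
  split_ifs
  · exact (C.pos _).le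
  · exact le_rfl

theorem ker_of_rel {d : ℕ} {a b : Ω} (h : C.rel d a b) : C.ker d a b = C.μ b / C.cls d a := by
  rw [ker, if_pos h]

theorem ker_of_not {d : ℕ} {a b : Ω} (h : ¬ C.rel d a b) : C.ker d a b = 0 := by
  rw [ker, if_neg h, zero_div]

theorem ker_sum (d : ℕ) (a : Ω) : ∑ b, C.ker d a b = 1 := by
  unfold ker
  rw [← sum_div]
  exact div_self (C.cls_pos d a).ne'

theorem ker_congr {d : ℕ} {a b : Ω} (h : C.rel d a b) (c : Ω) : C.ker d a c = C.ker d b c := by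
  by_cases h' : C.rel d a c
  · rw [C.ker_of_rel h', C.ker_of_rel ((C.rel d).trans' ((C.rel d).symm' h) h'), C.cls_congr h]
  · rw [C.ker_of_not h', C.ker_of_not fun h'' => h' ((C.rel d).trans' h h'')]

theorem E_meas (d : ℕ) (f : Ω → ℝ) : C.Meas d (C.E d f) := fun _ _ h =>
  sum_congr rfl fun c _ => by rw [C.ker_congr h]

/-- freezing -/
theorem E_congr {d : ℕ} {f g : Ω → ℝ} {ω : Ω} (h : ∀ ω', C.rel d ω ω' → f ω' = g ω') :
    C.E d f ω = C.E d g ω := by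
  refine sum_congr rfl fun c _ => ?_
  by_cases h' : C.rel d ω c
  · rw [h c h']
  · rw [C.ker_of_not h', zero_mul, zero_mul]

theorem E_mono_rel {d : ℕ} {f g : Ω → ℝ} {ω : Ω} (h : ∀ ω', C.rel d ω ω' → f ω' ≤ g ω') :
    C.E d f ω ≤ C.E d g ω := by
  refine sum_le_sum fun c _ => ?_
  by_cases h' : C.rel d ω c
  · exact mul_le_mul_of_nonneg_left (h c h') (C.ker_nonneg _ _ _)
  · rw [C.ker_of_not h', zero_mul, zero_mul]

theorem E_mono {d : ℕ} {f g : Ω → ℝ} (h : ∀ ω', f ω' ≤ g ω') (ω : Ω) :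
    C.E d f ω ≤ C.E d g ω := C.E_mono_rel fun ω' _ => h ω'

@[simp] theorem E_const (d : ℕ) (c : ℝ) (ω : Ω) : C.E d (fun _ => c) ω = c := by
  rw [E, ← sum_mul, ker_sum, one_mul]

theorem E_add (d : ℕ) (f g : Ω → ℝ) (ω : Ω) :
    C.E d (fun x => f x + g x) ω = C.E d f ω + C.E d g ω := by
  simp only [E, mul_add, sum_add_distrib]

theorem E_sub (d : ℕ) (f g : Ω → ℝ) (ω : Ω) :
    C.E d (fun x => f x - g x) ω = C.E d f ω - C.E d g ω := by
  simp only [E, mul_sub, sum_sub_distrib]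

theorem E_const_mul (d : ℕ) (c : ℝ) (f : Ω → ℝ) (ω : Ω) :
    C.E d (fun x => c * f x) ω = c * C.E d f ω := by
  simp only [E, mul_sum, mul_left_comm]

theorem E_mul_const (d : ℕ) (c : ℝ) (f : Ω → ℝ) (ω : Ω) :
    C.E d (fun x => f x * c) ω = C.E d f ω * c := by
  simp only [E, sum_mul, mul_assoc]

theorem E_sum {ι : Type*} (s : Finset ι) (d : ℕ) (f : ι → Ω → ℝ) (ω : Ω) :
    C.E d (fun x => ∑ i ∈ s, f i x) ω = ∑ i ∈ s, C.E d (f i) ω := by
  simp only [E, mul_sum]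
  exact sum_comm

theorem E_avg {ι : Type*} [Fintype ι] (d : ℕ) (f : ι → Ω → ℝ) (ω : Ω) :
    C.E d (fun x => avg fun i => f i x) ω = avg fun i => C.E d (f i) ω := by
  simp only [avg, div_eq_mul_inv, E_mul_const, E_sum]

theorem E_nonneg {d : ℕ} {f : Ω → ℝ} (h : ∀ x, 0 ≤ f x) (ω : Ω) : 0 ≤ C.E d f ω := by
  simpa using C.E_mono (d := d) h ω

theorem E_le {d : ℕ} {f : Ω → ℝ} {c : ℝ} (h : ∀ x, f x ≤ c) (ω : Ω) : C.E d f ω ≤ c := by
  simpa using C.E_mono (d := d) h ω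

theorem le_E {d : ℕ} {f : Ω → ℝ} {c : ℝ} (h : ∀ x, c ≤ f x) (ω : Ω) : c ≤ C.E d f ω := by
  simpa using C.E_mono (d := d) h ω

theorem E_pos {d : ℕ} {f : Ω → ℝ} (h : ∀ x, 0 < f x) (ω : Ω) : 0 < C.E d f ω :=
  sum_pos' (fun c _ => mul_nonneg (C.ker_nonneg _ _ _) (h c).le) ⟨ω, mem_univ _, mul_pos (by
    rw [C.ker_of_rel ((C.rel d).refl' ω)]
    exact div_pos (C.pos ω) (C.cls_pos d ω)) (h ω)⟩

theorem abs_E_le (d : ℕ) (f : Ω → ℝ) (ω : Ω) : |C.E d f ω| ≤ C.E d (fun x => |f x|) ω :=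
  (abs_sum_le_sum_abs _ _).trans_eq (sum_congr rfl fun c _ => by
    rw [abs_mul, abs_of_nonneg (C.ker_nonneg _ _ _)])

theorem abs_E_le_of {d : ℕ} {f : Ω → ℝ} {c : ℝ} (h : ∀ x, |f x| ≤ c) (ω : Ω) :
    |C.E d f ω| ≤ c := (C.abs_E_le d f ω).trans (C.E_le h ω)

/-- pull-out -/
theorem E_meas_mul {d : ℕ} {φ : Ω → ℝ} (hφ : C.Meas d φ) (f : Ω → ℝ) (ω : Ω) :
    C.E d (fun x => φ x * f x) ω = φ ω * C.E d f ω := by
  rw [← E_const_mul]
  exact C.E_congr fun ω' h => by rw [hφ _ _ h]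

theorem E_of_meas {d : ℕ} {φ : Ω → ℝ} (hφ : C.Meas d φ) (ω : Ω) : C.E d φ ω = φ ω := by
  rw [C.E_congr (g := fun _ => φ ω) fun ω' h => (hφ _ _ h).symm, E_const]

theorem ker_ker {d e : ℕ} (h : d ≤ e) (a c : Ω) :
    ∑ b, C.ker d a b * C.ker e b c = C.ker d a c := by
  classical
  have h1 : ∀ b, C.ker d a b * C.ker e b c =
      C.ker d a c * ((if C.rel e c b then C.μ b else 0) / C.cls e c) := by
    intro b
    by_cases h2 : C.rel e b c
    · have h3 := (C.rel e).symm' h2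
      rw [if_pos h3, C.ker_of_rel h2, C.cls_congr h2]
      by_cases h4 : C.rel d a b
      · rw [C.ker_of_rel h4, C.ker_of_rel ((C.rel d).trans' h4 (C.rel_le h h2))]
        ring
      · rw [C.ker_of_not h4, C.ker_of_not fun h5 => h4 ((C.rel d).trans' h5 (C.rel_le h h3))]
        ring
    · rw [C.ker_of_not h2, if_neg fun h3 => h2 ((C.rel e).symm' h3)]
      ring
  simp only [h1, ← mul_sum]
  exact (congrArg _ (C.ker_sum e c)).trans (mul_one _)

/-- tower property -/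
theorem E_E {d e : ℕ} (h : d ≤ e) (f : Ω → ℝ) (ω : Ω) : C.E d (C.E e f) ω = C.E d f ω := by
  simp only [E, mul_sum, ← mul_assoc]
  rw [sum_comm]
  simp only [← sum_mul, C.ker_ker h]

theorem sq_E_le (d : ℕ) (f : Ω → ℝ) (ω : Ω) : C.E d f ω ^ 2 ≤ C.E d (fun x => f x ^ 2) ω := by
  have h := C.E_nonneg (d := d) (fun x => sq_nonneg (f x - C.E d f ω)) ω
  have e : (fun x => (f x - C.E d f ω) ^ 2) =
      fun x => f x ^ 2 - (2 * C.E d f ω) * f x + C.E d f ω ^ 2 := funext fun x => by ring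
  rw [e, E_add, E_sub, E_const_mul, E_const] at h
  nlinarith

theorem av_E [Nonempty Ω] (d : ℕ) (f : Ω → ℝ) : C.av (C.E d f) = C.av f := by
  classical
  unfold av E
  congr 1
  simp only [mul_sum, ← mul_assoc]
  rw [sum_comm]
  refine sum_congr rfl fun c _ => ?_
  rw [← sum_mul]
  congr 1
  have h1 : ∀ b, C.μ b * C.ker d b c = C.μ c * C.ker d c b := by
    intro b
    by_cases h : C.rel d b c
    · rw [C.ker_of_rel h, C.ker_of_rel ((C.rel d).symm' h), C.cls_congr h]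
      ring
    · rw [C.ker_of_not h, C.ker_of_not fun h' => h ((C.rel d).symm' h')]
      ring
  simp only [h1, ← mul_sum, ker_sum, mul_one]

variable (m : ℕ → ℝ) (R : ℕ)

theorem T_ge {R d : ℕ} (h : R ≤ d) (A : Ω → ℝ) : C.T m R d A = A := by
  rw [T, Nat.sub_eq_zero_of_le h, Tk]

@[simp] theorem T_top (A : Ω → ℝ) : C.T m R R A = A := C.T_ge m le_rfl A

theorem T_lt {R d : ℕ} (h : d < R) (A : Ω → ℝ) (ω : Ω) : C.T m R d A ω =
    (m (d + 1))⁻¹ * Real.log (C.E d (fun ω' => Real.exp (m (d + 1) * C.T m R (d + 1) A ω')) ω) := by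
  rw [T, show R - d = (R - (d + 1)) + 1 by omega, Tk]
  rfl

theorem exp_T {m : ℕ → ℝ} (hm : ∀ d, 0 < m (d + 1)) {R d : ℕ} (h : d < R) (A : Ω → ℝ) (ω : Ω) :
    Real.exp (m (d + 1) * C.T m R d A ω) =
      C.E d (fun ω' => Real.exp (m (d + 1) * C.T m R (d + 1) A ω')) ω := by
  rw [C.T_lt m h, mul_inv_cancel_left₀ (hm d).ne', Real.exp_log (C.E_pos (fun _ => Real.exp_pos _) ω)]

theorem T_meas {R d : ℕ} (h : d < R) (A : Ω → ℝ) : C.Meas d (C.T m R d A) := fun a b hr => by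
  rw [C.T_lt m h, C.T_lt m h, C.E_meas d _ a b hr]

theorem T_meas' {R d : ℕ} (h : d ≤ R) {A : Ω → ℝ} (hA : C.Meas R A) : C.Meas d (C.T m R d A) := by
  rcases h.eq_or_lt with rfl | h
  · rwa [T_top]
  · exact C.T_meas m h A

end Casc

/-- a single level: the point is revealed at depth `d₀` -/
def lev {X : Type} (d₀ : ℕ) (p : X → ℝ) (hp : ∀ x, 0 < p x) : Casc X where
  μ := p
  pos := hp
  rel d := ⟨fun a b => d₀ ≤ d → a = b,
    ⟨fun _ _ => rfl, fun h h' => (h h').symm, fun h1 h2 h' => (h1 h').trans (h2 h')⟩⟩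
  mono _ _ _ h h' := h (h'.trans (Nat.le_succ _))

/-- a uniform single level -/
def ulev (X : Type) (d₀ : ℕ) : Casc X := lev d₀ (fun _ => 1) fun _ => one_pos

/-- product of two cascades -/
def Casc.prod {Ω Ω' : Type} (C : Casc Ω) (D : Casc Ω') : Casc (Ω × Ω') where
  μ ω := C.μ ω.1 * D.μ ω.2
  pos _ := mul_pos (C.pos _) (D.pos _)
  rel d := ⟨fun a b => C.rel d a.1 b.1 ∧ D.rel d a.2 b.2,
    ⟨fun _ => ⟨(C.rel d).refl' _, (D.rel d).refl' _⟩,
      fun h => ⟨(C.rel d).symm' h.1, (D.rel d).symm' h.2⟩,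
      fun h1 h2 => ⟨(C.rel d).trans' h1.1 h2.1, (D.rel d).trans' h1.2 h2.2⟩⟩⟩
  mono _ _ _ h := ⟨C.mono _ _ _ h.1, D.mono _ _ _ h.2⟩

/-- product of a finite family of cascades on the same type -/
def Casc.pi {J Ω : Type} [Fintype J] (C : J → Casc Ω) : Casc (J → Ω) where
  μ ω := ∏ j, (C j).μ (ω j)
  pos _ := prod_pos fun j _ => (C j).pos _
  rel d := ⟨fun a b => ∀ j, (C j).rel d (a j) (b j),
    ⟨fun _ j => ((C j).rel d).refl' _, fun h j => ((C j).rel d).symm' (h j),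
      fun h1 h2 j => ((C j).rel d).trans' (h1 j) (h2 j)⟩⟩
  mono _ _ _ h j := (C j).mono _ _ _ (h j)

end Vale.Agent.P168
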