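import Vale.Agent.P168.FDefs

/-! The operator `T`, tilting. -/

namespace Vale.Agent.P168

open Finset

namespace Casc

variable {Ω : Type} [Fintype Ω] (C : Casc Ω) {m : ℕ → ℝ} {R d : ℕ}

omit [Fintype Ω] in
theorem ext' {C D : Casc Ω} (h1 : C.μ = D.μ) (h2 : C.rel = D.rel) : C = D := by
  cases C
  cases D
  cases h1
  cases h2
  rfl

theorem Tk_congr {A B : Ω → ℝ} : ∀ (k d : ℕ) (ω : Ω), (∀ ω', C.rel d ω ω' → A ω' = B ω') →
    C.Tk m k d A ω = C.Tk m k d B ω
  | 0, d, ω, h => h ω ((C.rel d).refl' ω)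
  | k + 1, d, ω, h => by
    simp only [Tk]
    rw [C.E_congr fun ω' h' => by
      rw [Tk_congr k (d + 1) ω' fun x hx => h x ((C.rel d).trans' h' (C.mono _ _ _ hx))]]

theorem Tk_mono (hm : ∀ d, 0 < m (d + 1)) {A B : Ω → ℝ} : ∀ (k d : ℕ) (ω : Ω),
    (∀ ω', C.rel d ω ω' → A ω' ≤ B ω') → C.Tk m k d A ω ≤ C.Tk m k d B ω
  | 0, d, ω, h => h ω ((C.rel d).refl' ω)
  | k + 1, d, ω, h => by
    simp only [Tk]
    refine mul_le_mul_of_nonneg_left (Real.log_le_log (C.E_pos (fun _ => Real.exp_pos _) ω)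
      (C.E_mono_rel fun ω' h' => Real.exp_le_exp.2 (mul_le_mul_of_nonneg_left ?_ (hm d).le)))
      (inv_pos.2 (hm d)).le
    exact Tk_mono hm k (d + 1) ω' fun x hx => h x ((C.rel d).trans' h' (C.mono _ _ _ hx))

theorem Tk_add_meas (hm : ∀ d, 0 < m (d + 1)) (A : Ω → ℝ) {φ : Ω → ℝ} : ∀ (k d : ℕ) (ω : Ω),
    C.Meas d φ → C.Tk m k d (fun x => A x + φ x) ω = C.Tk m k d A ω + φ ω
  | 0, _, _, _ => rfl
  | k + 1, d, ω, h => by
    simp only [Tk]
    rw [C.E_congr (g := fun x => Real.exp (m (d + 1) * C.Tk m k (d + 1) A x) *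
      Real.exp (m (d + 1) * φ ω)) fun ω' h' => by
        rw [Tk_add_meas hm A k (d + 1) ω' (h.mono d.le_succ), h _ _ h', mul_add, Real.exp_add],
      E_mul_const, Real.log_mul (C.E_pos (fun _ => Real.exp_pos _) ω).ne' (Real.exp_pos _).ne',
      Real.log_exp, mul_add, inv_mul_cancel_left₀ (hm d).ne']

theorem T_congr {A B : Ω → ℝ} {ω : Ω} (h : ∀ ω', C.rel d ω ω' → A ω' = B ω') :
    C.T m R d A ω = C.T m R d B ω := C.Tk_congr _ _ _ h

theorem T_mono_rel (hm : ∀ d, 0 < m (d + 1)) {A B : Ω → ℝ} {ω : Ω}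
    (h : ∀ ω', C.rel d ω ω' → A ω' ≤ B ω') : C.T m R d A ω ≤ C.T m R d B ω := C.Tk_mono hm _ _ _ h

theorem T_mono (hm : ∀ d, 0 < m (d + 1)) {A B : Ω → ℝ} (h : ∀ ω, A ω ≤ B ω) (ω : Ω) :
    C.T m R d A ω ≤ C.T m R d B ω := C.T_mono_rel hm fun x _ => h x

theorem T_add_meas (hm : ∀ d, 0 < m (d + 1)) (A : Ω → ℝ) {φ : Ω → ℝ} (hφ : C.Meas d φ) (ω : Ω) :
    C.T m R d (fun x => A x + φ x) ω = C.T m R d A ω + φ ω := C.Tk_add_meas hm A _ _ _ hφ

theorem T_add_const (hm : ∀ d, 0 < m (d + 1)) (A : Ω → ℝ) (c : ℝ) (ω : Ω) :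
    C.T m R d (fun x => A x + c) ω = C.T m R d A ω + c := C.T_add_meas hm A (fun _ _ _ => rfl) ω

theorem Tk_zero : ∀ (k d : ℕ) (ω : Ω), C.Tk m k d (fun _ => 0) ω = 0
  | 0, _, _ => rfl
  | k + 1, d, ω => by simp [Tk, Tk_zero k (d + 1)]

theorem T_of_meas (hm : ∀ d, 0 < m (d + 1)) {φ : Ω → ℝ} (hφ : C.Meas d φ) (ω : Ω) :
    C.T m R d φ ω = φ ω := by
  have := C.T_add_meas (R := R) hm (fun _ => 0) hφ ω
  simp only [zero_add] at this
  rw [this, T, Tk_zero, zero_add]

theorem T_const (hm : ∀ d, 0 < m (d + 1)) (c : ℝ) (ω : Ω) : C.T m R d (fun _ => c) ω = c := C.T_of_meas hm (fun _ _ _ => rfl) ω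

theorem T_le_add (hm : ∀ d, 0 < m (d + 1)) {A B : Ω → ℝ} {c : ℝ} (h : ∀ ω, A ω ≤ B ω + c)
    (ω : Ω) : C.T m R d A ω ≤ C.T m R d B ω + c := (C.T_mono hm h ω).trans_eq (C.T_add_const hm B c ω)

theorem abs_T_le (hm : ∀ d, 0 < m (d + 1)) {A : Ω → ℝ} {c : ℝ} (h : ∀ ω, |A ω| ≤ c) (ω : Ω) :
    |C.T m R d A ω| ≤ c := by
  rw [abs_le]
  exact ⟨(C.T_const hm (-c) ω).symm.trans_le (C.T_mono hm (fun x => (abs_le.1 (h x)).1) ω),
    (C.T_mono hm (fun x => (abs_le.1 (h x)).2) ω).trans_eq (C.T_const hm c ω)⟩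

theorem abs_T_sub_le (hm : ∀ d, 0 < m (d + 1)) {A B : Ω → ℝ} {c : ℝ}
    (h : ∀ ω, |A ω - B ω| ≤ c) (ω : Ω) : |C.T m R d A ω - C.T m R d B ω| ≤ c := by
  have h1 := C.T_le_add (R := R) (d := d) hm (A := A) (B := B) (c := c)
    (fun x => by linarith [(abs_le.1 (h x)).2]) ω
  have h2 := C.T_le_add (R := R) (d := d) hm (A := B) (B := A) (c := c)
    (fun x => by linarith [(abs_le.1 (h x)).1]) ω
  rw [abs_le]
  constructor <;> linarith

theorem T_comp {e : ℕ} (h1 : d ≤ e) (h2 : e ≤ R) (A : Ω → ℝ) :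
    C.T m R d A = C.T m e d (C.T m R e A) := by
  refine down_ind (P := fun d => C.T m R d A = C.T m e d (C.T m R e A)) (by rw [T_top])
    (fun d hd ih => ?_) d h1
  funext ω
  rw [C.T_lt m (hd.trans_le h2), C.T_lt m hd, ih]

theorem E_le_T (hm : ∀ d, 0 < m (d + 1)) (h : d < R) (A : Ω → ℝ) (ω : Ω) :
    C.E d (C.T m R (d + 1) A) ω ≤ C.T m R d A ω := by
  have h1 : Real.exp (m (d + 1) * C.E d (C.T m R (d + 1) A) ω) ≤
      Real.exp (m (d + 1) * C.T m R d A ω) := by
    rw [C.exp_T hm h]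
    set a := C.E d (C.T m R (d + 1) A) ω with ha
    have h2 : ∀ x, Real.exp (m (d + 1) * a) * (m (d + 1) * C.T m R (d + 1) A x) +
        Real.exp (m (d + 1) * a) * (1 - m (d + 1) * a) ≤
        Real.exp (m (d + 1) * C.T m R (d + 1) A x) := by
      intro x
      have h3 := Real.add_one_le_exp (m (d + 1) * C.T m R (d + 1) A x - m (d + 1) * a)
      rw [Real.exp_sub, le_div_iff₀ (Real.exp_pos _)] at h3
      linarith
    refine le_trans (le_of_eq ?_) (C.E_mono h2 ω)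
    rw [E_add, E_const, E_const_mul, E_const_mul, ← ha]
    ring
  exact le_of_mul_le_mul_left (Real.exp_le_exp.1 h1) (hm d)

theorem T_le_E (hm : ∀ d, 0 < m (d + 1)) (h : d < R) {A : Ω → ℝ} {c : ℝ} (hA : ∀ ω, |A ω| ≤ c)
    (hc : m (d + 1) * c ≤ 1) (ω : Ω) :
    C.T m R d A ω ≤ C.E d (C.T m R (d + 1) A) ω + m (d + 1) * c ^ 2 := by
  have h0 := hm d
  have h2 : ∀ x, Real.exp (m (d + 1) * C.T m R (d + 1) A x) ≤
      m (d + 1) * C.T m R (d + 1) A x + (1 + (m (d + 1) * c) ^ 2) := by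
    intro x
    have h3 : |m (d + 1) * C.T m R (d + 1) A x| ≤ m (d + 1) * c := by
      rw [abs_mul, abs_of_pos h0]
      exact mul_le_mul_of_nonneg_left (C.abs_T_le hm hA x) h0.le
    have h4 := (abs_le.1 (Real.abs_exp_sub_one_sub_id_le (h3.trans hc))).2
    have h5 := sq_le_sq' (abs_le.1 h3).1 (abs_le.1 h3).2
    linarith
  have h3 := C.E_mono (d := d) h2 ω
  rw [← C.exp_T hm h, E_add, E_const, E_const_mul] at h3
  have h4 := Real.add_one_le_exp (m (d + 1) * C.T m R d A ω)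
  refine le_of_mul_le_mul_left ?_ h0
  nlinarith

theorem av_add (f g : Ω → ℝ) : C.av (fun x => f x + g x) = C.av f + C.av g := by
  simp only [av, mul_add, sum_add_distrib, add_div]

theorem av_sub (f g : Ω → ℝ) : C.av (fun x => f x - g x) = C.av f - C.av g := by
  simp only [av, mul_sub, sum_sub_distrib, sub_div]

theorem av_const_mul (c : ℝ) (f : Ω → ℝ) : C.av (fun x => c * f x) = c * C.av f := by
  simp only [av, mul_left_comm _ c, ← mul_sum, mul_div_assoc]

theorem av_sum {ι : Type*} (s : Finset ι) (f : ι → Ω → ℝ) :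
    C.av (fun x => ∑ i ∈ s, f i x) = ∑ i ∈ s, C.av (f i) := by
  simp only [av, mul_sum, ← sum_div]
  rw [sum_comm]

theorem av_avg {ι : Type*} [Fintype ι] (f : ι → Ω → ℝ) :
    C.av (fun x => avg fun i => f i x) = avg fun i => C.av (f i) := by
  simp only [avg, div_eq_inv_mul, av_const_mul, av_sum]

theorem av_const [Nonempty Ω] (c : ℝ) : C.av (fun _ => c) = c := by
  rw [av, ← sum_mul, mul_div_cancel_left₀ _ (sum_pos (fun x _ => C.pos x) univ_nonempty).ne']

theorem av_mono {f g : Ω → ℝ} (h : ∀ x, f x ≤ g x) : C.av f ≤ C.av g :=   div_le_div_of_nonneg_right (sum_le_sum fun x _ => mul_le_mul_of_nonneg_left (h x) (C.pos x).le)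
    (sum_nonneg fun x _ => (C.pos x).le)

theorem abs_av_le [Nonempty Ω] {f : Ω → ℝ} {c : ℝ} (h : ∀ x, |f x| ≤ c) : |C.av f| ≤ c := by
  rw [abs_le]
  exact ⟨(C.av_const (-c)).symm.trans_le (C.av_mono fun x => (abs_le.1 (h x)).1),
    (C.av_mono fun x => (abs_le.1 (h x)).2).trans_eq (C.av_const c)⟩

theorem av_eq_E (h : ∀ a b, C.rel d a b) (f : Ω → ℝ) (ω : Ω) : C.av f = C.E d f ω := by
  simp only [av, E, ker, cls, h, if_true, sum_div, div_mul_eq_mul_div]

theorem rho_pos (A : Ω → ℝ) (ω : Ω) : 0 < C.rho m R d A ω := prod_pos fun _ _ => Real.exp_pos _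

theorem rho_ge (h : R ≤ d) (A : Ω → ℝ) (ω : Ω) : C.rho m R d A ω = 1 := by
  rw [rho, Ico_eq_empty_of_le h, prod_empty]

theorem rho_succ (h : d < R) (A : Ω → ℝ) (ω : Ω) : C.rho m R d A ω =
    Real.exp (m (d + 1) * (C.T m R (d + 1) A ω - C.T m R d A ω)) * C.rho m R (d + 1) A ω := by
  rw [rho, prod_eq_prod_Ico_succ_bot h, rho]

theorem E_rho (hm : ∀ d, 0 < m (d + 1)) {A : Ω → ℝ} (hA : C.Meas R A) (ω : Ω) :
    C.E d (C.rho m R d A) ω = 1 := by
  rcases le_total R d with h | h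
  · simp [funext (C.rho_ge (m := m) h A)]
  revert ω
  refine down_ind (P := fun d => ∀ ω, C.E d (C.rho m R d A) ω = 1)
    (fun ω => by simp [funext (C.rho_ge (m := m) le_rfl A)]) (fun d hd ih ω => ?_) d h
  have h1 : C.Meas (d + 1) fun x =>
      Real.exp (m (d + 1) * (C.T m R (d + 1) A x - C.T m R d A x)) := fun a b hr => by
    beta_reduce
    rw [C.T_meas' m (d := d + 1) hd hA a b hr, C.T_meas m hd A a b (C.mono _ _ _ hr)]
  rw [← C.E_E d.le_succ, funext (C.rho_succ hd A), funext (C.E_meas_mul h1 _)]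
  simp only [ih, mul_one, mul_sub, Real.exp_sub]
  rw [C.E_congr (g := fun x => Real.exp (m (d + 1) * C.T m R (d + 1) A x) *
    (Real.exp (m (d + 1) * C.T m R d A ω))⁻¹) fun x hx => by
      rw [C.T_meas m hd A _ _ hx, div_eq_mul_inv], E_mul_const, ← C.exp_T hm hd,
    mul_inv_cancel₀ (Real.exp_pos _).ne']

@[simp] theorem tilt_rel (A : Ω → ℝ) : (C.tilt m R A).rel = C.rel := rfl

theorem Top.tilt {C : Casc Ω} {R' : ℕ} (h : C.Top R') (A : Ω → ℝ) : (C.tilt m R A).Top R' := h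

theorem rho_split {A : Ω → ℝ} (hA : C.Meas R A) (d : ℕ) :
    ∃ φ : Ω → ℝ, C.Meas d φ ∧ (∀ x, 0 < φ x) ∧ ∀ x, C.rho m R 0 A x = φ x * C.rho m R d A x := by
  refine ⟨fun x => ∏ e ∈ Ico 0 (min d R),
    Real.exp (m (e + 1) * (C.T m R (e + 1) A x - C.T m R e A x)), fun a b hr => ?_,
    fun x => prod_pos fun _ _ => Real.exp_pos _, fun x => ?_⟩
  · refine prod_congr rfl fun e he => ?_
    have h1 := (mem_Ico.1 he).2
    rw [C.T_meas' m (by omega) hA a b (C.rel_le (by omega) hr),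
      C.T_meas m (by omega) A a b (C.rel_le (by omega) hr)]
  · rcases le_total R d with h | h
    · rw [min_eq_right h, C.rho_ge h, mul_one, rho]
    · rw [min_eq_left h, rho, rho, prod_Ico_consecutive _ d.zero_le h]

theorem ker_tilt (hm : ∀ d, 0 < m (d + 1)) {A : Ω → ℝ} (hA : C.Meas R A) (a b : Ω) :
    (C.tilt m R A).ker d a b = C.ker d a b * C.rho m R d A b := by
  classical
  obtain ⟨φ, h1, h2, h3⟩ := C.rho_split (m := m) hA d
  by_cases h : C.rel d a b
  · have h4 : (C.tilt m R A).cls d a = φ a * C.cls d a := by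
      have h5 := C.E_rho (d := d) hm hA a
      simp only [E, ker, div_mul_eq_mul_div, ← sum_div] at h5
      rw [div_eq_one_iff_eq (C.cls_pos d a).ne'] at h5
      rw [← h5, mul_sum]
      refine sum_congr rfl fun x _ => ?_
      by_cases hx : C.rel d a x
      · rw [if_pos hx, if_pos (show (C.tilt m R A).rel d a x from hx), h1 _ _ hx]
        show C.μ x * C.rho m R 0 A x = _
        rw [h3]
        ring
      · rw [if_neg hx, if_neg (show ¬ (C.tilt m R A).rel d a x from hx)]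
        ring
    rw [(C.tilt m R A).ker_of_rel h, C.ker_of_rel h, h4, h1 _ _ h]
    show C.μ b * C.rho m R 0 A b / _ = _
    rw [h3]
    have := h2 b
    have := C.cls_pos d a
    field_simp
  · rw [(C.tilt m R A).ker_of_not h, C.ker_of_not h, zero_mul]

theorem E_tilt (hm : ∀ d, 0 < m (d + 1)) {A : Ω → ℝ} (hA : C.Meas R A) (f : Ω → ℝ) (ω : Ω) :
    (C.tilt m R A).E d f ω = C.E d (fun x => C.rho m R d A x * f x) ω := by
  simp only [E, C.ker_tilt hm hA, mul_assoc]

/-- tilted expectation of a function measurable at depth `d + 1` -/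
theorem E_tilt_succ (hm : ∀ d, 0 < m (d + 1)) (h : d < R) {A : Ω → ℝ} (hA : C.Meas R A)
    {f : Ω → ℝ} (hf : C.Meas (d + 1) f) (ω : Ω) : (C.tilt m R A).E d f ω = C.E d (fun x =>
      Real.exp (m (d + 1) * (C.T m R (d + 1) A x - C.T m R d A x)) * f x) ω := by
  have h1 : C.Meas (d + 1) fun x =>
      Real.exp (m (d + 1) * (C.T m R (d + 1) A x - C.T m R d A x)) * f x := fun a b hr => by
    beta_reduce
    rw [C.T_meas' m (d := d + 1) h hA a b hr, C.T_meas m h A a b (C.mono _ _ _ hr), hf a b hr]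
  rw [C.E_tilt hm hA, ← C.E_E d.le_succ]
  congr 1
  funext x
  simp only [C.rho_succ h, mul_right_comm _ (C.rho m R (d + 1) A _)]
  rw [C.E_meas_mul h1, C.E_rho hm hA, mul_one]

theorem av_tilt (hm : ∀ d, 0 < m (d + 1)) {A : Ω → ℝ} (hA : C.Meas R A) {f : Ω → ℝ}
    (hf : C.Meas 0 f) : (C.tilt m R A).av f = C.av f := by
  rcases isEmpty_or_nonempty Ω with _ | _
  · simp [av]
  have key : ∀ g : Ω → ℝ, C.Meas 0 g →
      ∑ x, (C.tilt m R A).μ x * g x = ∑ x, C.μ x * g x := by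
    intro g hg
    have h1 := C.av_E 0 fun x => g x * C.rho m R 0 A x
    rw [funext (C.E_meas_mul hg _)] at h1
    simp only [C.E_rho hm hA, mul_one, av] at h1
    rw [div_left_inj' (sum_pos (fun x _ => C.pos x) univ_nonempty).ne'] at h1
    rw [h1]
    exact sum_congr rfl fun x _ => by
      show C.μ x * C.rho m R 0 A x * g x = _
      ring
  have h2 := key (fun _ => 1) fun _ _ _ => rfl
  simp only [mul_one] at h2
  rw [av, av, key f hf, h2]

theorem T_add (hm : ∀ d, 0 < m (d + 1)) {A B : Ω → ℝ} (hA : C.Meas R A) (hB : C.Meas R B)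
    (ω : Ω) : C.T m R d (fun x => A x + B x) ω =
      C.T m R d A ω + (C.tilt m R A).T m R d B ω := by
  rcases le_total R d with h | h
  · rw [C.T_ge m h, C.T_ge m h, (C.tilt m R A).T_ge m h]
  revert ω
  refine down_ind (P := fun d => ∀ ω, C.T m R d (fun x => A x + B x) ω =
    C.T m R d A ω + (C.tilt m R A).T m R d B ω) (fun ω => by simp) (fun d hd ih ω => ?_) d h
  have h1 : C.Meas (d + 1) fun x => Real.exp (m (d + 1) * (C.tilt m R A).T m R (d + 1) B x) :=
    fun a b hr => by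
      beta_reduce
      rw [(C.tilt m R A).T_meas' m (d := d + 1) hd hB a b hr]
  rw [C.T_lt m hd, (C.tilt m R A).T_lt m hd, C.E_tilt_succ hm hd hA h1,
    C.E_congr (f := fun x => Real.exp (m (d + 1) * (C.T m R (d + 1) A x - C.T m R d A x)) * _)
      (g := fun x => Real.exp (m (d + 1) * C.T m R (d + 1) (fun x => A x + B x) x) *
        Real.exp (-(m (d + 1) * C.T m R d A ω))) fun x hx => by
      rw [ih, C.T_meas m hd A _ _ hx, ← Real.exp_add, ← Real.exp_add]
      congr 1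
      ring, E_mul_const,
    Real.log_mul (C.E_pos (fun _ => Real.exp_pos _) ω).ne' (Real.exp_pos _).ne', Real.log_exp]
  have := (hm d).ne'
  field_simp
  ring

theorem tilt_zero (hm : ∀ d, 0 < m (d + 1)) : C.tilt m R (fun _ => 0) = C := by
  refine ext' (funext fun x => ?_) rfl
  show C.μ x * C.rho m R 0 (fun _ => 0) x = _
  simp [rho, C.T_const hm]

end Casc

theorem avg_const {X : Type*} [Fintype X] [Nonempty X] (c : ℝ) : avg (fun _ : X => c) = c := by
  rw [avg, sum_const, card_univ, nsmul_eq_mul, mul_div_cancel_left₀]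
  exact_mod_cast Fintype.card_ne_zero

theorem avg_add {X : Type*} [Fintype X] (f g : X → ℝ) :
    avg (fun x => f x + g x) = avg f + avg g := by
  simp only [avg, sum_add_distrib, add_div]

theorem avg_sub {X : Type*} [Fintype X] (f g : X → ℝ) :
    avg (fun x => f x - g x) = avg f - avg g := by
  simp only [avg, sum_sub_distrib, sub_div]

theorem avg_const_mul {X : Type*} [Fintype X] (c : ℝ) (f : X → ℝ) :
    avg (fun x => c * f x) = c * avg f := by
  simp only [avg, ← mul_sum, mul_div_assoc]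

theorem avg_mul_const {X : Type*} [Fintype X] (c : ℝ) (f : X → ℝ) :
    avg (fun x => f x * c) = avg f * c := by
  simp only [avg, ← sum_mul, mul_div_right_comm]

theorem avg_sum {X ι : Type*} [Fintype X] (s : Finset ι) (f : ι → X → ℝ) :
    avg (fun x => ∑ i ∈ s, f i x) = ∑ i ∈ s, avg (f i) := by
  simp only [avg, ← sum_div]
  rw [sum_comm]

theorem avg_comm {X Y : Type*} [Fintype X] [Fintype Y] (f : X → Y → ℝ) :
    avg (fun x => avg fun y => f x y) = avg fun y => avg fun x => f x y := by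
  simp only [avg, ← sum_div]
  rw [sum_comm, div_right_comm]

theorem avg_mono {X : Type*} [Fintype X] {f g : X → ℝ} (h : ∀ x, f x ≤ g x) : avg f ≤ avg g :=   div_le_div_of_nonneg_right (sum_le_sum fun x _ => h x) (Nat.cast_nonneg _)

theorem avg_nonneg {X : Type*} [Fintype X] {f : X → ℝ} (h : ∀ x, 0 ≤ f x) : 0 ≤ avg f :=   div_nonneg (sum_nonneg fun x _ => h x) (Nat.cast_nonneg _)

theorem abs_avg_le {X : Type*} [Fintype X] (f : X → ℝ) : |avg f| ≤ avg fun x => |f x| := by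
  rw [avg, abs_div, Nat.abs_cast]
  exact div_le_div_of_nonneg_right (abs_sum_le_sum_abs _ _) (Nat.cast_nonneg _)

theorem abs_avg_le_of {X : Type*} [Fintype X] {f : X → ℝ} {c : ℝ} (hc : 0 ≤ c)
    (h : ∀ x, |f x| ≤ c) : |avg f| ≤ c := by
  rcases isEmpty_or_nonempty X with _ | _
  · simpa [avg] using hc
  · exact (abs_avg_le f).trans ((avg_mono h).trans_eq (avg_const c))

theorem sq_avg_le {X : Type*} [Fintype X] (f : X → ℝ) : avg f ^ 2 ≤ avg fun x => f x ^ 2 := by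
  rcases isEmpty_or_nonempty X with _ | _
  · simp [avg]
  have h : (0 : ℝ) < Fintype.card X := by exact_mod_cast Fintype.card_pos
  have h1 := sq_sum_le_card_mul_sum_sq (s := univ) (f := f)
  rw [card_univ] at h1
  rw [avg, avg, div_pow, div_le_div_iff₀ (by positivity) h]
  nlinarith

theorem avg_prod {X Y : Type*} [Fintype X] [Fintype Y] (f : X × Y → ℝ) :
    avg f = avg fun x => avg fun y => f (x, y) := by
  simp only [avg, ← sum_div, Fintype.sum_prod_type, Fintype.card_prod, Nat.cast_mul, div_div,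
    mul_comm]

theorem avg_equiv {X Y : Type*} [Fintype X] [Fintype Y] (e : X ≃ Y) (f : Y → ℝ) :
    avg (fun x => f (e x)) = avg f := by
  rw [avg, avg, e.sum_comp, Fintype.card_congr e]

theorem avg_pi_prod {J X : Type*} [Fintype J] [DecidableEq J] [Fintype X] (f : J → X → ℝ) :
    avg (fun x : J → X => ∏ j, f j (x j)) = ∏ j, avg (f j) := by
  simp only [avg, prod_div_distrib, prod_const, card_univ, Fintype.card_pi, Nat.cast_pow,
    Fintype.prod_sum]

theorem lv_mm {R : ℕ} (hR : 1 ≤ R) : Lv (mm R) R := by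
  have h : (0 : ℝ) < R := by exact_mod_cast hR
  refine ⟨fun d => div_pos ?_ h, by simp [mm], fun d _ => div_le_div_of_nonneg_right ?_ h.le,
    by simp [mm, h.ne']⟩
  · exact_mod_cast (by omega : 0 < min (d + 1) R)
  · exact_mod_cast (by omega : min d R ≤ min (d + 1) R)

theorem mm_of_le {R d : ℕ} (h : d ≤ R) : mm R d = d / R := by
  rw [mm, min_eq_left h]

theorem mm_of_ge {R d : ℕ} (hR : 1 ≤ R) (h : R ≤ d) : mm R d = 1 := by
  rw [mm, min_eq_right h, div_self]
  exact_mod_cast (by omega : R ≠ 0)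

theorem lv_mext {r : ℕ} {m : Fin r → ℝ} (h1 : StrictMono m) (h2 : ∀ q, 0 < m q ∧ m q < 1) :
    Lv (mext m) (r + 1) := by
  have hp : ∀ d, 0 < mext m (d + 1) := fun d => by
    simp only [mext]
    split_ifs
    · exact (h2 _).1
    · exact one_pos
  refine ⟨hp, rfl, fun d hd => ?_, by simp [mext]⟩
  rcases d with _ | d
  · exact (hp 0).le
  · simp only [mext]
    rw [dif_pos (by omega)]
    split_ifs
    · exact h1.monotone (by simp)
    · exact (h2 _).2.le

end Vale.Agent.P168
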