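import Vale.Agent.P168.Casc2

/-! Factor maps, sub-cascades, products. -/

namespace Vale.Agent.P168

open Finset

set_option linter.unusedVariables false

section
variable {Ω Ω' Ω'' X : Type} [Fintype Ω] [Fintype Ω'] [Fintype Ω''] [Fintype X]
  {C : Casc Ω} {D : Casc Ω'} {D' : Casc Ω''} {m : ℕ → ℝ} {R d : ℕ}

theorem Tk_fac {φ : Ω → Ω'} (h : ∀ d f ω, C.E d (fun x => f (φ x)) ω = D.E d f (φ ω))
    (A : Ω' → ℝ) : ∀ (k d : ℕ) (ω : Ω), C.Tk m k d (fun x => A (φ x)) ω = D.Tk m k d A (φ ω)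
  | 0, _, _ => rfl
  | k + 1, d, ω => by
    simp only [Casc.Tk, Tk_fac h A k (d + 1)]
    rw [h d fun y => Real.exp (m (d + 1) * D.Tk m k (d + 1) A y)]

theorem Fac.T {φ : Ω → Ω'} (h : Fac C D φ) (A : Ω' → ℝ) (ω : Ω) :
    C.T m R d (fun x => A (φ x)) ω = D.T m R d A (φ ω) := Tk_fac h.E A _ _ ω

theorem Fac.avT {φ : Ω → Ω'} (h : Fac C D φ) (A : Ω' → ℝ) :
    C.av (C.T m R d fun x => A (φ x)) = D.av (D.T m R d A) := by
  rw [funext (h.T A), h.av]

theorem Fac.comp {φ : Ω → Ω'} {ψ : Ω' → Ω''} (h : Fac C D φ) (h' : Fac D D' ψ) :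
    Fac C D' fun x => ψ (φ x) :=
  ⟨fun d f ω => (h.E d (fun y => f (ψ y)) ω).trans (h'.E d f _),
    fun f => (h.av fun y => f (ψ y)).trans (h'.av f)⟩

theorem fac_equiv (e : Ω ≃ Ω') {c : ℝ} (hc : 0 < c) (hμ : ∀ ω, C.μ ω = c * D.μ (e ω))
    (hr : ∀ d a b, C.rel d a b ↔ D.rel d (e a) (e b)) : Fac C D e := by
  classical
  have h1 : ∀ d a, C.cls d a = c * D.cls d (e a) := fun d a => by
    rw [Casc.cls, Casc.cls, ← e.sum_comp, mul_sum]
    refine sum_congr rfl fun b _ => ?_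
    by_cases h : C.rel d a b
    · rw [if_pos h, if_pos ((hr d a b).1 h), hμ]
    · rw [if_neg h, if_neg fun h' => h ((hr d a b).2 h'), mul_zero]
  refine ⟨fun d f ω => ?_, fun f => ?_⟩
  · rw [Casc.E, Casc.E, ← e.sum_comp]
    refine sum_congr rfl fun b _ => ?_
    by_cases h : C.rel d ω b
    · rw [C.ker_of_rel h, D.ker_of_rel ((hr d ω b).1 h), hμ, h1, mul_div_mul_left _ _ hc.ne']
    · rw [C.ker_of_not h, D.ker_of_not fun h' => h ((hr d ω b).2 h')]
  · rw [Casc.av, Casc.av, ← e.sum_comp, ← e.sum_comp D.μ]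
    simp only [hμ, mul_assoc, ← mul_sum]
    rw [mul_div_mul_left _ _ hc.ne']

theorem Sub.E {p : ℝ} {φ : Ω → Ω'} (h : Sub p C D φ) {f : Ω' → ℝ} (hf : ∀ x, 0 ≤ f x) (ω : Ω) :
    p * C.E d (fun x => f (φ x)) ω ≤ D.E d f (φ ω) := by
  classical
  calc p * C.E d (fun x => f (φ x)) ω ≤ ∑ b, D.ker d (φ ω) (φ b) * f (φ b) := by
        rw [Casc.E, mul_sum]
        exact sum_le_sum fun b _ => by
          rw [← mul_assoc]
          exact mul_le_mul_of_nonneg_right (h.le d ω b) (hf _)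
    _ = ∑ b ∈ univ.image φ, D.ker d (φ ω) b * f b := by
        rw [sum_image fun a _ b _ hab => h.inj hab]
    _ ≤ _ := sum_le_sum_of_subset_of_nonneg (subset_univ _) fun b _ _ =>
        mul_nonneg (D.ker_nonneg _ _ _) (hf b)

theorem Sub.T {p : ℝ} (hp : 0 < p) {φ : Ω → Ω'} (h : Sub p C D φ) (hm : ∀ d, 0 < m (d + 1))
    (A : Ω' → ℝ) (ω : Ω) : C.T m R d (fun x => A (φ x)) ω +
      (∑ e ∈ Ico d R, (m (e + 1))⁻¹) * Real.log p ≤ D.T m R d A (φ ω) := by
  rcases le_total R d with h1 | h1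
  · rw [C.T_ge m h1, D.T_ge m h1, Ico_eq_empty_of_le h1, sum_empty, zero_mul, add_zero]
  revert ω
  refine down_ind (P := fun d => ∀ ω, C.T m R d (fun x => A (φ x)) ω +
      (∑ e ∈ Ico d R, (m (e + 1))⁻¹) * Real.log p ≤ D.T m R d A (φ ω)) (fun ω => by simp)
    (fun d hd ih ω => ?_) d h1
  set s := (∑ e ∈ Ico (d + 1) R, (m (e + 1))⁻¹) * Real.log p with hs
  have h0 := hm d
  have h2 : p * (C.E d (fun x => Real.exp (m (d + 1) * C.T m R (d + 1) (fun x => A (φ x)) x)) ω *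
      Real.exp (m (d + 1) * s)) ≤
      D.E d (fun y => Real.exp (m (d + 1) * D.T m R (d + 1) A y)) (φ ω) := by
    refine le_trans (mul_le_mul_of_nonneg_left ?_ hp.le) (h.E (fun _ => (Real.exp_pos _).le) ω)
    rw [← Casc.E_mul_const]
    refine C.E_mono (fun x => ?_) ω
    rw [← Real.exp_add, ← mul_add]
    exact Real.exp_le_exp.2 (mul_le_mul_of_nonneg_left (ih x) h0.le)
  rw [← C.exp_T hm hd, ← D.exp_T hm hd, ← Real.exp_log hp, ← Real.exp_add, ← Real.exp_add,
    Real.exp_le_exp] at h2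
  rw [sum_eq_sum_Ico_succ_bot hd, add_mul, ← hs]
  refine le_of_mul_le_mul_left ?_ h0
  rw [mul_add, mul_add, mul_inv_cancel_left₀ h0.ne']
  linarith

theorem Sub.refl (C : Casc Ω) : Sub 1 C C id := ⟨Function.injective_id, fun _ _ _ => (one_mul _).le⟩

/-! single levels -/

theorem E_lev_ge {d₀ : ℕ} (h : d₀ ≤ d) (p : X → ℝ) (hp : ∀ x, 0 < p x) (f : X → ℝ) (x : X) :
    (lev d₀ p hp).E d f x = f x :=
  (lev d₀ p hp).E_of_meas (fun _ _ hr => congrArg f (hr h)) x

theorem E_lev_lt {d₀ : ℕ} (h : d < d₀) (p : X → ℝ) (hp : ∀ x, 0 < p x) (f : X → ℝ) (x : X) :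
    (lev d₀ p hp).E d f x = (∑ y, p y * f y) / ∑ y, p y :=
  ((lev d₀ p hp).av_eq_E (fun _ _ h' => absurd h' (not_le.2 h)) f x).symm

theorem E_ulev_ge {d₀ : ℕ} (h : d₀ ≤ d) (f : X → ℝ) (x : X) : (ulev X d₀).E d f x = f x := E_lev_ge h _ _ f x

theorem E_ulev_lt {d₀ : ℕ} (h : d < d₀) (f : X → ℝ) (x : X) : (ulev X d₀).E d f x = avg f := by
  rw [ulev, E_lev_lt h]
  simp [avg]

theorem av_ulev (d₀ : ℕ) (f : X → ℝ) : (ulev X d₀).av f = avg f := by
  simp [Casc.av, ulev, lev, avg]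

omit [Fintype X] in
theorem top_lev {d₀ : ℕ} (h : d₀ ≤ R) (p : X → ℝ) (hp : ∀ x, 0 < p x) : (lev d₀ p hp).Top R :=
  fun _ _ hr => hr h

theorem sub_ulev {Y : Type} [Fintype Y] {φ : X → Y} (hφ : Function.Injective φ) (d₀ : ℕ) :
    Sub (Fintype.card X / Fintype.card Y) (ulev X d₀) (ulev Y d₀) φ := by
  classical
  refine ⟨hφ, fun d a b => ?_⟩
  have hX : (0 : ℝ) < Fintype.card X := by exact_mod_cast Fintype.card_pos_iff.2 ⟨a⟩
  have hY : (0 : ℝ) < Fintype.card Y := by exact_mod_cast Fintype.card_pos_iff.2 ⟨φ a⟩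
  have e1 : ∀ (Z : Type) [Fintype Z] (a b : Z), (ulev Z d₀).ker d a b =
      (ulev Z d₀).E d (fun x => if x = b then 1 else 0) a := fun Z _ a b => by simp [Casc.E]
  rw [e1, e1]
  rcases lt_or_ge d d₀ with h | h
  · rw [E_ulev_lt h, E_ulev_lt h]
    simp only [avg, sum_ite_eq', mem_univ, if_true]
    exact le_of_eq (by field_simp)
  · rw [E_ulev_ge h, E_ulev_ge h]
    by_cases hab : a = b
    · rw [if_pos hab, if_pos (congrArg φ hab), mul_one, div_le_one hY]
      exact_mod_cast Fintype.card_le_of_injective φ hφ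
    · rw [if_neg hab, if_neg fun h' => hab (hφ h'), mul_zero]

/-! binary products -/

theorem ker_prod (C : Casc Ω) (D : Casc Ω') (d : ℕ) (a b : Ω × Ω') :
    (C.prod D).ker d a b = C.ker d a.1 b.1 * D.ker d a.2 b.2 := by
  classical
  have h1 : (C.prod D).cls d a = C.cls d a.1 * D.cls d a.2 := by
    rw [Casc.cls, Casc.cls, Casc.cls, sum_mul_sum, Fintype.sum_prod_type]
    refine sum_congr rfl fun x _ => sum_congr rfl fun y _ => ?_
    by_cases h : C.rel d a.1 x ∧ D.rel d a.2 y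
    · rw [if_pos (show (C.prod D).rel d a (x, y) from h), if_pos h.1, if_pos h.2]
      rfl
    · rw [if_neg (show ¬ (C.prod D).rel d a (x, y) from h)]
      rcases not_and_or.1 h with h | h <;> simp [h]
  by_cases h : C.rel d a.1 b.1 ∧ D.rel d a.2 b.2
  · rw [(C.prod D).ker_of_rel h, C.ker_of_rel h.1, D.ker_of_rel h.2, h1, div_mul_div_comm]
    rfl
  · rw [(C.prod D).ker_of_not h]
    rcases not_and_or.1 h with h | h
    · rw [C.ker_of_not h, zero_mul]
    · rw [D.ker_of_not h, mul_zero]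

theorem E_prod (C : Casc Ω) (D : Casc Ω') (d : ℕ) (f : Ω × Ω' → ℝ) (ω : Ω × Ω') :
    (C.prod D).E d f ω = C.E d (fun x => D.E d (fun y => f (x, y)) ω.2) ω.1 := by
  simp only [Casc.E, ker_prod, Fintype.sum_prod_type, mul_sum, mul_assoc]

theorem E_prod' (C : Casc Ω) (D : Casc Ω') (d : ℕ) (f : Ω × Ω' → ℝ) (ω : Ω × Ω') :
    (C.prod D).E d f ω = D.E d (fun y => C.E d (fun x => f (x, y)) ω.1) ω.2 := by
  simp only [Casc.E, ker_prod, Fintype.sum_prod_type_right, mul_sum, mul_assoc, mul_left_comm]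

theorem av_prod (C : Casc Ω) (D : Casc Ω') (f : Ω × Ω' → ℝ) :
    (C.prod D).av f = C.av fun x => D.av fun y => f (x, y) := by
  simp only [Casc.av, Casc.prod, Fintype.sum_prod_type, ← mul_div_assoc, ← sum_div, div_div]
  rw [← sum_mul_sum, mul_comm (∑ x, C.μ x)]
  simp only [mul_sum, mul_assoc]

theorem av_prod' (C : Casc Ω) (D : Casc Ω') (f : Ω × Ω' → ℝ) :
    (C.prod D).av f = D.av fun y => C.av fun x => f (x, y) := by
  simp only [Casc.av, Casc.prod, Fintype.sum_prod_type_right, ← mul_div_assoc, ← sum_div, div_div]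
  rw [sum_comm (f := fun y x => C.μ x * D.μ y), ← sum_mul_sum]
  simp only [mul_sum, mul_assoc, mul_left_comm]

omit [Fintype Ω] [Fintype Ω'] in
theorem top_prod (h : C.Top R) (h' : D.Top R) : (C.prod D).Top R :=
  fun _ _ hr => Prod.ext (h _ _ hr.1) (h' _ _ hr.2)

theorem fac_fst [Nonempty Ω'] (C : Casc Ω) (D : Casc Ω') : Fac (C.prod D) C Prod.fst :=
  ⟨fun d f ω => by simp [E_prod], fun f => by simp [av_prod, Casc.av_const]⟩

theorem fac_snd [Nonempty Ω] (C : Casc Ω) (D : Casc Ω') : Fac (C.prod D) D Prod.snd :=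
  ⟨fun d f ω => by simp [E_prod'], fun f => by simp [av_prod', Casc.av_const]⟩

theorem Fac.prod {Ω₁ Ω₁' : Type} [Fintype Ω₁] [Fintype Ω₁'] {C₁ : Casc Ω₁} {D₁ : Casc Ω₁'}
    {φ : Ω → Ω'} {ψ : Ω₁ → Ω₁'} (h : Fac C D φ) (h' : Fac C₁ D₁ ψ) :
    Fac (C.prod C₁) (D.prod D₁) (Prod.map φ ψ) := by
  refine ⟨fun d f ω => ?_, fun f => ?_⟩
  · rw [E_prod, E_prod]
    simp only [Prod.map]
    rw [← h.E d fun x => D₁.E d (fun y => f (x, y)) (ψ ω.2)]
    exact congrFun (congrArg _ (funext fun x => h'.E d (fun y => f (φ x, y)) ω.2)) _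
  · rw [av_prod, av_prod]
    simp only [Prod.map]
    rw [← h.av fun x => D₁.av fun y => f (x, y)]
    exact congrArg _ (funext fun x => h'.av fun y => f (φ x, y))

theorem Fac.refl (C : Casc Ω) : Fac C C id := ⟨fun _ _ _ => rfl, fun _ => rfl⟩

theorem Sub.prod {Ω₁ Ω₁' : Type} [Fintype Ω₁] [Fintype Ω₁'] {C₁ : Casc Ω₁} {D₁ : Casc Ω₁'}
    {φ : Ω → Ω'} {ψ : Ω₁ → Ω₁'} {p q : ℝ} (hp : 0 ≤ p) (hq : 0 ≤ q) (h : Sub p C D φ)
    (h' : Sub q C₁ D₁ ψ) : Sub (p * q) (C.prod C₁) (D.prod D₁) (Prod.map φ ψ) := by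
  refine ⟨h.inj.prodMap h'.inj, fun d a b => ?_⟩
  rw [ker_prod, ker_prod, mul_mul_mul_comm]
  exact mul_le_mul (h.le d _ _) (h'.le d _ _) (mul_nonneg hq (C₁.ker_nonneg _ _ _))
    (D.ker_nonneg _ _ _)

theorem tilt_prod (C : Casc Ω) (D : Casc Ω') (A : Ω → ℝ) :
    (C.prod D).tilt m R (fun ω => A ω.1) = (C.tilt m R A).prod D := by
  refine Casc.ext' (funext fun ω => ?_) rfl
  have : Nonempty Ω' := ⟨ω.2⟩
  show C.μ ω.1 * D.μ ω.2 * (C.prod D).rho m R 0 (fun ω => A ω.1) ω =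
    C.μ ω.1 * C.rho m R 0 A ω.1 * D.μ ω.2
  simp only [Casc.rho, (fac_fst C D).T A]
  ring

theorem T_prod_add (hm : ∀ d, 0 < m (d + 1)) (C : Casc Ω) (D : Casc Ω') (A : Ω → ℝ)
    (B : Ω' → ℝ) (ω : Ω × Ω') : (C.prod D).T m R d (fun x => A x.1 + B x.2) ω =
      C.T m R d A ω.1 + D.T m R d B ω.2 := by
  rcases le_total R d with h | h
  · rw [(C.prod D).T_ge m h, C.T_ge m h, D.T_ge m h]
  revert ω
  refine down_ind (P := fun d => ∀ ω, (C.prod D).T m R d (fun x => A x.1 + B x.2) ω =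
      C.T m R d A ω.1 + D.T m R d B ω.2) (fun ω => by simp) (fun d hd ih ω => ?_) d h
  rw [(C.prod D).T_lt m hd, C.T_lt m hd, D.T_lt m hd, E_prod]
  simp only [ih, mul_add, Real.exp_add, Casc.E_const_mul, Casc.E_mul_const]
  rw [Real.log_mul (C.E_pos (fun _ => Real.exp_pos _) _).ne'
    (D.E_pos (fun _ => Real.exp_pos _) _).ne', mul_add]

/-- integrating out a uniform last level -/
theorem T_spin (hR : m R = 1) (h : d < R) (D : Casc Ω') (A : X × Ω' → ℝ) (ω : X × Ω') :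
    ((ulev X R).prod D).T m R d A ω =
      D.T m R d (fun y => Real.log (avg fun x => Real.exp (A (x, y)))) ω.2 := by
  have : Nonempty X := ⟨ω.1⟩
  obtain ⟨R, rfl⟩ : ∃ R', R = R' + 1 := ⟨R - 1, by omega⟩
  revert ω
  refine down_ind (P := fun d => ∀ ω : X × Ω', ((ulev X (R + 1)).prod D).T m (R + 1) d A ω =
      D.T m (R + 1) d (fun y => Real.log (avg fun x => Real.exp (A (x, y)))) ω.2)
    (fun ω => ?_) (fun d hd ih ω => ?_) d (Nat.le_of_lt_succ h)
  · rw [Casc.T_lt _ m R.lt_succ_self, Casc.T_lt _ m R.lt_succ_self, E_prod']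
    simp only [Casc.T_top, hR, one_mul, E_ulev_lt R.lt_succ_self]
    congr 3
    funext y
    rw [Real.exp_log]
    exact div_pos (sum_pos (fun _ _ => Real.exp_pos _) univ_nonempty)
      (by exact_mod_cast Fintype.card_pos)
  · have h1 : d < R + 1 := by omega
    rw [Casc.T_lt _ m h1, Casc.T_lt _ m h1, E_prod']
    simp only [ih, Casc.E_const]

/-! finite products -/

variable {J : Type} [Fintype J] [DecidableEq J]

theorem ker_pi (C : J → Casc Ω) (d : ℕ) (a b : J → Ω) :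
    (Casc.pi C).ker d a b = ∏ j, (C j).ker d (a j) (b j) := by
  classical
  have h1 : (Casc.pi C).cls d a = ∏ j, (C j).cls d (a j) := by
    simp only [Casc.cls]
    rw [Fintype.prod_sum]
    refine sum_congr rfl fun x _ => ?_
    by_cases h : ∀ j, (C j).rel d (a j) (x j)
    · rw [if_pos (show (Casc.pi C).rel d a x from h)]
      exact prod_congr rfl fun j _ => (if_pos (h j)).symm
    · rw [if_neg (show ¬ (Casc.pi C).rel d a x from h)]
      obtain ⟨j, hj⟩ := not_forall.1 h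
      exact (prod_eq_zero (mem_univ j) (if_neg hj)).symm
  by_cases h : ∀ j, (C j).rel d (a j) (b j)
  · rw [(Casc.pi C).ker_of_rel h, h1, prod_congr rfl fun j _ => (C j).ker_of_rel (h j),
      prod_div_distrib]
    rfl
  · rw [(Casc.pi C).ker_of_not h]
    obtain ⟨j, hj⟩ := not_forall.1 h
    exact (prod_eq_zero (mem_univ j) ((C j).ker_of_not hj)).symm

theorem E_pi_prod (C : J → Casc Ω) (d : ℕ) (f : J → Ω → ℝ) (ω : J → Ω) :
    (Casc.pi C).E d (fun x => ∏ j, f j (x j)) ω = ∏ j, (C j).E d (f j) (ω j) := by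
  simp only [Casc.E, ker_pi, ← prod_mul_distrib]
  rw [Fintype.prod_sum]

theorem av_pi_prod (C : J → Casc Ω) (f : J → Ω → ℝ) :
    (Casc.pi C).av (fun x => ∏ j, f j (x j)) = ∏ j, (C j).av (f j) := by
  simp only [Casc.av, Casc.pi, ← prod_mul_distrib, prod_div_distrib]
  rw [Fintype.prod_sum, Fintype.prod_sum]

omit [Fintype Ω] [DecidableEq J] in
theorem top_pi {C : J → Casc Ω} (h : ∀ j, (C j).Top R) : (Casc.pi C).Top R :=
  fun _ _ hr => funext fun j => h j _ _ (hr j)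

theorem fac_comp_aux {J' : Type} [Fintype J'] [DecidableEq J'] {e : J' → J}
    (he : Function.Injective e) (q : J → Ω → ℝ) (hq : ∀ j, ∑ x, q j x = 1) (f : (J' → Ω) → ℝ) :
    ∑ x : J → Ω, (∏ j, q j (x j)) * f (fun j => x (e j)) =
      ∑ y : J' → Ω, (∏ j, q (e j) (y j)) * f y := by
  classical
  have h1 : ∀ y : J' → Ω, ∏ j, q (e j) (y j) =
      ∑ x : J → Ω, (∏ j, q j (x j)) * if (fun j => x (e j)) = y then 1 else 0 := by
    intro y
    have h2 : ∀ x : J → Ω, (if (fun j => x (e j)) = y then (1 : ℝ) else 0) =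
        ∏ j, if ∀ j', e j' = j → x j = y j' then 1 else 0 := by
      intro x
      split_ifs with h
      · subst h
        exact (prod_eq_one fun j _ => if_pos fun j' h => congrArg x h.symm).symm
      · obtain ⟨j', hj⟩ := Function.ne_iff.1 h
        exact (prod_eq_zero (mem_univ (e j')) (if_neg fun h' => hj (h' j' rfl))).symm
    simp only [h2, ← prod_mul_distrib]
    rw [← Fintype.prod_sum fun j x => q j x * if ∀ j', e j' = j → x = y j' then 1 else 0,
      ← prod_subset (subset_univ (univ.image e)), prod_image fun a _ b _ h => he h]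
    · refine prod_congr rfl fun j' _ => ?_
      simp [he.eq_iff]
    · intro j _ hj
      have : ∀ j', e j' ≠ j := fun j' h => hj (mem_image.2 ⟨j', mem_univ _, h⟩)
      simp [this, hq]
  simp only [h1, sum_mul]
  rw [sum_comm]
  simp

theorem av_eq_sum [Nonempty Ω] (C : Casc Ω) (f : Ω → ℝ) :
    C.av f = ∑ x, (C.μ x / ∑ y, C.μ y) * f x := by
  simp only [Casc.av, sum_div, div_mul_eq_mul_div]

theorem fac_comp' [Nonempty Ω] {J' : Type} [Fintype J'] [DecidableEq J'] (C : J → Casc Ω)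
    {e : J' → J} (he : Function.Injective e) :
    Fac (Casc.pi C) (Casc.pi fun j => C (e j)) fun x j => x (e j) := by
  refine ⟨fun d f ω => ?_, fun f => ?_⟩
  · simp only [Casc.E, ker_pi]
    exact fac_comp_aux he (fun j => (C j).ker d (ω j)) (fun j => (C j).ker_sum d _) f
  · rw [av_eq_sum, av_eq_sum]
    simp only [Casc.pi, ← Fintype.prod_sum fun j x => (C j).μ x,
      ← Fintype.prod_sum fun j x => (C (e j)).μ x, ← prod_div_distrib]
    exact fac_comp_aux he (fun j x => (C j).μ x / ∑ y, (C j).μ y) (fun j => by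
      rw [← sum_div, div_self (sum_pos (fun x _ => (C j).pos x) univ_nonempty).ne']) f

theorem fac_eval [Nonempty Ω] (C : J → Casc Ω) (j : J) : Fac (Casc.pi C) (C j) fun x => x j := by
  refine (fac_comp' C (e := fun _ : Unit => j) fun _ _ _ => rfl).comp
    (fac_equiv (D := C j) (Equiv.funUnique Unit Ω) one_pos (fun ω => ?_) fun d a b => ?_)
  · simp [Casc.pi]
  · exact ⟨fun h => h (), fun h _ => h⟩

theorem fac_comp [Nonempty Ω] {J' : Type} [Fintype J'] [DecidableEq J'] (C : J → Casc Ω)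
    {e : J' → J} (he : Function.Injective e) :
    Fac (Casc.pi C) (Casc.pi fun j => C (e j)) fun x j => x (e j) := fac_comp' C he

theorem Sub.pi {C : J → Casc Ω} {D : J → Casc Ω'} {φ : J → Ω → Ω'} {p : ℝ} (hp : 0 ≤ p)
    (h : ∀ j, Sub p (C j) (D j) (φ j)) :
    Sub (p ^ Fintype.card J) (Casc.pi C) (Casc.pi D) fun x j => φ j (x j) := by
  refine ⟨fun x y hxy => funext fun j => (h j).inj (congrFun hxy j), fun d a b => ?_⟩
  rw [ker_pi, ker_pi, ← card_univ, ← prod_const, ← prod_mul_distrib]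
  exact prod_le_prod (fun j _ => mul_nonneg hp ((C j).ker_nonneg _ _ _)) fun j _ => (h j).le d _ _

theorem E_pi_dep [Nonempty Ω] {G : Type} [DecidableEq G] (C : J → Casc Ω) (π : J → G) (g : G)
    {F : (J → Ω) → ℝ} (hF : ∀ x y, (∀ j, π j = g → x j = y j) → F x = F y) :
    ∃ F' : ({j // π j = g} → Ω) → ℝ, (∀ x, F x = F' fun j => x j) ∧ ∀ d ω,
      (Casc.pi C).E d F ω = (Casc.pi fun j : {j // π j = g} => C j).E d F' fun j => ω j := by
  refine ⟨fun y => F fun j => if h : π j = g then y ⟨j, h⟩ else Classical.arbitrary Ω,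
    fun x => hF _ _ fun j hj => by simp [hj], fun d ω => ?_⟩
  rw [← (fac_comp C (e := fun j : {j // π j = g} => j.1) Subtype.val_injective).E]
  exact congrFun (congrArg _ (funext fun x => hF _ _ fun j hj => by simp [hj])) ω

theorem E_pi_groups {G : Type} [Fintype G] (C : J → Casc Ω) (π : J → G)
    (F : G → (J → Ω) → ℝ) (hF : ∀ g x y, (∀ j, π j = g → x j = y j) → F g x = F g y)
    (ω : J → Ω) : (Casc.pi C).E d (fun x => ∏ g, F g x) ω = ∏ g, (Casc.pi C).E d (F g) ω := by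
  classical
  rcases isEmpty_or_nonempty Ω with _ | _
  · have h : ∀ f : (J → Ω) → ℝ, (Casc.pi C).E d f ω = f ω := fun f =>
      (Casc.pi C).E_of_meas (fun a b _ => congrArg f (Subsingleton.elim a b)) ω
    simp only [h]
  choose F' h1 h2 using fun g => E_pi_dep C π g (hF g)
  let e : (J → Ω) ≃ ∀ g, {j // π j = g} → Ω :=
    ⟨fun x g j => x j, fun y j => y (π j) ⟨j, rfl⟩, fun _ => rfl,
      fun y => funext fun g => funext fun ⟨j, hj⟩ => by subst hj; rfl⟩
  simp only [h2, h1]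
  simp only [Casc.E, ker_pi]
  rw [Fintype.prod_sum, ← e.sum_comp]
  refine sum_congr rfl fun x _ => ?_
  rw [prod_mul_distrib, ← Fintype.prod_fiberwise π]
  rfl

/-- additivity over disjoint groups of coordinates -/
theorem T_pi_sum (hm : ∀ d, 0 < m (d + 1)) {G : Type} [Fintype G] (C : J → Casc Ω) (π : J → G)
    (A : G → (J → Ω) → ℝ) (hA : ∀ g x y, (∀ j, π j = g → x j = y j) → A g x = A g y)
    (ω : J → Ω) : (Casc.pi C).T m R d (fun x => ∑ g, A g x) ω =
      ∑ g, (Casc.pi C).T m R d (A g) ω := by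
  classical
  rcases le_total R d with h | h
  · simp only [(Casc.pi C).T_ge m h]
  have hd : ∀ g, ∀ d ≤ R, ∀ x y, (∀ j, π j = g → x j = y j) →
      (Casc.pi C).T m R d (A g) x = (Casc.pi C).T m R d (A g) y := by
    intro g
    rcases isEmpty_or_nonempty Ω with _ | _
    · exact fun _ _ x y _ => congrArg _ (Subsingleton.elim x y)
    refine down_ind (by simpa using hA g) fun d hd ih x y hxy => ?_
    obtain ⟨F', -, h2⟩ := E_pi_dep C π g
      (F := fun x => Real.exp (m (d + 1) * (Casc.pi C).T m R (d + 1) (A g) x))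
      fun x y hxy => by rw [ih x y hxy]
    rw [Casc.T_lt _ m hd, Casc.T_lt _ m hd, h2, h2, funext fun j : {j // π j = g} => hxy j j.2]
  revert ω
  refine down_ind (P := fun d => ∀ ω, (Casc.pi C).T m R d (fun x => ∑ g, A g x) ω =
      ∑ g, (Casc.pi C).T m R d (A g) ω) (fun ω => by simp) (fun d hd' ih ω => ?_) d h
  simp only [Casc.T_lt _ m hd', ih, mul_sum, Real.exp_sum]
  rw [E_pi_groups C π _ fun g x y hxy => by rw [hd g (d + 1) hd' x y hxy],
    Real.log_prod fun g _ => (Casc.E_pos _ (fun _ => Real.exp_pos _) ω).ne', mul_sum]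

end

end Vale.Agent.P168
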