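import Vale.Agent.P168.Taylor
import Vale.Agent.P168.TDl

/-! Cavity spins of one replica against independent copies. -/

namespace Vale.Agent.P168

open Finset

theorem cmp_prod {J : Type*} (s : Finset J) {a b : J → ℝ} (ha : ∀ j, |a j| ≤ 1)
    (hb : ∀ j, |b j| ≤ 1) : |∏ j ∈ s, a j - ∏ j ∈ s, b j| ≤ ∑ j ∈ s, |a j - b j| := by
  classical
  induction s using Finset.induction_on with
  | empty => simp
  | insert j s hj ih =>
    rw [prod_insert hj, prod_insert hj, sum_insert hj]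
    have h1 : |∏ j ∈ s, a j| ≤ 1 := by
      rw [abs_prod]
      exact prod_le_one (fun _ _ => abs_nonneg _) fun i _ => ha i
    have e : a j * ∏ j ∈ s, a j - b j * ∏ j ∈ s, b j =
        (a j - b j) * ∏ j ∈ s, a j + b j * (∏ j ∈ s, a j - ∏ j ∈ s, b j) := by ring
    rw [e]
    refine (abs_add_le _ _).trans (add_le_add ?_ ?_)
    · rw [abs_mul]
      exact mul_le_of_le_one_right (abs_nonneg _) h1
    · rw [abs_mul]
      exact (mul_le_of_le_one_left (abs_nonneg _) (hb j)).trans ih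

theorem cmp_abs {t η : ℝ} (hη : 0 < η) : |t| ≤ η + η⁻¹ * t ^ 2 := by
  have h : η * |t| ≤ η * (η + η⁻¹ * t ^ 2) := by
    rw [mul_add, mul_inv_cancel_left₀ hη.ne', ← sq_abs t]
    nlinarith [sq_nonneg (|t| - η), abs_nonneg t]
  exact le_of_mul_le_mul_left h hη

theorem cmp_ES {Ω J : Type} [Fintype Ω] [Fintype J] (C : Casc Ω) (z : ℕ → ℕ × ℕ) (n : ℕ)
    {X : J → (ℕ → Ω) → ℝ} (hX : ∀ j w, |X j w| ≤ 1) {η : ℝ} (hη : 0 < η) (x : Ω) :
    |C.ES 1 z n (fun w => ∏ j, X j w) x - ∏ j, C.ES 1 z n (X j) x| ≤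
      ∑ j, (η + η⁻¹ * (C.ES 1 z n (fun w => X j w ^ 2) x - C.ES 1 z n (X j) x ^ 2)) := by
  have h1 : C.ES 1 z n (fun w => ∏ j, X j w) x - ∏ j, C.ES 1 z n (X j) x =
      C.ES 1 z n (fun w => ∏ j, X j w - ∏ j, C.ES 1 z n (X j) x) x := by
    rw [C.ES_sub, C.ES_const]
  rw [h1]
  refine (C.abs_ES_le 1 z n _ x).trans ?_
  refine (C.ES_mono 1 z n (G := fun w => ∑ j, (η + η⁻¹ * (X j w ^ 2 -
    (2 * C.ES 1 z n (X j) x) * X j w + C.ES 1 z n (X j) x ^ 2))) (fun w => ?_) x).trans_eq ?_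
  · refine (cmp_prod _ (hX · w) fun j => C.abs_ES_le_of 1 z n (hX j) x).trans
      (sum_le_sum fun j _ => (cmp_abs hη).trans_eq ?_)
    ring
  · rw [C.ES_sum]
    refine sum_congr rfl fun j _ => ?_
    rw [C.ES_add, C.ES_const, C.ES_const_mul, C.ES_add, C.ES_sub, C.ES_const_mul, C.ES_const]
    ring

/-- extension of a pattern -/
def cext {J : Type} {n : ℕ} (τ : Fin (n + 1) → J → Bool) (j : J) (l : ℕ) : Bool :=
  if h : l < n + 1 then τ ⟨l, h⟩ j else false

theorem cmp_exp {J : Type} [Fintype J] [DecidableEq J] (u : (J → Bool) → ℝ) (n : ℕ)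
    (s : ℕ → J → Bool) : ∏ l ∈ range (n + 1), u (s l) =
      ∑ τ : Fin (n + 1) → J → Bool, (∏ l, u (τ l)) *
        ∏ j, ∏ l ∈ range (n + 1), ind (s l j) (cext τ j l) := by
  rw [sum_eq_single (fun l : Fin (n + 1) => s l)]
  · rw [← Fin.prod_univ_eq_prod_range (fun l => u (s l)), prod_eq_one (s := univ (α := J)), mul_one]
    refine fun j _ => prod_eq_one fun l hl => ?_
    rw [cext, dif_pos (mem_range.1 hl), ind, if_pos rfl]
  · intro τ _ hτ
    obtain ⟨l, hl⟩ := Function.ne_iff.1 hτ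
    obtain ⟨j, hj⟩ := Function.ne_iff.1 hl
    refine mul_eq_zero_of_right _ (prod_eq_zero (mem_univ j) (prod_eq_zero (mem_range.2 l.2) ?_))
    rw [cext, dif_pos l.2, ind, if_neg (fun h => hj h.symm)]
  · simp

theorem abs_ov_le {Ω I : Type} [Fintype I] (ev : Ω → I → Bool) (τ : ℕ → Bool) (n : ℕ)
    (w : ℕ → Ω) : |ov ev τ n w| ≤ 1 := by
  refine abs_avg_le_of zero_le_one fun i => ?_
  rw [abs_prod]
  exact prod_le_one (fun _ _ => abs_nonneg _) fun l _ => abs_ind _ _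

theorem cmp_avg {Ω I J : Type} [Fintype I] [Fintype J] [DecidableEq J] (ev : Ω → I → Bool)
    (u : (J → Bool) → ℝ) (n : ℕ) (w : J → ℕ → Ω) :
    (avg fun idx : J → I => ∏ l ∈ range (n + 1), u fun j => ev (w j l) (idx j)) =
      ∑ τ : Fin (n + 1) → J → Bool, (∏ l, u (τ l)) * ∏ j, ov ev (cext τ j) n (w j) := by
  simp only [fun idx : J → I => cmp_exp u n fun l j => ev (w j l) (idx j)]
  rw [avg_sum]
  refine sum_congr rfl fun τ _ => ?_
  rw [avg_const_mul,
    avg_pi_prod fun j i => ∏ l ∈ range (n + 1), ind (ev (w j l) i) (cext τ j l)]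
  rfl

theorem cmp_NN {Ω I J : Type} [Fintype Ω] [Fintype I] [Fintype J] [DecidableEq J] (C : Casc Ω)
    (ev : Ω → I → Bool) {m : ℕ → ℝ} {R : ℕ} (hm : Lv m R) {u : (J → Bool) → ℝ}
    (hu : ∀ τ, |u τ| ≤ 1) {n₀ n : ℕ} (hn : n < n₀) {η : ℝ} (hη : 0 < η)
    (hc : Conc C ev m R n₀ (η ^ 2)) (ω : Ω) :
    C.E 0 (fun x => |(avg fun idx : J → I => C.NN m R 1 n (fun w => u fun j => ev w (idx j)) x) -
      avg fun idx : J → I => (Casc.pi fun _ : J => C).NN m R 1 n
        (fun w => u fun j => ev (w j) (idx j)) fun _ => x|) ω ≤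
      2 ^ ((n + 1) * Fintype.card J) * (Fintype.card J * (2 * η)) := by
  set V : (Fin (n + 1) → J → Bool) → J → Ω → (ℕ → ℕ × ℕ) → ℝ := fun τ j x z =>
    C.ES 1 z n (fun w => ov ev (cext τ j) n w ^ 2) x - C.ES 1 z n (ov ev (cext τ j) n) x ^ 2
    with hV
  refine (C.E_mono (g := fun x => Avg m R n fun z => ∑ τ, ∑ j, (η + η⁻¹ * V τ j x z))
    (fun x => ?_) ω).trans ?_
  · simp only [Casc.NN]
    rw [← Avg_avg, ← Avg_avg, ← Avg_sub]
    refine (abs_Avg_le hm _).trans (Avg_mono hm fun z _ => ?_)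
    rw [← C.ES_avg, ← Casc.ES_avg]
    simp only [fun w : ℕ → Ω => cmp_avg (I := I) ev u n fun _ => w,
      fun w : ℕ → J → Ω => cmp_avg (I := I) ev u n fun j l => w l j]
    rw [C.ES_sum, Casc.ES_sum, ← sum_sub_distrib]
    refine (abs_sum_le_sum_abs _ _).trans (sum_le_sum fun τ _ => ?_)
    rw [C.ES_const_mul, Casc.ES_const_mul,
      ES_pi 1 z n (fun _ : J => C) (fun j => ov ev (cext τ j) n), ← mul_sub, abs_mul]
    refine (mul_le_of_le_one_left (abs_nonneg _) ?_).trans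
      (cmp_ES C z n (fun j w => abs_ov_le _ _ _ _) hη x)
    rw [abs_prod]
    exact prod_le_one (fun _ _ => abs_nonneg _) fun l _ => hu _
  · rw [← Avg_E]
    simp only [C.E_sum, C.E_add, C.E_const, C.E_const_mul, Avg_sum, Avg_add, Avg_const hm,
      Avg_const_mul]
    refine (sum_le_sum (g := fun _ => (Fintype.card J : ℝ) * (2 * η)) fun τ _ => ?_).trans_eq ?_
    · refine (sum_le_sum (g := fun _ => 2 * η) fun j _ => ?_).trans_eq (by simp)
      have h1 := mul_le_mul_of_nonneg_left (hc n hn (cext τ j) ω) (inv_pos.2 hη).le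
      have h2 : η⁻¹ * η ^ 2 = η := by field_simp
      linarith
    · simp [← pow_mul, mul_comm]

theorem cmp (Jm : ℕ) (c : ℝ) {ε : ℝ} (hε : 0 < ε) : ∃ (n₀ : ℕ) (δ : ℝ), 0 < δ ∧
    ∀ (Ω I J : Type) [Fintype Ω] [Fintype I] [Nonempty I] [Fintype J] [DecidableEq J]
      (C : Casc Ω) (ev : Ω → I → Bool) (m : ℕ → ℝ) (R : ℕ) (y : (J → Bool) → ℝ) (ω : Ω),
      Fintype.card J ≤ Jm → Lv m R → C.Top R → (∀ τ, |y τ| ≤ c) → Conc C ev m R n₀ δ →
      C.E 0 (fun x =>
        |(avg fun idx : J → I => C.T m R 1 (fun w => y fun j => ev w (idx j)) x) -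
          avg fun idx : J → I => (Casc.pi fun _ : J => C).T m R 1
            (fun w => y fun j => ev (w j) (idx j)) fun _ => x|) ω ≤ ε := by
  set γ : ℝ := 1 - Real.exp (-(2 * |c|)) with hγ
  have hγ1 : γ < 1 := by linarith [Real.exp_pos (-(2 * |c|))]
  obtain ⟨n₀, hn₀⟩ := exists_pow_lt_of_lt_one (x := ε / 4 * (1 - γ)) (by positivity) hγ1
  have ht : γ ^ n₀ / (1 - γ) ≤ ε / 4 := (div_le_iff₀ (by linarith)).2 hn₀.le
  set B : ℝ := n₀ * (2 ^ (n₀ * Jm) * Jm) with hB
  have hB0 : 0 ≤ B := by positivity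
  set η : ℝ := ε / (4 * (B + 1)) with hη
  have hη0 : 0 < η := by positivity
  refine ⟨n₀, η ^ 2, by positivity, fun Ω I J _ _ _ _ _ C ev m R y ω hJ hm hC hy hc => ?_⟩
  have hR : 1 ≤ R := by
    rcases Nat.eq_zero_or_pos R with h | h
    · have := hm.top
      rw [h, hm.zero] at this
      exact absurd this zero_ne_one
    · exact h
  set u : (J → Bool) → ℝ := fun τ => Real.exp (y τ - |c|) - 1 with hu
  have hyu : ∀ τ, y τ = Real.log (1 + u τ) + |c| := fun τ => by simp [hu]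
  have huγ : ∀ τ, |u τ| ≤ γ := fun τ => by
    have h1 := abs_le.1 ((hy τ).trans (le_abs_self c))
    have h2 : Real.exp (y τ - |c|) ≤ 1 := Real.exp_le_one_iff.2 (by linarith)
    have h3 : Real.exp (-(2 * |c|)) ≤ Real.exp (y τ - |c|) := Real.exp_le_exp.2 (by linarith)
    rw [abs_le]
    constructor <;> simp only [hu, hγ] <;> linarith
  set A : ℕ → Ω → ℝ := fun n x =>
    avg fun idx : J → I => C.NN m R 1 n (fun w => u fun j => ev w (idx j)) x with hA
  set A' : ℕ → Ω → ℝ := fun n x => avg fun idx : J → I => (Casc.pi fun _ : J => C).NN m R 1 n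
    (fun w => u fun j => ev (w j) (idx j)) fun _ => x with hA'
  refine (C.E_mono (g := fun x => ε / 2 + ∑ n ∈ range n₀, |A n x - A' n x|) (fun x => ?_) ω).trans ?_
  · have h1 : |(avg fun idx : J → I => C.T m R 1 (fun w => y fun j => ev w (idx j)) x) -
        (|c| + ∑ n ∈ range n₀, (-1) ^ n / (n + 1) * A n x)| ≤ ε / 4 := by
      simp only [hA, ← avg_const_mul, ← avg_sum]
      rw [← avg_const (X := J → I) |c|, ← avg_add, ← avg_sub]
      refine abs_avg_le_of (by positivity) fun idx => ?_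
      simp only [hyu, C.T_add_const hm.pos]
      refine le_trans (le_of_eq ?_) ((taylor C hm hC hR hγ1
        (u := fun w => u fun j => ev w (idx j)) (fun w => huγ _) n₀ x).trans ht)
      congr 1
      ring
    have h2 : |(avg fun idx : J → I => (Casc.pi fun _ : J => C).T m R 1
        (fun w => y fun j => ev (w j) (idx j)) fun _ => x) -
        (|c| + ∑ n ∈ range n₀, (-1) ^ n / (n + 1) * A' n x)| ≤ ε / 4 := by
      simp only [hA', ← avg_const_mul, ← avg_sum]
      rw [← avg_const (X := J → I) |c|, ← avg_add, ← avg_sub]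
      refine abs_avg_le_of (by positivity) fun idx => ?_
      simp only [hyu, Casc.T_add_const _ hm.pos]
      refine le_trans (le_of_eq ?_) ((taylor (Casc.pi fun _ : J => C) hm (top_pi fun _ => hC) hR
        hγ1 (u := fun w => u fun j => ev (w j) (idx j)) (fun w => huγ _) n₀ fun _ => x).trans ht)
      congr 1
      ring
    have h3 : |∑ n ∈ range n₀, (-1) ^ n / (n + 1) * A n x -
        ∑ n ∈ range n₀, (-1) ^ n / (n + 1) * A' n x| ≤ ∑ n ∈ range n₀, |A n x - A' n x| := by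
      rw [← sum_sub_distrib]
      refine (abs_sum_le_sum_abs _ _).trans (sum_le_sum fun n _ => ?_)
      rw [← mul_sub, abs_mul]
      refine mul_le_of_le_one_left (abs_nonneg _) ?_
      have h : (0 : ℝ) ≤ n := n.cast_nonneg
      rw [abs_div, abs_pow, abs_neg, abs_one, one_pow, abs_of_pos (by linarith)]
      exact (div_le_one (by linarith)).2 (by linarith)
    rw [abs_le] at h1 h2 h3 ⊢
    constructor <;> linarith [h1.1, h1.2, h2.1, h2.2, h3.1, h3.2]
  · rw [C.E_add, C.E_const, C.E_sum]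
    have h1 : ∑ n ∈ range n₀, C.E 0 (fun x => |A n x - A' n x|) ω ≤
        ∑ n ∈ range n₀, 2 ^ (n₀ * Jm) * (Jm * (2 * η)) := by
      refine sum_le_sum fun n hn => (cmp_NN C ev hm (fun τ => (huγ τ).trans hγ1.le)
        (mem_range.1 hn) hη0 hc ω).trans ?_
      have h2 : (n + 1) * Fintype.card J ≤ n₀ * Jm := Nat.mul_le_mul (mem_range.1 hn) hJ
      have h3 : (Fintype.card J : ℝ) ≤ Jm := by exact_mod_cast hJ
      gcongr
      norm_num
    have h2 : ∑ n ∈ range n₀, (2 : ℝ) ^ (n₀ * Jm) * (Jm * (2 * η)) = B * (2 * η) := by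
      rw [sum_const, card_range, nsmul_eq_mul, hB]
      ring
    have h3 : (B + 1) * (4 * η) = ε := by
      rw [hη]
      field_simp
    nlinarith

end Vale.Agent.P168
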