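import Vale.Agent.P168.Bridge

/-! Pigeonhole over the random branching depths. -/

namespace Vale.Agent.P168

open Finset

section

open Classical

variable {Ω I L : Type} [Fintype Ω] [Fintype I] [DecidableEq L] (C : Casc Ω) {g : L → ℕ → ℕ}
  {R : ℕ}

omit [DecidableEq L] in
theorem pig_mer (hg : Nest g) {b : Finset L} {d : ℕ} (h : Mer g b (d + 1)) : Mer g b d :=
  fun l hl l' hl' => hg l l' d (h l hl l' hl')

theorem pig_tele (hg : Nest g) {f : L → Ω → ℝ} (hf : ∀ l ω, |f l ω| ≤ 1) (b : Finset L) (ω : Ω) :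
    ∑ d ∈ range R, (if Mer g b (d + 1) then C.E 0 (C.vr d (C.TD g f R (d + 1) b)) ω else 0) ≤ 1 := by
  have key : ∀ k ≤ R,
      ∑ d ∈ range k, (if Mer g b (d + 1) then C.E 0 (C.vr d (C.TD g f R (d + 1) b)) ω else 0) ≤ 1 ∧
      (Mer g b k → ∑ d ∈ range k,
        (if Mer g b (d + 1) then C.E 0 (C.vr d (C.TD g f R (d + 1) b)) ω else 0) ≤
          C.E 0 (fun x => C.TD g f R k b x ^ 2) ω) := by
    intro k
    induction k with
    | zero => exact fun _ => ⟨zero_le_one, fun _ => C.E_nonneg (fun _ => sq_nonneg _) ω⟩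
    | succ k ih =>
      intro hk
      obtain ⟨h1, h2⟩ := ih (Nat.le_of_succ_le hk)
      rw [sum_range_succ]
      split_ifs with h
      · have e : C.E 0 (C.vr k (C.TD g f R (k + 1) b)) ω =
            C.E 0 (fun x => C.TD g f R (k + 1) b x ^ 2) ω -
              C.E 0 (fun x => C.TD g f R k b x ^ 2) ω := by
          rw [← C.E_E (Nat.zero_le k) (fun x => C.TD g f R (k + 1) b x ^ 2), ← C.E_sub]
          exact C.E_congr fun x _ => by rw [C.TD_mer hk h, Casc.vr]
        have h3 := h2 (pig_mer hg h)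
        have h4 : C.E 0 (fun x => C.TD g f R (k + 1) b x ^ 2) ω ≤ 1 :=
          C.E_le (fun x => (sq_le_one_iff_abs_le_one _).2 (C.abs_TD_le hf x)) ω
        exact ⟨by linarith, fun _ => by linarith⟩
      · exact ⟨by linarith, fun h' => (h h').elim⟩
  exact (key R le_rfl).1

theorem pig_dl (hg : Nest g) {f : I → L → Ω → ℝ} (hf : ∀ i l ω, |f i l ω| ≤ 1) (b : Finset L)
    (ω : Ω) : ∑ d ∈ range R, (if Mer g b (d + 1) then C.E 0 (C.dl g f R d b) ω else 0) ≤ 1 := by
  have e : ∀ d ∈ range R, (if Mer g b (d + 1) then C.E 0 (C.dl g f R d b) ω else 0) = avg fun i =>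
      if Mer g b (d + 1) then C.E 0 (C.vr d (C.TD g (f i) R (d + 1) b)) ω else 0 := by
    intro d _
    split_ifs
    · exact C.E_avg 0 (fun i => C.vr d (C.TD g (f i) R (d + 1) b)) ω
    · simp [avg]
  rw [sum_congr rfl e, ← avg_sum]
  refine (avg_mono fun i => pig_tele C hg (hf i) b ω).trans ?_
  rw [avg, sum_const, card_univ, nsmul_eq_mul, mul_one]
  exact div_self_le_one _

theorem pig_ww (hg : Nest g) {f : I → L → Ω → ℝ} (hf : ∀ i l ω, |f i l ω| ≤ 1) (hR : 2 ≤ R)
    (D : Finset L) (ω : Ω) : ∑ e ∈ range R, C.ww g f R D ω (max e 1) ≤ 2 ^ D.card * 4 := by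
  simp only [Casc.ww]
  rw [sum_comm]
  refine (sum_le_card_nsmul _ _ 4 fun b _ => ?_).trans_eq (by simp)
  set a : ℕ → ℝ := fun d => if Mer g b (d + 1) then C.E 0 (C.dl g f R d b) ω else 0 with ha
  have h0 : ∀ d, 0 ≤ a d := fun d => by
    simp only [ha]
    split_ifs
    exacts [C.E_nonneg (fun x => C.dl_nonneg f x) ω, le_rfl]
  have h1 : ∑ d ∈ range R, a d ≤ 1 := pig_dl C hg hf b ω
  have h2 : ∀ e ∈ range R, (if Mer g b (max e 1 + 1) then C.E 0 (C.dl g f R (max e 1) b) ω +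
      C.E 0 (C.dl g f R (max e 1 - 1) b) ω else 0) ≤ a (max e 1) + a (max e 1 - 1) := by
    intro e _
    split_ifs with h
    · have h' : Mer g b (max e 1 - 1 + 1) := by
        rw [Nat.sub_add_cancel (le_max_right _ _)]
        exact pig_mer hg h
      simp only [ha, if_pos h, if_pos h', le_refl]
    · exact add_nonneg (h0 _) (h0 _)
  refine (sum_le_sum h2).trans ?_
  have h3 := single_le_sum (fun d _ => h0 d) (mem_range.2 (show 1 < R by omega))
  have h4 := single_le_sum (fun d _ => h0 d) (mem_range.2 (show 0 < R by omega))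
  obtain ⟨k, rfl⟩ : ∃ k, R = k + 1 := ⟨R - 1, by omega⟩
  have h5 := sum_range_succ a k
  have h6 := sum_range_succ' a k
  have e : ∀ d : ℕ, max (d + 1) 1 = d + 1 := fun d => by omega
  rw [sum_range_succ', sum_add_distrib]
  simp only [e, Nat.add_sub_cancel, show max 0 1 = 1 from rfl, Nat.sub_self]
  linarith [h0 k, h0 0]

theorem pig_congr {g' : L → ℕ → ℕ} (f : I → L → Ω → ℝ) (D : Finset L) (ω : Ω) {e : ℕ}
    (he : 1 ≤ e) (h : ∀ l d, e < d → g l d = g' l d) : C.ww g f R D ω e = C.ww g' f R D ω e := by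
  have h1 : ∀ d b, e ≤ d + 1 → C.dl g f R d b = C.dl g' f R d b := fun d b hd => funext fun x =>
    congrArg avg (funext fun i => by
      rw [C.TD_congr (fun l _ k hk => h l k (by omega)) fun _ _ => rfl])
  refine sum_congr rfl fun b _ => ?_
  rw [h1 e b (by omega), h1 (e - 1) b (by omega)]
  refine if_congr ?_ rfl rfl
  simp only [Mer, h _ _ (Nat.lt_succ_self e)]

end

theorem pig {Ω I : Type} [Fintype Ω] [Fintype I] (C : Casc Ω) {f : I → ℕ → Ω → ℝ}
    (hf : ∀ i l ω, |f i l ω| ≤ 1) {m : ℕ → ℝ} {R : ℕ} {Δ : ℝ} (hm : Lv m R) (hR : 2 ≤ R)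
    (hΔ : ∀ e < R, m (e + 1) - m e ≤ Δ) (n : ℕ) (ω : Ω) :
    Avg m R n (fun z => ∑ q ∈ range n,
      C.ww (addr 1 z) f R (range (n + 1)) ω (max (z q).2 1)) ≤ n * 2 ^ (n + 1) * 4 * Δ := by
  have h0 : 0 ≤ Δ := (sub_nonneg.2 (hm.mono 0 (by omega))).trans (hΔ 0 (by omega))
  rw [Avg_sum]
  refine (sum_le_card_nsmul _ _ (2 ^ (n + 1) * 4 * Δ) fun q hq => ?_).trans_eq (by
    rw [card_range, nsmul_eq_mul]
    ring)
  rw [Avg_coord hm (mem_range.1 hq), ← Avg_const (n := n) hm (2 ^ (n + 1) * 4 * Δ)]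
  refine Avg_mono hm fun z _ => ?_
  have h1 := pig_ww C (nest_addr (d₀ := 1) (z := Function.update z q ((z q).1, 0))) hf hR
    (range (n + 1)) ω
  rw [card_range] at h1
  refine le_trans (sum_le_sum fun e he => ?_)
    ((mul_sum _ _ Δ).symm.trans_le ((mul_le_mul_of_nonneg_left h1 h0).trans_eq (mul_comm _ _)))
  rw [Function.update_self, pig_congr C f _ ω (le_max_right e 1) fun l d hd =>
    addr_update q (z q).1 (e' := 0) ((le_max_left e 1).trans_lt hd) (by omega) l]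
  exact mul_le_mul_of_nonneg_right (hΔ e (mem_range.1 he)) (C.ww_nonneg f ω _)

end Vale.Agent.P168
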