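import Vale.Agent.P168.TDl

/-! The variance of a multi-overlap along a tree. -/

namespace Vale.Agent.P168

open Finset

namespace VarAux

section
variable {I : Type} [Fintype I]

/-- the quadratic form of a kernel -/
noncomputable def Fm (N : I → I → ℝ) (a : I → ℝ) : ℝ := avg fun i => avg fun i' => a i * a i' * N i i'

def Bnd (N : I → I → ℝ) (s : ℝ) : Prop := ∀ a, Cube a → Fm N a ≤ s

def Qp (M : I → I → ℝ) : Prop := ∀ N s, Bnd N s → Bnd (fun i i' => M i i' * N i i') s

theorem Fm_add (N N' : I → I → ℝ) (a : I → ℝ) :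
    Fm (fun i i' => N i i' + N' i i') a = Fm N a + Fm N' a := by
  simp only [Fm, mul_add, avg_add]

theorem Fm_sub (N N' : I → I → ℝ) (a : I → ℝ) :
    Fm (fun i i' => N i i' - N' i i') a = Fm N a - Fm N' a := by
  simp only [Fm, mul_sub, avg_sub]

theorem Fm_rank (φ a : I → ℝ) : Fm (fun i i' => φ i * φ i') a = (avg fun i => a i * φ i) ^ 2 := by
  rw [sq, ← avg_mul_const, Fm]
  congr 1
  funext i
  rw [← avg_const_mul]
  congr 1
  funext i'
  ring

theorem Bnd.add {N N' : I → I → ℝ} {s s' : ℝ} (h : Bnd N s) (h' : Bnd N' s') :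
    Bnd (fun i i' => N i i' + N' i i') (s + s') := fun a ha => by
  rw [Fm_add]
  exact add_le_add (h a ha) (h' a ha)

theorem qp_rank {φ : I → ℝ} (hφ : ∀ i, |φ i| ≤ 1) : Qp fun i i' => φ i * φ i' := by
  intro N s h a ha
  refine le_trans (le_of_eq ?_) (h (fun i => a i * φ i) fun i => ?_)
  · unfold Fm
    congr 1
    funext i
    congr 1
    funext i'
    ring
  · rw [abs_mul]
    exact mul_le_one₀ (ha i) (abs_nonneg _) (hφ i)

theorem qp_prod {ι : Type*} (S : Finset ι) {M : ι → I → I → ℝ} (h : ∀ c ∈ S, Qp (M c)) :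
    Qp fun i i' => ∏ c ∈ S, M c i i' := by
  classical
  induction S using Finset.induction_on with
  | empty => intro N s hN; simpa using hN
  | insert c S hc ih =>
    intro N s hN
    simp only [prod_insert hc, mul_assoc]
    exact h c (mem_insert_self _ _) _ s (ih (fun c' hc' => h c' (mem_insert_of_mem hc')) N s hN)

theorem qp_E {Ω : Type} [Fintype Ω] (C : Casc Ω) (d : ℕ) {M : I → I → Ω → ℝ}
    (h : ∀ x, Qp fun i i' => M i i' x) (x : Ω) : Qp fun i i' => C.E d (M i i') x := by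
  intro N s hN a ha
  refine le_trans (le_of_eq ?_) (C.E_le (d := d) (fun y => h y N s hN a ha) x)
  simp only [Fm, C.E_avg, C.E_const_mul, C.E_mul_const]

theorem bnd_tel {ι : Type*} (S : Finset ι) {M : ι → I → I → ℝ} {μ : ι → I → ℝ} {σ : ι → ℝ}
    (h : ∀ c ∈ S, Qp (M c)) (hμ : ∀ c i, |μ c i| ≤ 1)
    (hσ : ∀ c ∈ S, Bnd (fun i i' => M c i i' - μ c i * μ c i') (σ c)) :
    Bnd (fun i i' => ∏ c ∈ S, M c i i' - (∏ c ∈ S, μ c i) * ∏ c ∈ S, μ c i') (∑ c ∈ S, σ c) := by
  classical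
  induction S using Finset.induction_on with
  | empty => intro a _; simp [Fm, avg]
  | insert c S hc ih =>
    have h1 := h c (mem_insert_self _ _) _ _ (ih (fun c' hc' => h c' (mem_insert_of_mem hc'))
      fun c' hc' => hσ c' (mem_insert_of_mem hc'))
    have h2 := qp_rank (φ := fun i => ∏ c ∈ S, μ c i) (fun i => by
      rw [abs_prod]
      exact prod_le_one (fun _ _ => abs_nonneg _) fun c _ => hμ c i) _ _
        (hσ c (mem_insert_self _ _))
    have h3 := h2.add h1
    rw [sum_insert hc]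
    intro a ha
    refine le_trans (le_of_eq ?_) (h3 a ha)
    congr 1
    funext i i'
    simp only [prod_insert hc]
    ring

end

variable {Ω L I : Type} [Fintype Ω] [DecidableEq L] [Fintype I] (C : Casc Ω)
  {g : L → ℕ → ℕ} {f : I → L → Ω → ℝ} {R d : ℕ} {D : Finset L}

omit [DecidableEq L] in
theorem mer_filter (D : Finset L) (e c : ℕ) : Mer g (D.filter fun l => g l e = c) e :=
  fun _ hl _ hl' => (mem_filter.1 hl).2.trans (mem_filter.1 hl').2.symm

theorem TD_split (h : d < R) (f : L → Ω → ℝ) (x : Ω) : C.TD g f R d D x =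
    ∏ c ∈ D.image fun l => g l (d + 1), C.TD g f R d (D.filter fun l => g l (d + 1) = c) x := by
  rw [C.TD_lt h]
  exact prod_congr rfl fun c _ => (C.TD_mer h (mer_filter D _ c) x).symm

theorem qp_TD (hf : ∀ i l ω, |f i l ω| ≤ 1) : ∀ d ≤ R, ∀ (D : Finset L) (x : Ω),
    Qp fun i i' => C.TD g (fun l x => f i l x * f i' l x) R d D x := by
  refine down_ind (fun D x => ?_) fun d hd ih D x => ?_
  · simp only [C.TD_ge le_rfl, prod_mul_distrib]
    refine qp_rank (φ := fun i => ∏ l ∈ D, f i l x) fun i => ?_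
    rw [abs_prod]
    exact prod_le_one (fun _ _ => abs_nonneg _) fun l _ => hf i l x
  · simp only [C.TD_lt hd]
    exact qp_prod _ fun c _ => qp_E C d (ih _) x

omit [DecidableEq L] in
theorem qq_eq (a : I → ℝ) (x : Ω) : C.qq g f R d D a x =
    Fm (fun i i' => C.TD g (fun l x => f i l x * f i' l x) R d D x -
      C.TD g (f i) R d D x * C.TD g (f i') R d D x) a := by
  rw [Fm_sub, Fm_rank]
  rfl

theorem qq_top (a : I → ℝ) (x : Ω) : C.qq g f R R D a x = 0 := by
  rw [qq_eq]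
  simp [C.TD_ge le_rfl, prod_mul_distrib, Fm, avg]

theorem qq_mer (h : d < R) (hD : Mer g D (d + 1)) (a : I → ℝ) (x : Ω) : C.qq g f R d D a x =
    C.E d (C.qq g f R (d + 1) D a) x + C.vr d (C.hh g f R (d + 1) D a) x := by
  have e1 : C.hh g f R d D a x = C.E d (C.hh g f R (d + 1) D a) x := by
    unfold Casc.hh
    simp only [C.TD_mer h hD, C.E_avg, C.E_const_mul]
  unfold Casc.qq Casc.vr
  rw [e1, C.E_sub]
  simp only [C.TD_mer h hD, C.E_avg, C.E_const_mul]
  ring

omit [DecidableEq L] in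
theorem vr_hh_le {a : I → ℝ} (ha : Cube a) (x : Ω) :
    C.vr d (C.hh g f R (d + 1) D a) x ≤ C.dl g f R d D x :=
  C.vr_avg_le d ha (fun i => C.TD g (f i) R (d + 1) D) x

open Classical in
theorem sum_blocks_le {D₀ : Finset L} (hD : D ⊆ D₀) (e : ℕ) {φ : Finset L → ℝ}
    (hφ : ∀ b, 0 ≤ φ b) : ∑ c ∈ D.image fun l => g l e, φ (D.filter fun l => g l e = c) ≤
      ∑ b ∈ D₀.powerset, if Mer g b e then φ b else 0 := by
  rw [← sum_filter, ← sum_image (g := fun c => D.filter fun l => g l e = c) (f := φ)]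
  · refine sum_le_sum_of_subset_of_nonneg (fun b hb => ?_) fun b _ _ => hφ b
    obtain ⟨c, -, rfl⟩ := mem_image.1 hb
    exact mem_filter.2 ⟨mem_powerset.2 ((filter_subset _ _).trans hD), mer_filter D e c⟩
  · intro c hc c' _ h
    obtain ⟨l, hl, rfl⟩ := mem_image.1 (mem_coe.1 hc)
    have h1 : l ∈ D.filter fun l' => g l' e = g l e := mem_filter.2 ⟨hl, rfl⟩
    have h2 : (D.filter fun l' => g l' e = g l e) = D.filter fun l' => g l' e = c' := h
    rw [h2] at h1
    exact (mem_filter.1 h1).2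

theorem blocks_ww {D₀ : Finset L} (hD : D ⊆ D₀) (e : ℕ) (ω : Ω) :
    ∑ c ∈ D.image fun l => g l (e + 1), (C.E 0 (C.dl g f R e (D.filter fun l => g l (e + 1) = c)) ω +
      C.E 0 (C.dl g f R (e - 1) (D.filter fun l => g l (e + 1) = c)) ω) ≤ C.ww g f R D₀ ω e :=
  sum_blocks_le hD (e + 1) (φ := fun b => C.E 0 (C.dl g f R e b) ω + C.E 0 (C.dl g f R (e - 1) b) ω)
    fun _ => add_nonneg (C.E_nonneg (C.dl_nonneg f) ω) (C.E_nonneg (C.dl_nonneg f) ω)

theorem dl_split (hf : ∀ i l ω, |f i l ω| ≤ 1) (h : d + 1 < R) (x : Ω) : C.dl g f R d D x ≤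
    D.card * ∑ c ∈ D.image fun l => g l (d + 1 + 1),
      C.dl g f R d (D.filter fun l => g l (d + 1 + 1) = c) x := by
  unfold Casc.dl
  rw [← avg_sum, ← avg_const_mul]
  refine avg_mono fun i => ?_
  have e : C.TD g (f i) R (d + 1) D = fun y => ∏ c ∈ D.image fun l => g l (d + 1 + 1),
      C.TD g (f i) R (d + 1) (D.filter fun l => g l (d + 1 + 1) = c) y :=
    funext fun y => TD_split C h _ y
  rw [e]
  refine (C.vr_prod_le _ d (fun c y => C.abs_TD_le (hf i) y) x).trans ?_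
  refine mul_le_mul_of_nonneg_right ?_ (sum_nonneg fun c _ => C.vr_nonneg _ _ _)
  exact_mod_cast card_image_le

omit [DecidableEq L] in
theorem branch {D₀ : Finset L} {𝓔 : Finset ℕ}
    (hE : ∀ l ∈ D₀, ∀ l' ∈ D₀, ∀ e, g l e = g l' e → g l (e + 1) ≠ g l' (e + 1) → e ∈ 𝓔)
    (hD : D ⊆ D₀) {e : ℕ} (h1 : Mer g D e) (h2 : ¬ Mer g D (e + 1)) : e ∈ 𝓔 := by
  by_contra he
  exact h2 fun l hl l' hl' => by
    by_contra h
    exact he (hE l (hD hl) l' (hD hl') e (h1 l hl l' hl') h)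

theorem main {D₀ : Finset L} {𝓔 : Finset ℕ} {ε U : ℝ} (hf : ∀ i l ω, |f i l ω| ≤ 1) (hε : 0 ≤ ε)
    (hE : ∀ l ∈ D₀, ∀ l' ∈ D₀, ∀ e, g l e = g l' e → g l (e + 1) ≠ g l' (e + 1) → e ∈ 𝓔)
    (hH : C.HypE g f R D₀ ε) (ω : Ω) (hU0 : 0 ≤ U)
    (hU : ∀ e ∈ 𝓔, D₀.card * C.ww g f R D₀ ω e ≤ U) :
    ∀ d ≤ R, ∀ D ⊆ D₀, D.Nonempty → Mer g D d → ∀ j < d, ∃ s : Ω → ℝ,
      (∀ a, Cube a → ∀ x, C.E j (C.qq g f R d D a) x ≤ s x) ∧
      C.E 0 s ω ≤ (3 * D.card - 2) * U + (R - d) * D.card * ε ∧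
      (¬ Mer g D (d + 1) → C.E 0 s ω ≤ (3 * D.card - 3) * U + (R - d) * D.card * ε) := by
  refine down_ind (fun D _ hne _ j _ => ?_) fun d hd ih D hD hne hM j hj => ?_
  · have h1 : (1 : ℝ) ≤ D.card := by exact_mod_cast hne.card_pos
    refine ⟨fun _ => 0, fun a _ x => C.E_le (fun y => (qq_top C a y).le) x, ?_, fun _ => ?_⟩
    · rw [C.E_const, sub_self, zero_mul, zero_mul, add_zero]
      exact mul_nonneg (by linarith) hU0
    · rw [C.E_const, sub_self, zero_mul, zero_mul, add_zero]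
      exact mul_nonneg (by linarith) hU0
  have h1 : (1 : ℝ) ≤ D.card := by exact_mod_cast hne.card_pos
  have h1' : (D.card : ℝ) ≤ D₀.card := by exact_mod_cast card_le_card hD
  have hε1 : ε ≤ D.card * ε := le_mul_of_one_le_left hε h1
  by_cases hA : Mer g D (d + 1)
  · obtain ⟨s, hs1, hs2, hs3⟩ := ih D hD hne hA j (Nat.lt_succ_of_lt hj)
    have key : ∀ a x, C.E j (C.qq g f R d D a) x = C.E j (C.qq g f R (d + 1) D a) x +
        C.E j (C.vr d (C.hh g f R (d + 1) D a)) x := fun a x => by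
      rw [← C.E_E hj.le (C.qq g f R (d + 1) D a), ← C.E_add]
      congr 1
      funext y
      exact qq_mer C hd hA a y
    push_cast at hs2 hs3
    by_cases hB : Mer g D (min (d + 2) R)
    · refine ⟨fun x => s x + ε, fun a ha x => ?_, ?_, fun h => absurd hA h⟩
      · rw [key]
        exact add_le_add (hs1 a ha x) (hH D hD hne j d hj hd hB a ha x)
      · rw [C.E_add, C.E_const]
        nlinarith
    · have hd2 : d + 1 < R := by
        by_contra h
        rw [min_eq_right (by omega), show R = d + 1 by omega] at hB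
        exact hB hA
      rw [min_eq_left (by omega)] at hB
      refine ⟨fun x => s x + C.E j (C.dl g f R d D) x, fun a ha x => ?_, ?_, fun h => absurd hA h⟩
      · rw [key]
        exact add_le_add (hs1 a ha x) (C.E_mono (vr_hh_le C ha) x)
      · rw [C.E_add, C.E_E (Nat.zero_le j)]
        have h2 := C.E_mono (d := 0) (dl_split C (g := g) (D := D) hf hd2) ω
        rw [C.E_const_mul, C.E_sum] at h2
        have h3 : ∑ c ∈ D.image fun l => g l (d + 1 + 1),
            C.E 0 (C.dl g f R d (D.filter fun l => g l (d + 1 + 1) = c)) ω ≤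
            C.ww g f R D₀ ω (d + 1) := by
          refine le_trans (sum_le_sum fun c _ => ?_) (blocks_ww C hD (d + 1) ω)
          exact le_add_of_nonneg_left (C.E_nonneg (C.dl_nonneg f) ω)
        have h4 := hU _ (branch hE hD hA hB)
        have h5 := mul_le_mul h1' h3 (sum_nonneg fun c _ => C.E_nonneg (C.dl_nonneg f) ω)
          (Nat.cast_nonneg _)
        have h6 := hs3 hB
        nlinarith
  · have hS : ∀ c ∈ D.image fun l => g l (d + 1), ∃ s : Ω → ℝ,
        (∀ a, Cube a → ∀ x,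
          C.E d (C.qq g f R (d + 1) (D.filter fun l => g l (d + 1) = c) a) x ≤ s x) ∧
        C.E 0 s ω ≤ (3 * (D.filter fun l => g l (d + 1) = c).card - 2) * U +
          (R - (d + 1)) * (D.filter fun l => g l (d + 1) = c).card * ε := by
      intro c hc
      obtain ⟨l, hl, rfl⟩ := mem_image.1 hc
      obtain ⟨s, hs1, hs2, -⟩ := ih (D.filter fun l' => g l' (d + 1) = g l (d + 1))
        ((filter_subset _ _).trans hD) ⟨l, mem_filter.2 ⟨hl, rfl⟩⟩
        (mer_filter D (d + 1) (g l (d + 1))) d (Nat.lt_succ_self d)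
      push_cast at hs2
      exact ⟨s, hs1, hs2⟩
    choose! s hs1 hs2 using hS
    have hq : ∀ a, Cube a → ∀ x, C.qq g f R d D a x ≤ ∑ c ∈ D.image fun l => g l (d + 1),
        (s c x + C.dl g f R d (D.filter fun l => g l (d + 1) = c) x) := by
      intro a ha x
      rw [qq_eq]
      simp only [TD_split C (D := D) hd]
      refine bnd_tel (M := fun c i i' => C.TD g (fun l x => f i l x * f i' l x) R d
        (D.filter fun l => g l (d + 1) = c) x)
        (μ := fun c i => C.TD g (f i) R d (D.filter fun l => g l (d + 1) = c) x) _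
        (fun c _ => qp_TD C hf d hd.le _ x) (fun c i => C.abs_TD_le (hf i) x)
        (fun c hc b hb => ?_) a ha
      rw [← qq_eq, qq_mer C hd (mer_filter D _ c)]
      exact add_le_add (hs1 c hc b hb x) (vr_hh_le C hb x)
    have hp : (2 : ℝ) ≤ (D.image fun l => g l (d + 1)).card := by
      have : 1 < (D.image fun l => g l (d + 1)).card := by
        by_contra h
        refine hA fun l hl l' hl' => ?_
        exact card_le_one.1 (not_lt.1 h) _ (mem_image_of_mem _ hl) _ (mem_image_of_mem _ hl')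
      exact_mod_cast this
    have hcard : ∑ c ∈ D.image fun l => g l (d + 1),
        ((D.filter fun l => g l (d + 1) = c).card : ℝ) = D.card := by
      rw [card_eq_sum_card_image (fun l => g l (d + 1)) D]
      push_cast
      rfl
    have hb : C.E 0 (C.E j fun x => ∑ c ∈ D.image fun l => g l (d + 1),
        (s c x + C.dl g f R d (D.filter fun l => g l (d + 1) = c) x)) ω ≤
        (3 * D.card - 3) * U + (R - d) * D.card * ε := by
      rw [C.E_E (Nat.zero_le j), C.E_sum]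
      simp only [C.E_add, sum_add_distrib]
      have h2 := sum_le_sum hs2
      rw [sum_add_distrib, ← sum_mul, ← sum_mul, ← mul_sum, sum_sub_distrib, ← mul_sum, hcard,
        sum_const, nsmul_eq_mul] at h2
      have h3 : ∑ c ∈ D.image fun l => g l (d + 1),
          C.E 0 (C.dl g f R d (D.filter fun l => g l (d + 1) = c)) ω ≤ C.ww g f R D₀ ω d := by
        refine le_trans (sum_le_sum fun c _ => ?_) (blocks_ww C hD d ω)
        exact le_add_of_nonneg_right (C.E_nonneg (C.dl_nonneg f) ω)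
      have h4 := hU _ (branch hE hD hM hA)
      have h5 : C.ww g f R D₀ ω d ≤ D₀.card * C.ww g f R D₀ ω d :=
        le_mul_of_one_le_left (C.ww_nonneg f ω d) (h1.trans h1')
      have h6 := mul_le_mul_of_nonneg_right hp hU0
      nlinarith
    refine ⟨_, fun a ha x => C.E_mono (hq a ha) x, hb.trans ?_, fun _ => hb⟩
    nlinarith

end VarAux

theorem var_bound {Ω L I : Type} [Fintype Ω] [DecidableEq L] [Fintype I] (C : Casc Ω)
    {g : L → ℕ → ℕ} {f : I → L → Ω → ℝ} {R : ℕ} {D₀ : Finset L} {𝓔 : Finset ℕ} {ε : ℝ}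
    (hg : Nest g) (hf : ∀ i l ω, |f i l ω| ≤ 1) (hR : 1 ≤ R) (hε : 0 ≤ ε) (hD : D₀.Nonempty)
    (h1 : Mer g D₀ 1)
    (hE : ∀ l ∈ D₀, ∀ l' ∈ D₀, ∀ e, g l e = g l' e → g l (e + 1) ≠ g l' (e + 1) → e ∈ 𝓔)
    (hH : C.HypE g f R D₀ ε) (ω : Ω) :
    C.E 0 (C.qq g f R 1 D₀ fun _ => 1) ω ≤
      3 * (D₀.card : ℝ) ^ 2 * ∑ e ∈ 𝓔, C.ww g f R D₀ ω e + R * D₀.card * ε := by
  have _ := hg
  have hW : 0 ≤ ∑ e ∈ 𝓔, C.ww g f R D₀ ω e := sum_nonneg fun e _ => C.ww_nonneg f ω e
  have hc : (0 : ℝ) ≤ D₀.card := Nat.cast_nonneg _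
  obtain ⟨s, hs1, hs2, -⟩ := VarAux.main C hf hε hE hH ω (mul_nonneg hc hW)
    (fun e he => mul_le_mul_of_nonneg_left
      (single_le_sum (fun e _ => C.ww_nonneg f ω e) he) hc) 1 hR D₀ subset_rfl hD h1 0 one_pos
  rw [← C.E_E le_rfl]
  refine ((C.E_mono (hs1 _ fun _ => abs_one.le) ω).trans hs2).trans ?_
  have h2 := mul_nonneg hc hW
  have h3 := mul_nonneg hc hε
  push_cast
  nlinarith

end Vale.Agent.P168
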