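import Vale.Agent.P168.EE
import Vale.Agent.P168.Var
import Vale.Agent.P168.Pig

/-! Concentration of the multi-overlaps in the perturbed system. -/

namespace Vale.Agent.P168

open Finset

theorem conc_qq {Ω I : Type} [Fintype Ω] [Fintype I] (C : Casc Ω) (ev : Ω → I → Bool)
    (τ : ℕ → Bool) {R n : ℕ} {z : ℕ → ℕ × ℕ} (hz : Valid R n z) (hR : 1 < R) (x : Ω) :
    C.ES 1 z n (fun w => ov ev τ n w ^ 2) x - C.ES 1 z n (ov ev τ n) x ^ 2 =
      C.qq (addr 1 z) (fun i l ω => ind (ev ω i) (τ l)) R 1 (range (n + 1)) (fun _ => 1) x := by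
  have e1 : ∀ w, ov ev τ n w ^ 2 = avg fun i => avg fun i' =>
      ∏ l ∈ range (n + 1), ind (ev (w l) i) (τ l) * ind (ev (w l) i') (τ l) := fun w => by
    simp only [prod_mul_distrib, avg_const_mul, avg_mul_const, sq, ov]
  have e2 : C.ES 1 z n (ov ev τ n) x = avg fun i =>
      C.ES 1 z n (fun w => ∏ l ∈ range (n + 1), ind (ev (w l) i) (τ l)) x := C.ES_avg 1 z n _ x
  simp only [e1, e2, Casc.ES_avg, Casc.qq, Casc.hh, one_mul]
  congr 1
  · exact congrArg avg (funext fun i => congrArg avg (funext fun i' =>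
      ES_TD C hz hR (fun l y => ind (ev y i) (τ l) * ind (ev y i') (τ l)) x))
  · exact congrArg (fun y => avg y ^ 2) (funext fun i =>
      ES_TD C hz hR (fun l y => ind (ev y i) (τ l)) x)

theorem conc_map {n n₀ : ℕ} (h : n < n₀) :
    (univ.filter fun l : Fin n₀ => l.val ≤ n).map Fin.valEmbedding = range (n + 1) := by
  ext l
  simp only [mem_map, mem_filter, mem_univ, true_and, Fin.valEmbedding_apply, mem_range]
  exact ⟨fun ⟨a, h1, h2⟩ => by omega, fun h1 => ⟨⟨l, by omega⟩, by simpa using Nat.le_of_lt_succ h1,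
    rfl⟩⟩

theorem conc (n₀ R₀ : ℕ) {δ : ℝ} (hδ : 0 < δ) : ∃ (R t : ℕ) (η : ℝ), R₀ ≤ R ∧ 2 ≤ R ∧ 0 ≤ η ∧
    η * n₀ ≤ 1 / 2 ∧ ∀ (Sg I : Type) [Fintype Sg] [Fintype I] (ev : Sg → I → Bool) (H : Sg → ℝ),
      Conc (tsys (Fin n₀) R t η ev H) (fun ω => ev ω.1) (mm R) R n₀ δ := by
  obtain ⟨R₁, hR₁⟩ := exists_nat_ge (3 * (n₀ : ℝ) ^ 2 * (n₀ * 2 ^ n₀ * 4) / (δ / 2))
  obtain ⟨R, h0, h1, h2⟩ : ∃ R, R₀ ≤ R ∧ R₁ ≤ R ∧ 2 ≤ R := ⟨R₀ + R₁ + 2, by omega, by omega, by omega⟩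
  have hR0 : (0 : ℝ) < R := by exact_mod_cast (by omega : 0 < R)
  have hε : 0 < δ / (2 * R * n₀ + 2) := by positivity
  obtain ⟨η, t, h3, h4, h5⟩ := hypE (Fin n₀) R hε
  rw [Fintype.card_fin] at h4
  refine ⟨R, t, η, h0, h2, h3, h4, fun Sg I _ _ ev H n hn τ ω => ?_⟩
  have hm : Lv (mm R) R := lv_mm (by omega)
  have h5' := h5 Sg I ev H
  generalize tsys (Fin n₀) R t η ev H = C at h5' ⊢
  have hf : ∀ (i : I) (l : ℕ) (ω : Om Sg I (Fin n₀) R t), |ind (ev ω.1 i) (τ l)| ≤ 1 :=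
    fun _ _ _ => abs_ind _ _
  have hp := pig C hf hm h2 (Δ := 1 / R) (fun e he => by
    rw [mm_of_le he, mm_of_le he.le, ← sub_div]
    push_cast
    rw [add_sub_cancel_left]) n ω
  have hb : ∀ z, Valid R n z → C.E 0 (fun x =>
      C.ES 1 z n (fun w => ov (fun ω => ev ω.1) τ n w ^ 2) x -
        C.ES 1 z n (ov (fun ω => ev ω.1) τ n) x ^ 2) ω ≤
      3 * ((n + 1 : ℕ) : ℝ) ^ 2 * ∑ q ∈ range n, C.ww (addr 1 z) (fun i l ω => ind (ev ω.1 i) (τ l))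
        R (range (n + 1)) ω (max (z q).2 1) + R * (n + 1 : ℕ) * (δ / (2 * R * n₀ + 2)) := by
    intro z hz
    have hH := C.hypE_map (g := addr 1 z) (fun i l ω => ind (ev ω.1 i) (τ l)) Fin.valEmbedding
      (h5' (fun l => addr 1 z l) (univ.filter fun l : Fin n₀ => l.val ≤ n) (fun l => τ l)
        (fun l l' => nest_addr l.val l'.val) fun l hl l' hl' h => by
          rw [addr_high (dep_lt hz (by omega) (mem_filter.mp hl).2),
            addr_high (dep_lt hz (by omega) (mem_filter.mp hl').2)] at h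
          exact Fin.ext h)
    rw [conc_map hn] at hH
    have h6 := var_bound C (𝓔 := (range n).image fun q => max (z q).2 1) nest_addr hf (by omega)
      hε.le nonempty_range_add_one
      (fun l _ l' _ => (addr_low le_rfl l).trans (addr_low le_rfl l').symm)
      (fun l hl l' hl' e e1 e2 => by
        obtain ⟨q, hq, rfl⟩ := addr_branch (Nat.le_of_lt_succ (mem_range.mp hl))
          (Nat.le_of_lt_succ (mem_range.mp hl')) e1 e2
        exact mem_image_of_mem _ (mem_range.mpr hq)) hH ω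
    rw [card_range] at h6
    rw [funext (conc_qq C (fun ω => ev ω.1) τ hz (by omega))]
    refine h6.trans (add_le_add (mul_le_mul_of_nonneg_left ?_ (by positivity)) le_rfl)
    exact sum_image_le_of_nonneg fun e _ => C.ww_nonneg _ ω e
  refine (Avg_mono hm hb).trans ?_
  rw [Avg_add, Avg_const_mul, Avg_const hm]
  have hn1 : ((n + 1 : ℕ) : ℝ) ≤ n₀ := by exact_mod_cast hn
  have hn2 : (n : ℝ) ≤ n₀ := by exact_mod_cast hn.le
  have h7 : 3 * ((n + 1 : ℕ) : ℝ) ^ 2 * (n * 2 ^ (n + 1) * 4 * (1 / R)) ≤ δ / 2 := by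
    have h8 : (2 : ℝ) ^ (n + 1) ≤ 2 ^ n₀ := pow_le_pow_right₀ one_le_two hn
    have h9 : 3 * (n₀ : ℝ) ^ 2 * (n₀ * 2 ^ n₀ * 4) ≤ R * (δ / 2) :=
      (div_le_iff₀ (half_pos hδ)).mp (hR₁.trans (by exact_mod_cast h1))
    calc _ ≤ 3 * (n₀ : ℝ) ^ 2 * (n₀ * 2 ^ n₀ * 4 * (1 / R)) := by gcongr
      _ = 3 * (n₀ : ℝ) ^ 2 * (n₀ * 2 ^ n₀ * 4) / R := by ring
      _ ≤ δ / 2 := by rw [div_le_iff₀' hR0]; exact h9
  have h10 : R * ((n + 1 : ℕ) : ℝ) * (δ / (2 * R * n₀ + 2)) ≤ δ / 2 := by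
    rw [← mul_div_assoc, div_le_div_iff₀ (by positivity) two_pos]
    nlinarith [mul_le_mul_of_nonneg_left hn1 (mul_pos hR0 hδ).le]
  linarith [mul_le_mul_of_nonneg_left hp (show 0 ≤ 3 * ((n + 1 : ℕ) : ℝ) ^ 2 by positivity)]

end Vale.Agent.P168
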