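import Vale.Agent.P168.Casc3

/-! A node of depth `1` of a cascade defines a trial message. -/

namespace Vale.Agent.P168

open Finset MeasureTheory

section

variable {X : Type} [Fintype X] [MeasurableSpace X] [DiscreteMeasurableSpace X]

theorem rl_sample [Nonempty X] (q : X → ℝ) (h0 : ∀ a, 0 ≤ q a) (h1 : ∑ a, q a = 1) :
    ∃ κ : unitInterval → X, Measurable κ ∧ ∀ a, (volume.map κ {a}).toReal = q a := by
  have h2 : ∑ a, ENNReal.ofReal (q a) = 1 := by
    rw [← ENNReal.ofReal_sum_of_nonneg fun a _ => h0 a, h1, ENNReal.ofReal_one]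
  obtain ⟨κ, hκ, h3⟩ := (PMF.ofFintype _ h2).toMeasure.exists_measurable_map_eq
  refine ⟨κ, hκ, fun a => ?_⟩
  rw [h3, PMF.toMeasure_apply_singleton _ _ (measurableSet_singleton a), PMF.ofFintype_apply,
    ENNReal.toReal_ofReal (h0 a)]

theorem rl_int {J : Type} [Fintype J] [DecidableEq J] {κ : J → unitInterval → X}
    (hκ : ∀ j, Measurable (κ j)) {q : J → X → ℝ} (hq : ∀ j a, (volume.map (κ j) {a}).toReal = q j a)
    (F : (J → X) → ℝ) :
    ∫ u : J → unitInterval, F (fun j => κ j (u j)) = ∑ b, (∏ j, q j (b j)) * F b := by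
  have hp : ∀ j, IsProbabilityMeasure (volume.map (κ j)) := fun j =>
    Measure.isProbabilityMeasure_map (hκ j).aemeasurable
  have h := measurePreserving_pi (fun _ : J => (volume : Measure unitInterval))
    (fun j => volume.map (κ j)) fun j => (hκ j).measurePreserving volume
  rw [volume_pi, ← integral_map h.measurable.aemeasurable
    (measurable_of_finite F).aestronglyMeasurable, h.map_eq, integral_fintype .of_finite]
  refine sum_congr rfl fun b _ => ?_
  rw [smul_eq_mul, measureReal_def, Measure.pi_singleton, ENNReal.toReal_prod]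
  simp only [hq]

/-- The walk down the cascade. -/
def rlWalk {Z : Type} (κ : ℕ → Z → unitInterval → Z) : (k : ℕ) → ℕ → Z → (Fin k → unitInterval) → Z
  | 0, _, b, _ => b
  | k + 1, d, b, w => rlWalk κ k (d + 1) (κ d b (w 0)) (Fin.tail w)

theorem rl_meas {κ : ℕ → X → unitInterval → X} (hκ : ∀ d b, Measurable (κ d b)) :
    ∀ (k d : ℕ) (b : X), Measurable (rlWalk κ k d b)
  | 0, _, _ => measurable_const
  | k + 1, d, b => by
    have h1 : Measurable fun z : X × (Fin k → unitInterval) => rlWalk κ k (d + 1) z.1 z.2 :=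
      measurable_from_prod_countable_right fun x => rl_meas hκ k (d + 1) x
    exact h1.comp (((hκ d b).comp (measurable_pi_apply 0)).prodMk
      (measurable_pi_lambda _ fun p => measurable_pi_apply p.succ))

theorem rl_trec (C : Casc X) {κ : ℕ → X → unitInterval → X} (hκ : ∀ d b, Measurable (κ d b))
    (hq : ∀ d b a, (volume.map (κ d b) {a}).toReal = C.ker d b a) {m : ℕ → ℝ}
    {J : Type} [Fintype J] [DecidableEq J] (G : (J → X) → ℝ) :
    ∀ (k d : ℕ) (b : J → X) (m' : Fin k → ℝ), (∀ p, m' p = m (d + p + 1)) →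
      Trec k m' (fun w => Real.exp (G fun j => rlWalk κ k d (b j) fun p => w p j)) =
        Real.exp ((Casc.pi fun _ : J => C).Tk m k d G b)
  | 0, _, _, _, _ => rfl
  | k + 1, d, b, m', hm' => by
    have h0 : m' 0 = m (d + 1) := hm' 0
    have h1 : ∀ u : J → unitInterval, Trec k (Fin.tail m') (fun w => Real.exp (G fun j =>
        rlWalk κ (k + 1) d (b j) fun p => (Fin.cons u w : Fin (k + 1) → J → unitInterval) p j)) =
        Real.exp ((Casc.pi fun _ : J => C).Tk m k (d + 1) G fun j => κ d (b j) (u j)) := fun u =>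
      rl_trec C hκ hq G k (d + 1) (fun j => κ d (b j) (u j)) (Fin.tail m') fun p =>
        (hm' p.succ).trans (congrArg m (by rw [Fin.val_succ]; omega))
    have h2 := (Casc.pi fun _ : J => C).E_pos (d := d) (fun ω' => Real.exp_pos
      (m (d + 1) * (Casc.pi fun _ : J => C).Tk m k (d + 1) G ω')) b
    rw [Trec, Casc.Tk]
    simp only [h1]
    rw [rl_int (fun j => hκ d (b j)) (fun j => hq d (b j)) fun b' =>
      Real.exp ((Casc.pi fun _ : J => C).Tk m k (d + 1) G b') ^ m' 0, h0, mul_comm, ← one_div,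
      ← Real.rpow_def_of_pos h2, Casc.E]
    simp only [ker_pi, ← Real.exp_mul, mul_comm (m (d + 1))]

end

theorem rl_top {Ω J : Type} [Fintype Ω] [Fintype J] [DecidableEq J] (C : Casc Ω) (d : ℕ)
    (s : J → Ω → ℝ) {Y : (J → ℝ) → ℝ} (hY : MA Y) (ω : J → Ω) :
    (Casc.pi fun _ : J => C).E d (fun w => Y fun j => s j (w j)) ω =
      Y fun j => C.E d (s j) (ω j) := by
  rw [hY, funext fun w : J → Ω => hY fun j => s j (w j), Casc.E_sum]
  refine sum_congr rfl fun τ _ => ?_
  rw [Casc.E_const_mul, E_pi_prod (fun _ : J => C) d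
    fun j x => (1 + s j x * sg (τ j)) / 2]
  simp only [div_eq_mul_inv, Casc.E_mul_const, Casc.E_add, Casc.E_const]

theorem real_low {Ω I : Type} [Fintype Ω] [Fintype I] [Nonempty I] (C : Casc Ω)
    (ev : Ω → I → Bool) (r : ℕ) {m : ℕ → ℝ} (hm : ∀ d, 0 < m (d + 1)) (h1 : m (r + 2) = 1)
    (β : Ω) : ∃ x : (Fin (r + 1) → unitInterval) → ℝ, Measurable x ∧ (∀ w, |x w| ≤ 1) ∧
      ∀ (J : Type) [Fintype J] [DecidableEq J] (Y : (J → ℝ) → ℝ), MA Y →
        (∀ τ : J → Bool, 0 < Y fun j => sg (τ j)) →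
        TT r (fun p => m (p + 2)) x Y = avg fun idx : J → I => (Casc.pi fun _ : J => C).T m (r + 2) 1
          (fun w => Real.log (Y fun j => sg (ev (w j) (idx j)))) fun _ => β := by
  let : MeasurableSpace Ω := ⊤
  let : MeasurableSpace I := ⊤
  have : Nonempty Ω := ⟨β⟩
  have hI : (Fintype.card I : ℝ) ≠ 0 := Nat.cast_ne_zero.2 Fintype.card_ne_zero
  choose κ hκ hq using fun d b => rl_sample (C.ker d b) (C.ker_nonneg d b) (C.ker_sum d b)
  obtain ⟨ι, hι, hι'⟩ := rl_sample (fun _ : I => (Fintype.card I : ℝ)⁻¹) (fun _ => by positivity)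
    (by rw [sum_const, card_univ, nsmul_eq_mul, mul_inv_cancel₀ hI])
  refine ⟨fun w => C.E (r + 1) (fun ω => sg (ev ω (ι (w 0)))) (rlWalk κ r 1 β (Fin.tail w)), ?_,
    fun w => C.abs_E_le_of (fun ω => (abs_sg _).le) _, fun J _ _ Y hY hp => ?_⟩
  · exact (measurable_of_finite fun z : I × Ω => C.E (r + 1) (fun ω => sg (ev ω z.1)) z.2).comp
      ((hι.comp (measurable_pi_apply 0)).prodMk ((rl_meas hκ r 1 β).comp
        (measurable_pi_lambda _ fun p => measurable_pi_apply p.succ)))
  have h2 : ∀ (idx : J → I) (ω : J → Ω),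
      (Y fun j => C.E (r + 1) (fun x => sg (ev x (idx j))) (ω j)) =
        Real.exp ((Casc.pi fun _ : J => C).T m (r + 2) (r + 1)
          (fun w => Real.log (Y fun j => sg (ev (w j) (idx j)))) ω) := fun idx ω => by
    have h3 := (Casc.pi fun _ : J => C).exp_T hm (Nat.lt_succ_self (r + 1))
      (fun w => Real.log (Y fun j => sg (ev (w j) (idx j)))) ω
    simp only [h1, one_mul, Casc.T_top, Real.exp_log (hp _)] at h3
    rw [h3, rl_top C (r + 1) (fun j x => sg (ev x (idx j))) hY]
  have h3 : ∀ idx : J → I, Real.log (Trec r (fun p => m (p + 2)) fun w => Y fun j =>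
      C.E (r + 1) (fun x => sg (ev x (idx j))) (rlWalk κ r 1 β fun p => w p j)) =
      (Casc.pi fun _ : J => C).T m (r + 2) 1
        (fun w => Real.log (Y fun j => sg (ev (w j) (idx j)))) fun _ => β := fun idx => by
    simp only [h2 idx]
    rw [rl_trec C hκ hq _ r 1 (fun _ => β) _ fun p => congrArg m (by omega), Real.log_exp,
      (Casc.pi fun _ : J => C).T_comp (d := 1) (e := r + 1) (R := r + 2) (by omega) (by omega)]
    rfl
  have h4 := rl_int (J := J) (fun _ => hι) (fun _ => hι') fun idx =>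
    (Casc.pi fun _ : J => C).T m (r + 2) 1
      (fun w => Real.log (Y fun j => sg (ev (w j) (idx j)))) fun _ => β
  simp only [TT, Fin.cons_zero, Fin.tail_cons]
  rw [funext fun u : J → unitInterval => h3 fun j => ι (u j), h4, avg, sum_div]
  refine sum_congr rfl fun idx _ => ?_
  rw [prod_const, card_univ, Fintype.card_fun, Nat.cast_pow, inv_pow, div_eq_inv_mul]

end Vale.Agent.P168
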