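import Vale.Agent.P168.RealU
import Vale.Agent.P168.Cl

/-! Continuity properties of `TT`; approximation by step functions. -/

namespace Vale.Agent.P168

open Finset MeasureTheory

section Lev
variable {α : Type} [MeasurableSpace α] {ν : Measure α} [IsProbabilityMeasure ν] {A B : α → ℝ}
  {m c c' δ : ℝ}

theorem step_int (hA : Measurable A) (hc : ∀ a, |A a| ≤ c) : Integrable A ν :=
  Integrable.of_bound hA.aestronglyMeasurable c (ae_of_all _ hc)

theorem step_abs_int (hc : ∀ a, |A a| ≤ c) : |∫ a, A a ∂ν| ≤ c := by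
  simpa using norm_integral_le_of_norm_le_const (μ := ν) (f := A) (ae_of_all _ hc)

theorem step_exp_int (hm : 0 < m) (hA : Measurable A) (hc : ∀ a, |A a| ≤ c) :
    Integrable (fun a => Real.exp (m * A a)) ν :=
  step_int (c := Real.exp (m * c)) (hA.const_mul m).exp fun a => by
    rw [abs_of_pos (Real.exp_pos _)]
    exact Real.exp_le_exp.2 (mul_le_mul_of_nonneg_left (le_of_abs_le (hc a)) hm.le)

theorem step_lev_le (hm : 0 < m) (hA : Measurable A) (hc : ∀ a, |A a| ≤ c) (hB : Measurable B)
    (hc' : ∀ a, |B a| ≤ c') (h : ∀ a, A a ≤ B a + δ) :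
    m⁻¹ * Real.log (∫ a, Real.exp (m * A a) ∂ν) ≤
      m⁻¹ * Real.log (∫ a, Real.exp (m * B a) ∂ν) + δ := by
  have iA := step_exp_int (ν := ν) hm hA hc
  have iB := step_exp_int (ν := ν) hm hB hc'
  have h1 : ∫ a, Real.exp (m * A a) ∂ν ≤ (∫ a, Real.exp (m * B a) ∂ν) * Real.exp (m * δ) := by
    rw [← integral_mul_const]
    refine integral_mono iA (iB.mul_const _) fun a => ?_
    beta_reduce
    rw [← Real.exp_add, ← mul_add]
    exact Real.exp_le_exp.2 (mul_le_mul_of_nonneg_left (h a) hm.le)
  have h2 := Real.log_le_log (integral_exp_pos iA) h1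
  rw [Real.log_mul (integral_exp_pos iB).ne' (Real.exp_pos _).ne', Real.log_exp] at h2
  refine (mul_le_mul_of_nonneg_left h2 (inv_pos.2 hm).le).trans_eq ?_
  rw [mul_add, inv_mul_cancel_left₀ hm.ne']

theorem step_lev_L1 (hm : 0 < m) (hm1 : m ≤ 1) (h0 : 0 ≤ c) (hA : Measurable A)
    (hc : ∀ a, |A a| ≤ c) (hB : Measurable B) (hc' : ∀ a, |B a| ≤ c) :
    m⁻¹ * Real.log (∫ a, Real.exp (m * A a) ∂ν) - m⁻¹ * Real.log (∫ a, Real.exp (m * B a) ∂ν) ≤
      Real.exp (2 * c) * ∫ a, |A a - B a| ∂ν := by
  have iA := step_exp_int (ν := ν) hm hA hc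
  have iB := step_exp_int (ν := ν) hm hB hc'
  have iD : Integrable (fun a => |A a - B a|) ν := ((step_int hA hc).sub (step_int hB hc')).abs
  have hD : 0 ≤ ∫ a, |A a - B a| ∂ν := integral_nonneg fun a => abs_nonneg _
  have hmc : m * c ≤ c := mul_le_of_le_one_left h0 hm1
  have h1 : ∫ a, Real.exp (m * A a) ∂ν - ∫ a, Real.exp (m * B a) ∂ν ≤
      m * Real.exp c * ∫ a, |A a - B a| ∂ν := by
    rw [← integral_sub iA iB, ← integral_const_mul]
    refine integral_mono (iA.sub iB) (iD.const_mul _) fun a => ?_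
    have k1 := Real.add_one_le_exp (m * B a - m * A a)
    have k2 : Real.exp (m * B a) = Real.exp (m * A a) * Real.exp (m * B a - m * A a) := by
      rw [← Real.exp_add, add_sub_cancel]
    have k3 : Real.exp (m * A a) ≤ Real.exp c :=
      Real.exp_le_exp.2 ((mul_le_mul_of_nonneg_left (le_of_abs_le (hc a)) hm.le).trans hmc)
    have k4 := Real.exp_pos (m * A a)
    calc Real.exp (m * A a) - Real.exp (m * B a) ≤ Real.exp (m * A a) * (m * (A a - B a)) := by
          rw [k2]; nlinarith
      _ ≤ Real.exp (m * A a) * (m * |A a - B a|) := by gcongr; exact le_abs_self _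
      _ ≤ Real.exp c * (m * |A a - B a|) := by gcongr
      _ = _ := by ring
  have h2 : Real.exp (-c) ≤ ∫ a, Real.exp (m * B a) ∂ν := by
    have := integral_mono (μ := ν) (integrable_const (Real.exp (-c))) iB fun a =>
      Real.exp_le_exp.2 (by nlinarith [neg_le_of_abs_le (hc' a)])
    simpa using this
  have pA := integral_exp_pos iA
  have pB := integral_exp_pos iB
  generalize ∫ a, Real.exp (m * A a) ∂ν = a at h1 pA ⊢
  generalize ∫ a, Real.exp (m * B a) ∂ν = b at h1 h2 pB ⊢
  generalize ∫ a, |A a - B a| ∂ν = D at h1 hD ⊢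
  rw [← mul_sub, ← Real.log_div pA.ne' pB.ne', inv_mul_le_iff₀ hm]
  refine (Real.log_le_sub_one_of_pos (div_pos pA pB)).trans ?_
  rw [div_sub_one pB.ne', div_le_iff₀ pB]
  refine h1.trans ?_
  have e : Real.exp c = Real.exp (2 * c) * Real.exp (-c) := by
    rw [← Real.exp_add]; congr 1; ring
  calc m * Real.exp c * D = m * (Real.exp (2 * c) * D) * Real.exp (-c) := by rw [e]; ring
    _ ≤ _ := by gcongr

end Lev

section Rec
variable {J : Type} [Fintype J] {c c' δ : ℝ}

theorem step_cons {U : Type} [MeasurableSpace U] (r : ℕ) :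
    Measurable fun p : U × (Fin r → U) => (Fin.cons p.1 p.2 : Fin (r + 1) → U) :=
  measurable_pi_iff.2 fun d => by
    refine Fin.cases ?_ (fun d => ?_) d
    · exact measurable_fst
    · exact (measurable_pi_apply d).comp measurable_snd

theorem step_fubini {U : Type} [MeasureSpace U] [IsProbabilityMeasure (volume : Measure U)] {r : ℕ}
    {F : (Fin (r + 1) → U) → ℝ} (hF : Measurable F) (hc : ∀ W, |F W| ≤ c) :
    ∫ u : U, ∫ w : Fin r → U, F (Fin.cons u w) = ∫ W, F W := by
  rw [← (volume_preserving_piFinSuccAbove (fun _ : Fin (r + 1) => U) 0).symm.integral_comp',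
    integral_integral (f := fun (u : U) (w : Fin r → U) => F (Fin.cons u w))
      (step_int (hF.comp (step_cons r)) fun p => hc _)]
  refine integral_congr_ae (ae_of_all _ fun p => ?_)
  simp [MeasurableEquiv.piFinSuccAbove, Fin.insertNthEquiv]

theorem step_meas (r : ℕ) : ∀ (m : Fin r → ℝ) {α : Type} [MeasurableSpace α]
    {Y : α → (Fin r → J → unitInterval) → ℝ}, Measurable (Function.uncurry Y) →
    Measurable fun a => Trec r m (Y a) := by
  induction r with
  | zero => exact fun m α _ Y hY => hY.comp (measurable_id.prodMk measurable_const)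
  | succ r ih =>
    intro m α _ Y hY
    have h1 := ih (Fin.tail m) (α := α × (J → unitInterval))
      (Y := fun p w => Y p.1 (Fin.cons p.2 w))
      (hY.comp (measurable_fst.fst.prodMk ((step_cons r).comp
        (measurable_fst.snd.prodMk measurable_snd))))
    exact ((h1.pow_const (m 0)).stronglyMeasurable.integral_prod_right').measurable.pow_const _

/-- Measurable functions with bounded logarithm. -/
structure StepOK {α : Type} [MeasurableSpace α] (c : ℝ) (Y : α → ℝ) : Prop where
  meas : Measurable Y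
  bd : ∀ w, 0 < Y w ∧ |Real.log (Y w)| ≤ c

variable {r : ℕ}

omit [Fintype J] in
theorem StepOK.cons {Y : (Fin (r + 1) → J → unitInterval) → ℝ} (h : StepOK c Y)
    (u : J → unitInterval) : StepOK c fun w : Fin r → J → unitInterval => Y (Fin.cons u w) :=
  ⟨h.meas.comp ((step_cons r).comp (measurable_const.prodMk measurable_id)), fun _ => h.bd _⟩

/-- The logarithm of the recursion below the first level. -/
noncomputable def stepA (m : Fin r → ℝ) (Y : (Fin (r + 1) → J → unitInterval) → ℝ)
    (u : J → unitInterval) : ℝ := Real.log (Trec r m fun w => Y (Fin.cons u w))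

theorem stepA_meas (m : Fin r → ℝ) {Y : (Fin (r + 1) → J → unitInterval) → ℝ} (h : Measurable Y) :
    Measurable (stepA m Y) :=
  (step_meas r m (Y := fun u w => Y (Fin.cons u w)) (h.comp (step_cons r))).log

theorem step_succ {m : Fin (r + 1) → ℝ} (hm : 0 < m 0) {Y : (Fin (r + 1) → J → unitInterval) → ℝ}
    (hY : Measurable Y) (h : ∀ u, 0 < Trec r (Fin.tail m) (fun w => Y (Fin.cons u w)) ∧
      |stepA (Fin.tail m) Y u| ≤ c) :
    0 < Trec (r + 1) m Y ∧ Real.log (Trec (r + 1) m Y) =
      (m 0)⁻¹ * Real.log (∫ u, Real.exp (m 0 * stepA (Fin.tail m) Y u)) := by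
  have e : Trec (r + 1) m Y = (∫ u, Real.exp (m 0 * stepA (Fin.tail m) Y u)) ^ (m 0)⁻¹ := by
    rw [Trec, one_div]
    congr 2
    funext u
    rw [Real.rpow_def_of_pos (h u).1, mul_comm, stepA]
  have p := integral_exp_pos (step_exp_int (ν := volume) hm (stepA_meas _ hY) fun u => (h u).2)
  rw [e]
  exact ⟨Real.rpow_pos_of_pos p _, Real.log_rpow p _⟩

theorem step_bd {m : Fin r → ℝ} (hm : ∀ q, 0 < m q) {Y : (Fin r → J → unitInterval) → ℝ}
    (h : StepOK c Y) : 0 < Trec r m Y ∧ |Real.log (Trec r m Y)| ≤ c := by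
  induction r with
  | zero => exact h.bd _
  | succ r ih =>
    have h1 := fun u => ih (m := Fin.tail m) (fun q => hm _) (h.cons u)
    obtain ⟨h2, h3⟩ := step_succ (hm 0) h.meas h1
    have hA := stepA_meas (Fin.tail m) h.meas
    have k1 := step_lev_le (ν := volume) (hm 0) hA (fun u => (h1 u).2) (B := fun _ => 0)
      measurable_const (fun _ => le_rfl) (δ := c) fun u => by
        rw [zero_add]; exact le_of_abs_le (h1 u).2
    have k2 := step_lev_le (ν := volume) (hm 0) (A := fun _ => 0) measurable_const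
      (fun _ => le_rfl) hA (fun u => (h1 u).2) (δ := c) fun u => by
        have : -c ≤ stepA (Fin.tail m) Y u := neg_le_of_abs_le (h1 u).2
        linarith
    simp only [mul_zero, Real.exp_zero, integral_const, probReal_univ, smul_eq_mul, mul_one,
      Real.log_one, zero_add] at k1 k2
    exact ⟨h2, h3 ▸ abs_le.2 ⟨by linarith, k1⟩⟩

theorem step_le {m : Fin r → ℝ} (hm : ∀ q, 0 < m q) {Y Y' : (Fin r → J → unitInterval) → ℝ}
    (h : StepOK c Y) (h' : StepOK c' Y') (hδ : ∀ w, Real.log (Y w) ≤ Real.log (Y' w) + δ) :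
    Real.log (Trec r m Y) ≤ Real.log (Trec r m Y') + δ := by
  induction r with
  | zero => exact hδ _
  | succ r ih =>
    have h1 := fun u => step_bd (m := Fin.tail m) (fun q => hm _) (h.cons u)
    have h1' := fun u => step_bd (m := Fin.tail m) (fun q => hm _) (h'.cons u)
    rw [(step_succ (hm 0) h.meas h1).2, (step_succ (hm 0) h'.meas h1').2]
    exact step_lev_le (hm 0) (stepA_meas _ h.meas) (fun u => (h1 u).2) (stepA_meas _ h'.meas)
      (fun u => (h1' u).2) fun u => ih (fun q => hm _) (h.cons u) (h'.cons u) fun w => hδ _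

theorem step_A_L1 {m : Fin r → ℝ}
    {Y Y' : (Fin (r + 1) → J → unitInterval) → ℝ} (h : StepOK c Y) (h' : StepOK c Y') {K : ℝ}
    (ih : ∀ u, |stepA m Y u - stepA m Y' u| ≤
      K * ∫ w, |Real.log (Y (Fin.cons u w)) - Real.log (Y' (Fin.cons u w))|) :
    ∫ u, |stepA m Y u - stepA m Y' u| ≤ K * ∫ W, |Real.log (Y W) - Real.log (Y' W)| := by
  have hF : Measurable fun W => |Real.log (Y W) - Real.log (Y' W)| :=
    (h.meas.log.sub h'.meas.log).abs
  have hb : ∀ W, |(|Real.log (Y W) - Real.log (Y' W)|)| ≤ c + c := fun W => by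
    rw [abs_abs]
    exact (abs_sub _ _).trans (add_le_add (h.bd W).2 (h'.bd W).2)
  rw [← step_fubini hF hb, ← integral_const_mul]
  refine integral_mono_of_nonneg (ae_of_all _ fun u => abs_nonneg _)
    (Integrable.const_mul ?_ _) (ae_of_all _ ih)
  exact (step_int (ν := (volume : Measure (J → unitInterval)).prod volume)
    (hF.comp (step_cons r)) fun p => hb _).integral_prod_left

theorem step_L1 (h0 : 0 ≤ c) {m : Fin r → ℝ} (hm : ∀ q, 0 < m q ∧ m q < 1)
    {Y Y' : (Fin r → J → unitInterval) → ℝ} (h : StepOK c Y) (h' : StepOK c Y') :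
    |Real.log (Trec r m Y) - Real.log (Trec r m Y')| ≤
      Real.exp (2 * c * r) * ∫ w, |Real.log (Y w) - Real.log (Y' w)| := by
  induction r with
  | zero =>
    rw [integral_unique]
    simp [Trec, Subsingleton.elim (default : Fin 0 → J → unitInterval) Fin.elim0]
  | succ r ih =>
    have h1 := fun u => step_bd (m := Fin.tail m) (fun q => (hm _).1) (h.cons u)
    have h1' := fun u => step_bd (m := Fin.tail m) (fun q => (hm _).1) (h'.cons u)
    rw [(step_succ (hm 0).1 h.meas h1).2, (step_succ (hm 0).1 h'.meas h1').2]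
    have k := step_A_L1 (m := Fin.tail m) h h' fun u =>
      ih (fun q => hm _) (h.cons u) (h'.cons u)
    have k1 := step_lev_L1 (ν := volume) (hm 0).1 (hm 0).2.le h0 (stepA_meas _ h.meas)
      (fun u => (h1 u).2) (stepA_meas _ h'.meas) fun u => (h1' u).2
    have k2 := step_lev_L1 (ν := volume) (hm 0).1 (hm 0).2.le h0 (stepA_meas _ h'.meas)
      (fun u => (h1' u).2) (stepA_meas _ h.meas) fun u => (h1 u).2
    simp only [abs_sub_comm (stepA (Fin.tail m) Y' _)] at k2
    refine (abs_sub_le_iff.2 ⟨k1, k2⟩).trans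
      ((mul_le_mul_of_nonneg_left k (Real.exp_pos _).le).trans_eq ?_)
    rw [← mul_assoc, ← Real.exp_add]
    push_cast
    ring_nf

end Rec

section
variable {J : Type} [Fintype J] [DecidableEq J] {r : ℕ} {m : Fin r → ℝ}
  {x x' : (Fin (r + 1) → unitInterval) → ℝ} {Y Y' : (J → ℝ) → ℝ} {c c' : ℝ}

omit [DecidableEq J] in
theorem step_TT (Y : (J → ℝ) → ℝ) :
    TT r m x Y = ∫ u, stepA m (fun W => Y fun i => x fun d => W d i) u := by
  have e : ∀ (u : J → unitInterval) (w : Fin r → J → unitInterval) (i : J),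
      (Fin.cons (u i) fun p => w p i : Fin (r + 1) → unitInterval) =
        fun d => (Fin.cons u w : Fin (r + 1) → J → unitInterval) d i := fun u w i =>
    funext fun d => by refine Fin.cases ?_ (fun d => ?_) d <;> rfl
  simp only [TT, stepA, e]

theorem step_ok (h : Adm r m x) (hY : MA Y) (hc : Bd c Y) :
    StepOK c fun W : Fin (r + 1) → J → unitInterval => Y fun i => x fun d => W d i :=
  ⟨hY.continuous.measurable.comp (measurable_pi_iff.2 fun i => h.2.2.1.comp (by fun_prop)),
    fun _ => hc _ fun _ => h.2.2.2 _⟩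

theorem step_A_bd (h : Adm r m x) (hY : MA Y) (hc : Bd c Y) (u : J → unitInterval) :
    |stepA m (fun W => Y fun i => x fun d => W d i) u| ≤ c :=
  (step_bd (fun q => (h.2.1 q).1) ((step_ok h hY hc).cons u)).2

theorem step_A_int (h : Adm r m x) (hY : MA Y) (hc : Bd c Y) :
    Integrable (stepA m fun W => Y fun i => x fun d => W d i) :=
  step_int (stepA_meas m (step_ok h hY hc).meas) (step_A_bd h hY hc)

theorem TT_bd (h : Adm r m x) (hY : MA Y) (hc : Bd c Y) : |TT r m x Y| ≤ c := by
  rw [step_TT]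
  exact step_abs_int (step_A_bd h hY hc)

theorem TT_lip (h : Adm r m x) (hY : MA Y) (hY' : MA Y') (hc : Bd c Y) (hc' : Bd c' Y') {δ : ℝ}
    (hδ : ∀ X, Cube X → |Real.log (Y X) - Real.log (Y' X)| ≤ δ) :
    |TT r m x Y - TT r m x Y'| ≤ δ := by
  rw [step_TT, step_TT, ← integral_sub (step_A_int h hY hc) (step_A_int h hY' hc')]
  have k : ∀ u, |stepA m (fun W => Y fun i => x fun d => W d i) u -
      stepA m (fun W => Y' fun i => x fun d => W d i) u| ≤ δ := fun u =>
    abs_sub_le_iff.2 ⟨sub_le_iff_le_add'.2 (step_le (fun q => (h.2.1 q).1)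
      ((step_ok h hY hc).cons u) ((step_ok h hY' hc').cons u) fun w =>
        sub_le_iff_le_add'.1 (abs_sub_le_iff.1 (hδ _ fun _ => h.2.2.2 _)).1),
      sub_le_iff_le_add'.2 (step_le (fun q => (h.2.1 q).1)
      ((step_ok h hY' hc').cons u) ((step_ok h hY hc).cons u) fun w =>
        sub_le_iff_le_add'.1 (abs_sub_le_iff.1 (hδ _ fun _ => h.2.2.2 _)).2)⟩
  exact step_abs_int k

theorem TT_L1 (h : Adm r m x) (h' : Adm r m x') (hY : MA Y) (hc : Bd c Y) :
    |TT r m x Y - TT r m x' Y| ≤
      Real.exp (2 * c * (r + 1)) * Fintype.card J * ∫ w, |x w - x' w| := by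
  have h0 : 0 ≤ c := (abs_nonneg _).trans (hc 0 fun _ => by simp).2
  have o := step_ok h hY hc
  have o' := step_ok h' hY hc
  rw [step_TT, step_TT, ← integral_sub (step_A_int h hY hc) (step_A_int h' hY hc)]
  refine abs_integral_le_integral_abs.trans ((step_A_L1 o o' fun u =>
    step_L1 h0 h.2.1 (o.cons u) (o'.cons u)).trans ?_)
  have hD : Measurable fun w => |x w - x' w| := (h.2.2.1.sub h'.2.2.1).abs
  have mp : ∀ j : J, MeasurePreserving fun (W : Fin (r + 1) → J → unitInterval) d => W d j :=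
    fun j => volume_preserving_pi (f := fun _ => Function.eval j) fun _ =>
      measurePreserving_eval (μ := fun _ => volume) j
  have iD : Integrable fun w => |x w - x' w| := step_int (c := 1 + 1) hD fun w => by
    rw [abs_abs]
    exact (abs_sub _ _).trans (add_le_add (h.2.2.2 w) (h'.2.2.2 w))
  have iW := fun j => (mp j).integrable_comp_of_integrable iD
  have k := integral_mono_of_nonneg (μ := volume) (ae_of_all _ fun W => abs_nonneg _)
    ((integrable_finsetSum univ fun j _ => iW j).const_mul (Real.exp (2 * c)))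
    (ae_of_all _ fun W => hY.lip hc (X := fun i => x fun d => W d i)
      (X' := fun i => x' fun d => W d i) (fun _ => h.2.2.2 _) fun _ => h'.2.2.2 _)
  rw [integral_const_mul, integral_finsetSum univ fun j _ => iW j,
    sum_congr rfl fun j _ => (mp j).hasLaw.integral_comp hD.aestronglyMeasurable, sum_const,
    card_univ, nsmul_eq_mul] at k
  refine (mul_le_mul_of_nonneg_left k (Real.exp_pos _).le).trans_eq ?_
  rw [← mul_assoc, ← Real.exp_add, mul_assoc (Real.exp _)]
  ring_nf

end

theorem step_approx {r : ℕ} {x : (Fin (r + 1) → unitInterval) → ℝ} (hx : Measurable x)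
    (h1 : ∀ w, |x w| ≤ 1) {δ : ℝ} (hδ : 0 < δ) : ∃ (M : ℕ) (g : Ms r M → ℝ), Cube g ∧
      ∫ w, |x w - g fun d => fl M (w d)| ≤ δ := by
  have ix : Integrable x := step_int hx h1
  obtain ⟨f, hf, jf⟩ := ix.exists_boundedContinuous_integral_sub_le (half_pos hδ)
  obtain ⟨η, hη, hu⟩ := Metric.uniformContinuous_iff_le.1
    (CompactSpace.uniformContinuous_of_continuous f.continuous) _ (half_pos hδ)
  obtain ⟨M, hM⟩ := exists_nat_one_div_lt hη
  let pt : Fin (M + 1) → unitInterval := fun a => ⟨(a : ℕ) / (M + 1), by positivity,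
    div_le_one_of_le₀ (by exact_mod_cast a.2.le) (by positivity)⟩
  refine ⟨M, fun s => max (-1) (min 1 (f fun d => pt (s d))), fun s => abs_le.2
    ⟨le_max_left _ _, max_le (by norm_num) (min_le_left _ _)⟩, ?_⟩
  have k := integral_mono_of_nonneg (μ := volume)
    (f := fun w => |x w - max (-1) (min 1 (f fun d => pt (fl M (w d))))|)
    (ae_of_all _ fun w => abs_nonneg _) ((ix.sub jf).norm.add (integrable_const (δ / 2)))
    (ae_of_all _ fun w => by
      have k1 : |f w - f fun d => pt (fl M (w d))| ≤ δ / 2 :=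
        hu ((dist_pi_le_iff hη.le).2 fun d => by
          rw [dist_comm]; exact (abs_fl_sub_le M (w d)).trans hM.le)
      have k2 := abs_le.1 (h1 w)
      have k3 := abs_sub_le (x w) (f w) (f fun d => pt (fl M (w d)))
      refine le_trans ?_ (k3.trans (add_le_add le_rfl k1))
      beta_reduce
      generalize (f fun d => pt (fl M (w d))) = y
      have k4 := le_abs_self (x w - y)
      have k5 := neg_abs_le (x w - y)
      rw [abs_le, max_def, min_def]
      split_ifs <;> constructor <;> linarith)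
  rw [integral_add' (ix.sub jf).norm (integrable_const _)] at k
  simp only [integral_const, probReal_univ, smul_eq_mul, one_mul, Pi.sub_apply] at k
  linarith

end Vale.Agent.P168
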