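import Vale.Agent.P168.Conc
import Vale.Agent.P168.Cmp
import Vale.Agent.P168.RealL
import Vale.Agent.P168.Step
import Vale.Agent.P168.PFl

/-! The cavity estimate. -/

namespace Vale.Agent.P168

open Finset

section
variable {Ω X : Type} [Fintype Ω] [Fintype X] (C : Casc Ω) {m : ℕ → ℝ} {R : ℕ}

private theorem core_low (hm : ∀ d, 0 < m (d + 1)) (hR : 0 < R) (A : X → Ω → ℝ) (B : Ω → ℝ)
    (ω : Ω) {ε : ℝ} (h : C.E 0 (fun x => |(avg fun i => C.T m R 1 (A i) x) - B x|) ω ≤ ε) :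
    C.E 0 B ω ≤ (avg fun i => C.T m R 0 (A i) ω) + ε := by
  have h1 : C.E 0 B ω ≤ C.E 0 (fun x => (avg fun i => C.T m R 1 (A i) x) +
      |(avg fun i => C.T m R 1 (A i) x) - B x|) ω :=
    C.E_mono (fun x => by linarith [neg_abs_le ((avg fun i => C.T m R 1 (A i) x) - B x)]) ω
  rw [C.E_add, C.E_avg] at h1
  have h2 : (avg fun i => C.E 0 (C.T m R 1 (A i)) ω) ≤ avg fun i => C.T m R 0 (A i) ω :=
    avg_mono fun i => C.E_le_T hm hR (A i) ω
  linarith

private theorem core_up [Nonempty X] (hm : ∀ d, 0 < m (d + 1)) (hR : 0 < R) (A : X → Ω → ℝ)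
    (B : Ω → ℝ) (ω : Ω) {ε c : ℝ} (hA : ∀ i x, |A i x| ≤ c) (hc : m 1 * c ≤ 1)
    (h : C.E 0 (fun x => |(avg fun i => C.T m R 1 (A i) x) - B x|) ω ≤ ε) :
    (avg fun i => C.T m R 0 (A i) ω) ≤ C.E 0 B ω + (ε + m 1 * c ^ 2) := by
  have h1 : C.E 0 (fun x => avg fun i => C.T m R 1 (A i) x) ω ≤ C.E 0 (fun x => B x +
      |(avg fun i => C.T m R 1 (A i) x) - B x|) ω :=
    C.E_mono (fun x => by linarith [le_abs_self ((avg fun i => C.T m R 1 (A i) x) - B x)]) ω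
  rw [C.E_add, C.E_avg] at h1
  have h2 : (avg fun i => C.T m R 0 (A i) ω) ≤
      avg fun i => C.E 0 (C.T m R 1 (A i)) ω + m 1 * c ^ 2 :=
    avg_mono fun i => C.T_le_E hm hR (hA i) hc ω
  rw [avg_add, avg_const] at h2
  linarith

private theorem core_min (f : Ω → ℝ) (ω : Ω) : ∃ β, f β ≤ C.E 0 f ω := by
  obtain ⟨β, -, hβ⟩ := exists_min_image univ f ⟨ω, mem_univ _⟩
  exact ⟨β, C.le_E (fun x => hβ x (mem_univ _)) ω⟩

end

private theorem core_adm (r : ℕ) {x : (Fin (r + 1) → unitInterval) → ℝ} (h1 : Measurable x)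
    (h2 : ∀ w, |x w| ≤ 1) : Adm r (fun p => mm (r + 2) (p + 2)) x := by
  have h0 : (0 : ℝ) < ((r + 2 : ℕ) : ℝ) := by positivity
  refine ⟨fun p q h => ?_, fun p => ⟨(lv_mm (by omega)).pos _, ?_⟩, h1, h2⟩
  · have hp := p.2
    have hq := q.2
    beta_reduce
    rw [mm_of_le (by omega), mm_of_le (by omega)]
    refine div_lt_div_of_pos_right ?_ h0
    exact_mod_cast (by have : (p : ℕ) < q := h; omega : (p : ℕ) + 2 < q + 2)
  · have hp := p.2
    beta_reduce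
    rw [mm_of_le (by omega), div_lt_one h0]
    exact_mod_cast (by omega : (p : ℕ) + 2 < r + 2)

/-- the cavity estimate in a cascade with concentrated overlaps -/
private theorem core_abs {K : ℕ} {Θ Hh : Type} [Fintype Θ] [Fintype Hh] {p : Θ → ℝ}
    {θ : Θ → (Fin K → Bool) → ℝ} {ph hv : Hh → ℝ} {lam : ℝ} (hK : 1 ≤ K) (hp : Prob p)
    (hph : Prob ph) (hl : 0 < lam) {c ε : ℝ} (hc : 0 ≤ c) (hθ : ∀ t σ, |θ t σ| ≤ c)
    (hh : ∀ h, |hv h| ≤ c) (hε : 0 < ε) {M₀ : ℕ}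
    (t1 : ∀ (G G' : (M : ℕ) → (Fin M → Θ) → ℝ) (δ : ℝ), Gr (c + 1) G → Gr (c + 1) G' → 0 ≤ δ →
      (∀ M ≤ M₀, ∀ k, G M k ≤ G' M k + δ) → PF p (K * lam) G ≤ PF p (K * lam) G' + δ + ε)
    (t2 : ∀ (G G' : (M : ℕ) → (Fin M → Θ) → ℝ) (δ : ℝ), Gr (c + 1) G → Gr (c + 1) G' → 0 ≤ δ →
      (∀ M ≤ M₀, ∀ k, G M k ≤ G' M k + δ) →
        PF p ((K - 1) * lam) G ≤ PF p ((K - 1) * lam) G' + δ + ε)
    {Ω I : Type} [Fintype Ω] [Fintype I] [Nonempty I] (C : Casc Ω) (ev : Ω → I → Bool) (r : ℕ)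
    (ω : Ω) (r1 : mm (r + 2) 1 * ((c + 1) * (M₀ + 1)) ≤ 1)
    (r2 : mm (r + 2) 1 * ((c + 1) * (M₀ + 1)) ^ 2 ≤ ε)
    (hcmp : ∀ (J : Type) [Fintype J] [DecidableEq J] (y : (J → Bool) → ℝ),
      Fintype.card J ≤ M₀ * K → (∀ τ, |y τ| ≤ (c + 1) * (M₀ + 1)) → C.E 0 (fun x =>
        |(avg fun idx : J → I => C.T (mm (r + 2)) (r + 2) 1 (fun w => y fun j => ev w (idx j)) x) -
          avg fun idx : J → I => (Casc.pi fun _ : J => C).T (mm (r + 2)) (r + 2) 1
            (fun w => y fun j => ev (w j) (idx j)) fun _ => x|) ω ≤ ε) :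
    ∃ x, Adm r (fun p => mm (r + 2) (p + 2)) x ∧
      trialF p θ ph hv lam r (fun p => mm (r + 2) (p + 2)) x ≤
        (PF p (K * lam) fun M k => ∑ h, ph h * avg fun l : Fin M → Fin K =>
          avg fun idx : Fin M × Fin K → I => C.T (mm (r + 2)) (r + 2) 0 (fun w =>
            Real.log (UU (fun i => θ (k i)) (hv h) l fun j => sg (ev w (idx j)))) ω) -
        (PF p ((K - 1) * lam) fun M k =>
          avg fun idx : Fin M × Fin K → I => C.T (mm (r + 2)) (r + 2) 0 (fun w =>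
            Real.log (VV (fun i => θ (k i)) fun j => sg (ev w (idx j)))) ω) + 5 * ε := by
  have hm := (lv_mm (R := r + 2) (by omega)).pos
  have hK' : (1 : ℝ) ≤ K := by exact_mod_cast hK
  have a1 : 0 ≤ (K : ℝ) * lam := by positivity
  have a2 : 0 ≤ ((K : ℝ) - 1) * lam := mul_nonneg (by linarith) hl.le
  have : Nonempty (Fin K) := ⟨⟨0, hK⟩⟩
  choose x x1 x2 x3 using real_low C ev r hm (lv_mm (R := r + 2) (by omega)).top
  have hA : ∀ β, Adm r (fun p => mm (r + 2) (p + 2)) (x β) := fun β => core_adm r (x1 β) (x2 β)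
  have bU : ∀ (M : ℕ) (k : Fin M → Θ) (h : Hh) (l : Fin M → Fin K),
      Bd ((c + 1) * (M + 1)) (UU (fun i => θ (k i)) (hv h) l) := fun M k h l =>
    UU_bd (fun i σ => hθ _ σ) (hh h) l
  have bV : ∀ (M : ℕ) (k : Fin M → Θ), Bd ((c + 1) * (M + 1)) (VV fun i => θ (k i)) :=
    fun M k => VV_bd hc fun i σ => hθ _ σ
  have cM : ∀ M : ℕ, 0 ≤ (c + 1) * ((M : ℝ) + 1) := fun M => by positivity
  have cL : ∀ M ≤ M₀, (c + 1) * ((M : ℝ) + 1) ≤ (c + 1) * (M₀ + 1) := fun M hM => by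
    have : (M : ℝ) ≤ M₀ := by exact_mod_cast hM
    exact mul_le_mul_of_nonneg_left (by linarith) (by positivity)
  have cJ : ∀ M ≤ M₀, Fintype.card (Fin M × Fin K) ≤ M₀ * K := fun M hM => by
    simpa using Nat.mul_le_mul_right K hM
  -- the trial values
  set FU : Ω → (M : ℕ) → (Fin M → Θ) → ℝ := fun β M k => ∑ h, ph h *
    avg fun l : Fin M → Fin K =>
      TT r (fun p => mm (r + 2) (p + 2)) (x β) (UU (fun i => θ (k i)) (hv h) l) with hFU
  set FV : Ω → (M : ℕ) → (Fin M → Θ) → ℝ := fun β M k =>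
      TT r (fun p => mm (r + 2) (p + 2)) (x β) (VV fun i => θ (k i)) with hFV
  have gU : ∀ β, Gr (c + 1) (FU β) := fun β M k =>
    hph.abs_le fun h => abs_avg_le_of (cM M) fun l => TT_bd (hA β) (UU_ma _ _ _) (bU M k h l)
  have gV : ∀ β, Gr (c + 1) (FV β) := fun β M k => TT_bd (hA β) (VV_ma _) (bV M k)
  have eU : C.E 0 (fun β => PF p (K * lam) (FU β)) ω =
      PF p (K * lam) fun M k => C.E 0 (fun β => FU β M k) ω :=
    (PF_sum hp a1 univ (C.ker 0 ω) fun β _ => gU β).symm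
  have eV : C.E 0 (fun β => PF p ((K - 1) * lam) (FV β)) ω =
      PF p ((K - 1) * lam) fun M k => C.E 0 (fun β => FV β M k) ω :=
    (PF_sum hp a2 univ (C.ker 0 ω) fun β _ => gV β).symm
  obtain ⟨β, hβ⟩ := core_min C
    (fun β => PF p (K * lam) (FU β) - PF p ((K - 1) * lam) (FV β)) ω
  refine ⟨x β, hA β, ?_⟩
  rw [C.E_sub, eU, eV] at hβ
  have lU := t1 (fun M k => C.E 0 (fun β => FU β M k) ω)
    (fun M k => ∑ h, ph h * avg fun l : Fin M → Fin K =>
      avg fun idx : Fin M × Fin K → I => C.T (mm (r + 2)) (r + 2) 0 (fun w =>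
        Real.log (UU (fun i => θ (k i)) (hv h) l fun j => sg (ev w (idx j)))) ω) ε
    (fun M k => C.abs_E_le_of (fun β => gU β M k) ω)
    (fun M k => hph.abs_le fun h => abs_avg_le_of (cM M) fun l => abs_avg_le_of (cM M) fun idx =>
      C.abs_T_le hm (fun w => (bU M k h l _ (cube_sg _)).2) ω) hε.le (fun M hM k => by
      have h1 : ∀ (h : Hh) (l : Fin M → Fin K), C.E 0 (fun β =>
          TT r (fun p => mm (r + 2) (p + 2)) (x β) (UU (fun i => θ (k i)) (hv h) l)) ω ≤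
          (avg fun idx : Fin M × Fin K → I => C.T (mm (r + 2)) (r + 2) 0 (fun w =>
            Real.log (UU (fun i => θ (k i)) (hv h) l fun j => sg (ev w (idx j)))) ω) + ε := by
        intro h l
        refine core_low C hm (by omega) _ _ ω ?_
        have h2 := hcmp (Fin M × Fin K)
          (fun τ => Real.log (UU (fun i => θ (k i)) (hv h) l fun j => sg (τ j))) (cJ M hM)
          fun τ => (bU M k h l _ (cube_sg τ)).2.trans (cL M hM)
        simpa only [x3 _ _ _ (UU_ma _ _ _) fun τ => (bU M k h l _ (cube_sg τ)).1] using h2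
      simp only [hFU]
      rw [C.E_sum]
      simp only [C.E_const_mul, C.E_avg]
      have h3 : ε = ∑ h, ph h * ε := by rw [← sum_mul, hph.2, one_mul]
      rw [h3, ← sum_add_distrib]
      refine sum_le_sum fun h _ => ?_
      rw [← mul_add]
      refine mul_le_mul_of_nonneg_left ?_ (hph.1 h)
      exact (avg_mono fun l => h1 h l).trans_eq (by rw [avg_add, avg_const]))
  have lV := t2 (fun M k =>
      avg fun idx : Fin M × Fin K → I => C.T (mm (r + 2)) (r + 2) 0 (fun w =>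
        Real.log (VV (fun i => θ (k i)) fun j => sg (ev w (idx j)))) ω)
    (fun M k => C.E 0 (fun β => FV β M k) ω) (2 * ε)
    (fun M k => abs_avg_le_of (cM M) fun idx =>
      C.abs_T_le hm (fun w => (bV M k _ (cube_sg _)).2) ω)
    (fun M k => C.abs_E_le_of (fun β => gV β M k) ω) (by positivity) (fun M hM k => by
      have h2 := hcmp (Fin M × Fin K)
        (fun τ => Real.log (VV (fun i => θ (k i)) fun j => sg (τ j))) (cJ M hM)
        fun τ => (bV M k _ (cube_sg τ)).2.trans (cL M hM)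
      have h3 := core_up C hm (R := r + 2) (by omega) (fun (idx : Fin M × Fin K → I) w =>
        Real.log (VV (fun i => θ (k i)) fun j => sg (ev w (idx j)))) (fun β => FV β M k) ω
        (fun idx w => (bV M k _ (cube_sg _)).2.trans (cL M hM)) r1 (ε := ε) (by
          simpa only [hFV, x3 _ _ _ (VV_ma _) fun τ => (bV M k _ (cube_sg τ)).1] using h2)
      linarith)
  have e : trialF p θ ph hv lam r (fun p => mm (r + 2) (p + 2)) (x β) =
    PF p (K * lam) (FU β) - PF p ((K - 1) * lam) (FV β) := rfl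
  linarith

theorem core : CoreStmt := by
  intro K Θ Hh _ _ p θ ph hv lam hK hp hph hl ε hε
  have hK' : (1 : ℝ) ≤ K := by exact_mod_cast hK
  have a1 : 0 ≤ (K : ℝ) * lam := by positivity
  have a2 : 0 ≤ ((K : ℝ) - 1) * lam := mul_nonneg (by linarith) hl.le
  have : Nonempty (Fin K) := ⟨⟨0, hK⟩⟩
  obtain ⟨c, hc, hθ, hh⟩ : ∃ c : ℝ, 0 ≤ c ∧ (∀ t σ, |θ t σ| ≤ c) ∧ ∀ h, |hv h| ≤ c :=
    ⟨‖θ‖ + ‖hv‖, by positivity, fun t σ => by
      have h1 := (norm_le_pi_norm (θ t) σ).trans (norm_le_pi_norm θ t)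
      rw [Real.norm_eq_abs] at h1
      linarith [norm_nonneg hv], fun h => by
      have h1 := norm_le_pi_norm hv h
      rw [Real.norm_eq_abs] at h1
      linarith [norm_nonneg θ]⟩
  have hε' : 0 < ε / 5 := by positivity
  obtain ⟨M₁, t1⟩ := PF_trunc a1 (c + 1) hε'
  obtain ⟨M₂, t2⟩ := PF_trunc a2 (c + 1) hε'
  set M₀ := max M₁ M₂
  set c' : ℝ := (c + 1) * (M₀ + 1) with hc'
  have hc0 : 0 ≤ c' := by positivity
  obtain ⟨n₀, δ, hδ, hcmp⟩ := cmp (M₀ * K) c' hε'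
  obtain ⟨R₀, hR₀⟩ := exists_nat_ge (c' + c' ^ 2 / (ε / 5))
  obtain ⟨R, t, η, hR, hR2, h0, h1, hconc⟩ := conc n₀ R₀ hδ
  obtain ⟨r, rfl⟩ : ∃ r, R = r + 2 := ⟨R - 2, by omega⟩
  refine ⟨n₀, r + 2, t, η, by omega, h0, h1, fun n hn H => ?_⟩
  have : Nonempty (Fin n) := ⟨⟨0, hn⟩⟩
  obtain ⟨ω⟩ : Nonempty (Om (Fin n → Bool) (Fin n) (Fin n₀) (r + 2) t) := inferInstance
  have hRp : (0 : ℝ) < ((r + 2 : ℕ) : ℝ) := by positivity
  have hR' : (R₀ : ℝ) ≤ ((r + 2 : ℕ) : ℝ) := by exact_mod_cast hR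
  have hq : 0 ≤ c' ^ 2 / (ε / 5) := by positivity
  have r1 : mm (r + 2) 1 * c' ≤ 1 := by
    rw [mm_of_le (by omega), Nat.cast_one, one_div, inv_mul_le_iff₀ hRp]
    linarith
  have r2 : mm (r + 2) 1 * c' ^ 2 ≤ ε / 5 := by
    rw [mm_of_le (by omega), Nat.cast_one, one_div, inv_mul_le_iff₀ hRp, ← div_le_iff₀ hε']
    linarith
  obtain ⟨x, hA, hx⟩ := core_abs hK hp hph hl hc hθ hh hε' (M₀ := M₀)
    (fun G G' d g g' hd h => t1 Θ p G G' d hp g g' hd fun M hM => h M (hM.trans (le_max_left _ _)))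
    (fun G G' d g g' hd h => t2 Θ p G G' d hp g g' hd fun M hM => h M (hM.trans (le_max_right _ _)))
    (tsys (Fin n₀) (r + 2) t η id H) (fun w => w.1) r ω r1 r2
    (fun J _ _ y hJ hy => hcmp _ _ J _ _ _ _ y ω hJ (lv_mm (by omega)) (top_tsys H) hy
      (hconc _ _ id H))
  refine ⟨r, _, x, hA, hx.trans_eq ?_⟩
  have hm := (lv_mm (R := r + 2) (by omega)).pos
  have cM : ∀ M : ℕ, 0 ≤ (c + 1) * ((M : ℝ) + 1) := fun M => by positivity
  have eU := PF_add_const (C := c + 1) hp a1 (G := fun M k => ∑ h, ph h *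
    avg fun l : Fin M → Fin K => avg fun idx : Fin M × Fin K → Fin n =>
      (tsys (Fin n₀) (r + 2) t η id H).T (mm (r + 2)) (r + 2) 0 (fun w =>
        Real.log (UU (fun i => θ (k i)) (hv h) l fun j => sg (w.1 (idx j)))) ω)
    (fun M k => hph.abs_le fun h => abs_avg_le_of (cM M) fun l => abs_avg_le_of (cM M) fun idx =>
      Casc.abs_T_le _ hm (fun w => (UU_bd (fun i σ => hθ _ σ) (hh h) l _ (cube_sg _)).2) ω)
    (XX (Fin n₀) (r + 2) t η id H)
  have eV := PF_add_const (C := c + 1) hp a2 (G := fun M k =>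
    avg fun idx : Fin M × Fin K → Fin n =>
      (tsys (Fin n₀) (r + 2) t η id H).T (mm (r + 2)) (r + 2) 0 (fun w =>
        Real.log (VV (fun i => θ (k i)) fun j => sg (w.1 (idx j)))) ω)
    (fun M k => abs_avg_le_of (cM M) fun idx =>
      Casc.abs_T_le _ hm (fun w => (VV_bd hc (fun i σ => hθ _ σ) _ (cube_sg _)).2) ω)
    (XX (Fin n₀) (r + 2) t η id H)
  simp only [XX_add (show 1 ≤ r + 2 by omega) H _ ω, avg_add, avg_const, mul_add,
    sum_add_distrib, ← sum_mul, hph.2, one_mul, add_comm (XX (Fin n₀) (r + 2) t η id H)]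
  rw [eU, eV]
  ring

end Vale.Agent.P168
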