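import Mathlib

/-! Diluted spin glasses: the pressure and the Mezard-Parisi trial functional. -/

namespace Vale.Agent.P168

open MeasureTheory

/-- The value `±1` of a spin. -/
def sg (b : Bool) : ℝ := if b then 1 else -1

/-- Uniform average over a finite type. -/
noncomputable def avg {X : Type*} [Fintype X] (f : X → ℝ) : ℝ := (∑ x, f x) / Fintype.card X

/-- Poisson probabilities with mean `a`. -/
noncomputable def po (a : ℝ) (M : ℕ) : ℝ := Real.exp (-a) * a ^ M / M.factorial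

/-- Expectation over a Poisson (mean `a`) number of independent copies of `(Ω, P)`. -/
noncomputable def PE {Ω : Type*} [MeasurableSpace Ω] (P : Measure Ω) (a : ℝ)
    (G : (M : ℕ) → (Fin M → Ω) → ℝ) : ℝ :=
  ∑' M, po a M * ∫ ω, G M ω ∂(Measure.pi fun _ : Fin M => P)

/-- The Hamiltonian. -/
noncomputable def ham {K N M : ℕ} (θ : Fin M → (Fin K → Bool) → ℝ) (idx : Fin M → Fin K → Fin N)
    (h : Fin N → ℝ) (σ : Fin N → Bool) : ℝ :=
  ∑ k, θ k (fun j => σ (idx k j)) + ∑ i, h i * sg (σ i)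

/-- The logarithm of the partition function, averaged over the uniform indices. -/
noncomputable def logZ {K M : ℕ} (N : ℕ) (θ : Fin M → (Fin K → Bool) → ℝ) (h : Fin N → ℝ) : ℝ :=
  avg fun idx : Fin M → Fin K → Fin N => Real.log (∑ σ, Real.exp (ham θ idx h σ))

/-- The pressure `F_N`; `μ` is the law of the field. -/
noncomputable def pressure {K : ℕ} {Ω : Type*} [MeasurableSpace Ω] (P : Measure Ω)
    (θ : Ω → (Fin K → Bool) → ℝ) (μ : Measure ℝ) (lam : ℝ) (N : ℕ) : ℝ :=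
  (1 / N) * PE P (lam * N) fun _ ω =>
    ∫ h, logZ N (fun k => θ (ω k)) h ∂(Measure.pi fun _ : Fin N => μ)

/-- The recursion `Y_{p-1} = (E_p Y_p ^ m_p) ^ (1 / m_p)`; `w p i` is the level `p + 1` variable
of the message `i`. -/
noncomputable def Trec {I : Type} [Fintype I] :
    (r : ℕ) → (Fin r → ℝ) → ((Fin r → I → unitInterval) → ℝ) → ℝ
  | 0, _, Y => Y Fin.elim0
  | r + 1, m, Y =>
    (∫ u : I → unitInterval, Trec r (Fin.tail m) (fun w => Y (Fin.cons u w)) ^ m 0) ^ (1 / m 0)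

/-- `E log Y_0` over the level `0` variables, for `Y` a function of messages indexed by `I`. -/
noncomputable def TT {I : Type} [Fintype I] (r : ℕ) (m : Fin r → ℝ)
    (x : (Fin (r + 1) → unitInterval) → ℝ) (Y : (I → ℝ) → ℝ) : ℝ :=
  ∫ u : I → unitInterval,
    Real.log (Trec r m fun w => Y fun i => x (Fin.cons (u i) fun p => w p i))

/-- The variable `U` as a function of the messages. -/
noncomputable def UU {K M : ℕ} (θ : Fin M → (Fin K → Bool) → ℝ) (h : ℝ) (l : Fin M → Fin K)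
    (X : Fin M × Fin K → ℝ) : ℝ :=
  ∑ ε : Bool, Real.exp (h * sg ε) * ∏ k, ∑ σ : Fin K → Bool with σ (l k) = ε,
    Real.exp (θ k σ) * ∏ j with j ≠ l k, (1 + X (k, j) * sg (σ j)) / 2

/-- The variable `V` as a function of the messages. -/
noncomputable def VV {K M : ℕ} (θ : Fin M → (Fin K → Bool) → ℝ) (X : Fin M × Fin K → ℝ) : ℝ :=
  ∏ k, ∑ σ : Fin K → Bool, Real.exp (θ k σ) * ∏ j, (1 + X (k, j) * sg (σ j)) / 2

/-- The trial value `T U - T V`. -/
noncomputable def trial {K : ℕ} {Ω : Type*} [MeasurableSpace Ω] (P : Measure Ω)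
    (θ : Ω → (Fin K → Bool) → ℝ) (μ : Measure ℝ) (lam : ℝ) (r : ℕ) (m : Fin r → ℝ)
    (x : (Fin (r + 1) → unitInterval) → ℝ) : ℝ :=
  (PE P (K * lam) fun M ω =>
    ∫ h, (avg fun l : Fin M → Fin K => TT r m x (UU (fun k => θ (ω k)) h l)) ∂μ) -
  PE P ((K - 1) * lam) fun _ ω => TT r m x (VV fun k => θ (ω k))

/-- Admissible parameters: `0 < m_1 < ... < m_r < 1` and a measurable `x` with values in
`[-1, 1]`. -/
def Adm (r : ℕ) (m : Fin r → ℝ) (x : (Fin (r + 1) → unitInterval) → ℝ) : Prop :=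
  StrictMono m ∧ (∀ p, 0 < m p ∧ m p < 1) ∧ Measurable x ∧ ∀ w, |x w| ≤ 1

/-- The depth `r` functional `Φ_r`. -/
noncomputable def Phi {K : ℕ} {Ω : Type*} [MeasurableSpace Ω] (P : Measure Ω)
    (θ : Ω → (Fin K → Bool) → ℝ) (μ : Measure ℝ) (lam : ℝ) (r : ℕ) : ℝ :=
  sInf {v | ∃ m x, Adm r m x ∧ v = trial P θ μ lam r m x}

end Vale.Agent.P168
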