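import Vale.Agent.P168.FDefs

/-! Discretization of the disorder. -/

namespace Vale.Agent.P168

open Finset MeasureTheory ProbabilityTheory

theorem disc_aux {Ω : Type*} [MeasurableSpace Ω] {P : Measure Ω} {E : Type}
    [NormedAddCommGroup E] {θ : Ω → E} (hi : Integrable θ P) {δ : ℝ} (hδ : 0 < δ) :
    ∃ (Θ : Type) (_ : Fintype Θ) (q : Ω → Θ) (θ' : Θ → E), (∀ t, MeasurableSet (q ⁻¹' {t})) ∧
      Integrable (fun ω => ‖θ ω - θ' (q ω)‖) P ∧ ∫ ω, ‖θ ω - θ' (q ω)‖ ∂P ≤ δ := by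
  obtain ⟨g, h1, h2⟩ := (memLp_one_iff_integrable.2 hi).exists_simpleFunc_eLpNorm_sub_lt
    ENNReal.one_ne_top (ENNReal.ofReal_pos.2 hδ).ne'
  have h3 := hi.sub (memLp_one_iff_integrable.1 h2)
  refine ⟨g.range, inferInstance, fun ω => ⟨g ω, g.mem_range_self ω⟩, Subtype.val, fun t => ?_,
    h3.norm, ?_⟩
  · have e : (fun ω => (⟨g ω, g.mem_range_self ω⟩ : g.range)) ⁻¹' {t} = g ⁻¹' {t.1} :=
      Set.ext fun ω => Subtype.ext_iff
    rw [e]
    exact g.measurableSet_fiber _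
  · rw [eLpNorm_one_eq_lintegral_enorm] at h1
    exact (integral_norm_eq_lintegral_enorm h3.1).trans_le
      (ENNReal.toReal_le_of_le_ofReal hδ.le h1.le)

theorem disc {Ω : Type*} [MeasurableSpace Ω] {P : Measure Ω} {E : Type} [NormedAddCommGroup E]
    {θ : Ω → E} (hi : Integrable θ P) {δ : ℝ} (hδ : 0 < δ) :
    ∃ (Θ : Type) (_ : Fintype Θ) (q : Ω → Θ) (θ' : Θ → E), (∀ t, MeasurableSet (q ⁻¹' {t})) ∧
      ∫ ω, ‖θ ω - θ' (q ω)‖ ∂P ≤ δ := by
  obtain ⟨Θ, i, q, θ', h1, -, h2⟩ := disc_aux hi hδ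
  exact ⟨Θ, i, q, θ', h1, h2⟩

theorem disc_sum {Ω Θ : Type*} [MeasurableSpace Ω] {P : Measure Ω} [IsFiniteMeasure P] [Fintype Θ]
    {q : Ω → Θ} (hq : ∀ t, MeasurableSet (q ⁻¹' {t})) (Φ : Θ → ℝ) :
    Integrable (fun ω => Φ (q ω)) P ∧ ∑ t, P.real (q ⁻¹' {t}) * Φ t = ∫ ω, Φ (q ω) ∂P := by
  have e : (fun ω => Φ (q ω)) = fun ω => ∑ t, (q ⁻¹' {t}).indicator (fun _ => Φ t) ω := by
    funext ω
    rw [sum_eq_single (q ω) (fun t _ ht => Set.indicator_of_notMem (fun h => ht h.symm) _)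
      fun h => absurd (mem_univ _) h, Set.indicator_of_mem (s := q ⁻¹' {q ω}) rfl]
  have hi : ∀ t ∈ univ, Integrable ((q ⁻¹' {t}).indicator fun _ => Φ t) P := fun t _ =>
    (integrable_const _).indicator (hq t)
  rw [e, integral_finsetSum _ hi]
  exact ⟨integrable_finsetSum _ hi, sum_congr rfl fun t _ =>
    (integral_indicator_const _ (hq t)).symm⟩

/-- The energy relative to the configuration with all spins up. -/
noncomputable def discPsi {K : ℕ} (x : ℝ × (Fin K → Bool → ℝ)) (σ : Fin K → Bool) : ℝ :=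
  Real.log (1 + x.1 * ∏ j, x.2 j (σ j)) - Real.log (1 + x.1 * ∏ j, x.2 j true)

theorem disc_abs {K : ℕ} {x : ℝ} {y : Fin K → Bool → ℝ} (hx : |x| < 1) (hy : ∀ j s, |y j s| ≤ 1)
    (σ : Fin K → Bool) : |x * ∏ j, y j (σ j)| < 1 := by
  rw [abs_mul, abs_prod]
  exact (mul_le_of_le_one_right (abs_nonneg _)
    (prod_le_one (fun _ _ => abs_nonneg _) fun j _ => hy j _)).trans_lt hx

theorem disc_pos {K : ℕ} {x : ℝ} {y : Fin K → Bool → ℝ} (hx : |x| < 1) (hy : ∀ j s, |y j s| ≤ 1)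
    (σ : Fin K → Bool) : 0 < 1 + x * ∏ j, y j (σ j) := by
  linarith [(abs_lt.1 (disc_abs hx hy σ)).1]

theorem disc_log {s x y : ℝ} (h0 : 0 ≤ s) (h1 : s ≤ 1) (hx : |x| < 1) (hy : |y| < 1) :
    |Real.log (1 + s * x) - Real.log (1 + s * y)| ≤ |Real.log (1 + x) - Real.log (1 + y)| := by
  wlog h : y ≤ x generalizing x y
  · rw [abs_sub_comm, abs_sub_comm (Real.log (1 + x))]
    exact this hy hx (le_of_not_ge h)
  obtain ⟨x1, x2⟩ := abs_lt.1 hx
  obtain ⟨y1, y2⟩ := abs_lt.1 hy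
  have p1 : 0 < 1 + s * y := by nlinarith
  have p2 : 1 + s * y ≤ 1 + s * x := by nlinarith
  have p3 : 0 < 1 + y := by linarith
  have p4 := p1.trans_le p2
  have h2 : Real.log ((1 + s * x) * (1 + y)) ≤ Real.log ((1 + x) * (1 + s * y)) :=
    Real.log_le_log (mul_pos p4 p3) (by nlinarith [mul_nonneg (sub_nonneg.2 h1) (sub_nonneg.2 h)])
  rw [Real.log_mul p4.ne' p3.ne', Real.log_mul (by linarith) p1.ne'] at h2
  rw [abs_of_nonneg (sub_nonneg.2 (Real.log_le_log p1 p2))]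
  exact le_trans (by linarith) (le_abs_self _)

theorem discPsi_mono {K : ℕ} {s x : ℝ} {y : Fin K → Bool → ℝ} (h0 : 0 ≤ s) (h1 : s ≤ 1)
    (hx : |x| < 1) (hy : ∀ j s, |y j s| ≤ 1) : ‖discPsi (s * x, y)‖ ≤ ‖discPsi (x, y)‖ := by
  refine (pi_norm_le_iff_of_nonneg (norm_nonneg _)).2 fun σ => le_trans ?_ (norm_le_pi_norm _ σ)
  simp only [discPsi, mul_assoc, Real.norm_eq_abs]
  exact disc_log h0 h1 (disc_abs hx hy σ) (disc_abs hx hy fun _ => true)

theorem discPsi_cont {K : ℕ} {x : ℝ × (Fin K → Bool → ℝ)} (hx : |x.1| < 1)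
    (hy : ∀ j s, |x.2 j s| ≤ 1) : ContinuousAt discPsi x := by
  refine continuousAt_pi.2 fun σ => ContinuousAt.sub ?_ ?_
  · exact ContinuousAt.log (by fun_prop) (disc_pos hx hy σ).ne'
  · exact ContinuousAt.log (by fun_prop) (disc_pos hx hy fun _ => true).ne'

theorem discPsi_meas {K : ℕ} : Measurable (discPsi (K := K)) := by
  refine measurable_pi_lambda _ fun σ => Measurable.sub ?_ ?_
  · exact Measurable.log (by fun_prop)
  · exact Measurable.log (by fun_prop)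

theorem disc_stage1 {K : ℕ} {Ω : Type*} [MeasurableSpace Ω] {P : Measure Ω} {b : Ω → ℝ}
    {f : Ω → Fin K → Bool → ℝ} {g : Ω → ℝ} (hg : Integrable g P)
    (hb : ∀ ω, |b ω| < 1) (hf : ∀ ω j s, |f ω j s| ≤ 1) (hbm : Measurable b)
    (hfm : Measurable f) (hle : ∀ ω, ‖discPsi (b ω, f ω)‖ ≤ g ω) {δ : ℝ} (hδ : 0 < δ) :
    ∃ s : ℝ, 0 ≤ s ∧ s < 1 ∧
      Integrable (fun ω => ‖discPsi (b ω, f ω) - discPsi (s * b ω, f ω)‖) P ∧
      ∫ ω, ‖discPsi (b ω, f ω) - discPsi (s * b ω, f ω)‖ ∂P ≤ δ := by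
  have s0 : ∀ n : ℕ, (0 : ℝ) ≤ n / (n + 1) := fun n => by positivity
  have s1 : ∀ n : ℕ, (n : ℝ) / (n + 1) < 1 := fun n =>
    (div_lt_one (by positivity)).2 (lt_add_one _)
  have hm : ∀ s : ℝ, AEStronglyMeasurable
      (fun ω => ‖discPsi (b ω, f ω) - discPsi (s * b ω, f ω)‖) P := fun s =>
    ((discPsi_meas.comp (hbm.prodMk hfm)).sub
      (discPsi_meas.comp ((hbm.const_mul s).prodMk hfm))).norm.aestronglyMeasurable
  have hbd : ∀ n : ℕ, ∀ᵐ ω ∂P,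
      ‖‖discPsi (b ω, f ω) - discPsi ((n : ℝ) / (n + 1) * b ω, f ω)‖‖ ≤ g ω + g ω := fun n =>
    Filter.Eventually.of_forall fun ω => by
      rw [norm_norm]
      exact (norm_sub_le _ _).trans (add_le_add (hle ω)
        ((discPsi_mono (s0 n) (s1 n).le (hb ω) (hf ω)).trans (hle ω)))
  have key := tendsto_integral_of_dominated_convergence (f := fun _ => (0 : ℝ)) _
    (fun n : ℕ => hm ((n : ℝ) / (n + 1))) (hg.add hg) hbd (Filter.Eventually.of_forall fun ω => by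
      have h1 := ((tendsto_natCast_div_add_atTop (1 : ℝ)).mul_const (b ω)).prodMk_nhds
        (tendsto_const_nhds (x := f ω))
      rw [one_mul] at h1
      have h2 := (((discPsi_cont (x := (b ω, f ω)) (hb ω) (hf ω)).tendsto.comp h1).const_sub
        (discPsi (b ω, f ω))).norm
      rwa [sub_self, norm_zero] at h2)
  rw [integral_zero] at key
  obtain ⟨n, hn⟩ := (key.eventually (gt_mem_nhds hδ)).exists
  exact ⟨_, s0 n, s1 n, (hg.add hg).mono' (hm _) (hbd n), hn.le⟩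

theorem disc_stage2 (K : ℕ) {s δ : ℝ} (s0 : 0 ≤ s) (s1 : s < 1) (hδ : 0 < δ) :
    ∃ k : ℕ, 0 < k ∧ s * k ≤ k - 1 ∧ ∀ (x : ℝ) (y : Fin K → Bool → ℝ), |x| ≤ s →
      (∀ j t, |y j t| ≤ 1) → ‖discPsi (x, y)
        - discPsi (-(⌈-x * k⌉ / k : ℝ), fun j t => (⌊y j t * k⌋ / k : ℝ))‖ ≤ δ := by
  have hc : IsCompact (Metric.closedBall (0 : ℝ) ((1 + s) / 2) ×ˢ
      Metric.closedBall (0 : Fin K → Bool → ℝ) 1) :=
    (isCompact_closedBall _ _).prod (isCompact_closedBall _ _)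
  have hm : ∀ y : Fin K → Bool → ℝ, y ∈ Metric.closedBall 0 1 ↔ ∀ j t, |y j t| ≤ 1 := fun y => by
    simp only [mem_closedBall_zero_iff, pi_norm_le_iff_of_nonneg zero_le_one, Real.norm_eq_abs]
  obtain ⟨η, hη, H⟩ := Metric.uniformContinuousOn_iff_le.1 (hc.uniformContinuousOn_of_continuous
    fun x hx => (discPsi_cont ((mem_closedBall_zero_iff.1 hx.1).trans_lt (by linarith))
      ((hm _).1 hx.2)).continuousWithinAt) δ hδ
  obtain ⟨n, hn⟩ := exists_nat_one_div_lt (lt_min hη (half_pos (sub_pos.2 s1)))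
  obtain ⟨k, hk⟩ : ∃ k : ℕ, k = n + 1 := ⟨_, rfl⟩
  rw [← Nat.cast_add_one, ← hk, lt_min_iff] at hn
  have k0 : 0 < k := by omega
  have k1 : (0 : ℝ) < k := Nat.cast_pos.2 k0
  have k2 := (div_lt_iff₀ k1).1 hn.2
  refine ⟨k, k0, by linarith, fun x y hx hy => ?_⟩
  have d1 : |x - -(⌈-x * k⌉ / k : ℝ)| ≤ 1 / k := by
    rw [show x - -(⌈-x * k⌉ / k : ℝ) = (⌈-x * k⌉ - -x * k) / k by field_simp; ring, abs_div,
      abs_of_pos k1, abs_of_nonneg (sub_nonneg.2 (Int.le_ceil _))]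
    gcongr
    linarith [Int.ceil_lt_add_one (-x * k)]
  have d2 : ∀ u : ℝ, |u - (⌊u * k⌋ / k : ℝ)| ≤ 1 / k := fun u => by
    rw [show u - (⌊u * k⌋ / k : ℝ) = (u * k - ⌊u * k⌋) / k by field_simp, abs_div,
      abs_of_pos k1, abs_of_nonneg (sub_nonneg.2 (Int.floor_le _))]
    gcongr
    linarith [Int.lt_floor_add_one (u * k)]
  rw [← dist_eq_norm]
  refine H _ ⟨mem_closedBall_zero_iff.2 (hx.trans (by linarith)), (hm _).2 hy⟩ _
    ⟨mem_closedBall_zero_iff.2 ?_, (hm _).2 fun j t => ?_⟩ (max_le (d1.trans hn.1.le) ?_)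
  · have := abs_sub_abs_le_abs_sub (-(⌈-x * k⌉ / k : ℝ)) x
    rw [abs_sub_comm] at this
    rw [Real.norm_eq_abs]
    linarith
  · obtain ⟨y1, y2⟩ := abs_le.1 (hy j t)
    rw [abs_div, abs_of_pos k1, div_le_one k1, abs_le]
    refine ⟨?_, (Int.floor_le _).trans (mul_le_of_le_one_left k1.le y2)⟩
    have : -(k : ℤ) ≤ ⌊y j t * k⌋ := Int.le_floor.2 (by push_cast; nlinarith)
    exact_mod_cast this
  · exact (dist_pi_le_iff hη.le).2 fun j => (dist_pi_le_iff hη.le).2 fun t =>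
      (d2 _).trans hn.1.le

theorem discPT {K : ℕ} {Ω : Type*} [MeasurableSpace Ω] {P : Measure Ω} [IsProbabilityMeasure P]
    {θ : Ω → (Fin K → Bool) → ℝ} (hθ : Measurable θ) (hi : Integrable (fun ω => ‖θ ω‖) P)
    (j₀ : Fin K) {a b : Ω → ℝ} {f : Ω → Fin K → Bool → ℝ}
    (he : ∀ ω σ, Real.exp (θ ω σ) = a ω * (1 + b ω * ∏ j, f ω j (σ j)))
    (hb : ∀ ω, |b ω| < 1) (hf : ∀ ω j s, |f ω j s| ≤ 1) (hbm : Measurable b)
    (hfm : Measurable f) (h1 : iIndepFun (fun j ω => f ω j) P)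
    (h2 : ∀ j j', IdentDistrib (fun ω => f ω j) (fun ω => f ω j') P P) (h3 : IndepFun b f P)
    (h4 : ∀ n, 1 ≤ n → 0 ≤ ∫ ω, (-b ω) ^ n ∂P) {δ : ℝ} (hδ : 0 < δ) :
    ∃ (Θ : Type) (_ : Fintype Θ) (q : Ω → Θ) (θ' : Θ → (Fin K → Bool) → ℝ) (a' b' : Θ → ℝ)
      (f' : Θ → Fin K → Bool → ℝ), (∀ t, MeasurableSet (q ⁻¹' {t})) ∧
      PTF (fun t => P.real (q ⁻¹' {t})) θ' j₀ a' b' f' ∧ ∫ ω, ‖θ ω - θ' (q ω)‖ ∂P ≤ δ := by
  have hθe : ∀ ω σ, θ ω σ = θ ω (fun _ => true) + discPsi (b ω, f ω) σ := fun ω σ => by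
    have p1 := disc_pos (hb ω) (hf ω) σ
    have p2 := disc_pos (hb ω) (hf ω) fun _ => true
    have ha : a ω ≠ 0 := left_ne_zero_of_mul (he ω σ ▸ Real.exp_ne_zero _)
    rw [← Real.log_exp (θ ω σ), ← Real.log_exp (θ ω fun _ => true), he, he,
      Real.log_mul ha p1.ne', Real.log_mul ha p2.ne', discPsi]
    ring
  have hle : ∀ ω, ‖discPsi (b ω, f ω)‖ ≤ ‖θ ω‖ + ‖θ ω‖ := fun ω =>
    (pi_norm_le_iff_of_nonneg (by positivity)).2 fun σ => by
      rw [eq_sub_of_add_eq' (hθe ω σ).symm]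
      exact (norm_sub_le _ _).trans (add_le_add (norm_le_pi_norm _ _) (norm_le_pi_norm _ _))
  have hδ3 : 0 < δ / 3 := by positivity
  obtain ⟨Θ, _, q, α, hq, i0, e0⟩ := disc_aux (θ := fun ω => θ ω fun _ => true)
    (hi.mono' ((measurable_pi_apply _).comp hθ).aestronglyMeasurable
      (Filter.Eventually.of_forall fun ω => norm_le_pi_norm _ _)) hδ3
  obtain ⟨s, s0, s1, i1, e1⟩ := disc_stage1 (hi.add hi) hb hf hbm hfm hle hδ3
  obtain ⟨k, k0, k2, e2⟩ := disc_stage2 K s0 s1 hδ3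
  have k1 : (0 : ℝ) < k := Nat.cast_pos.2 k0
  have hsb : ∀ ω, |s * b ω| ≤ s := fun ω => by
    rw [abs_mul, abs_of_nonneg s0]
    exact mul_le_of_le_one_right s0 (hb ω).le
  let S : Finset (ℤ × (Fin K → Bool → ℤ)) := Icc (1 - k : ℤ) (k - 1) ×ˢ
    Fintype.piFinset fun _ => Fintype.piFinset fun _ => Icc (-k : ℤ) k
  have hS : ∀ z, z ∈ S ↔ (1 - k ≤ z.1 ∧ z.1 ≤ k - 1) ∧ ∀ j t, -k ≤ z.2 j t ∧ z.2 j t ≤ k :=
    fun z => by simp only [S, mem_product, Fintype.mem_piFinset, mem_Icc]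
  let z : Ω → ℤ × (Fin K → Bool → ℤ) := fun ω => (⌈-(s * b ω) * k⌉, fun j t => ⌊f ω j t * k⌋)
  have m1 : Measurable fun x : ℝ => ⌈-(s * x) * k⌉ := Measurable.ceil (by fun_prop)
  have m2 : Measurable fun (y : Bool → ℝ) t => ⌊y t * k⌋ :=
    measurable_pi_lambda _ fun t => Measurable.floor (by fun_prop)
  have hz : Measurable z := (m1.comp hbm).prodMk
    (measurable_pi_lambda _ fun j => m2.comp ((measurable_pi_apply j).comp hfm))
  have hzS : ∀ ω, z ω ∈ S := fun ω => by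
    obtain ⟨b1, b2⟩ := abs_le.1 (hsb ω)
    refine (hS _).2 ⟨⟨?_, Int.ceil_le.2 (by push_cast; nlinarith)⟩, fun j t => ?_⟩
    · have : ((1 - k : ℤ) : ℝ) ≤ (⌈-(s * b ω) * k⌉ : ℤ) :=
        le_trans (by push_cast; nlinarith) (Int.le_ceil _)
      exact_mod_cast this
    · obtain ⟨y1, y2⟩ := abs_le.1 (hf ω j t)
      refine ⟨Int.le_floor.2 (by push_cast; nlinarith), ?_⟩
      have : ((⌊f ω j t * k⌋ : ℤ) : ℝ) ≤ (k : ℤ) :=
        (Int.floor_le _).trans (by push_cast; nlinarith)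
      exact_mod_cast this
  have hq' : ∀ t : Θ × S, MeasurableSet ((fun ω => (q ω, (⟨z ω, hzS ω⟩ : S))) ⁻¹' {t}) := fun t => by
    have e : (fun ω => (q ω, (⟨z ω, hzS ω⟩ : S))) ⁻¹' {t} = q ⁻¹' {t.1} ∩ z ⁻¹' {t.2.1} :=
      Set.ext fun ω => Prod.ext_iff.trans (and_congr Iff.rfl Subtype.ext_iff)
    rw [e]
    exact (hq _).inter (hz (measurableSet_singleton _))
  have hb' : ∀ t : Θ × S, |-(t.2.1.1 / k : ℝ)| < 1 := fun t => by
    obtain ⟨a1, a2⟩ := ((hS _).1 t.2.2).1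
    have a3 : |t.2.1.1| < k := abs_lt.2 ⟨by omega, by omega⟩
    rw [abs_neg, abs_div, abs_of_pos k1, div_lt_one k1]
    exact_mod_cast a3
  have hf' : ∀ (t : Θ × S) j u, |(t.2.1.2 j u / k : ℝ)| ≤ 1 := fun t j u => by
    have a3 : |t.2.1.2 j u| ≤ k := abs_le.2 (((hS _).1 t.2.2).2 j u)
    rw [abs_div, abs_of_pos k1, div_le_one k1]
    exact_mod_cast a3
  refine ⟨Θ × S, inferInstance, fun ω => (q ω, ⟨z ω, hzS ω⟩),
    fun t σ => α t.1 + discPsi (-(t.2.1.1 / k : ℝ), fun j u => (t.2.1.2 j u / k : ℝ)) σ,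
    fun t => Real.exp (α t.1) / (1 + -(t.2.1.1 / k : ℝ) * ∏ j, (t.2.1.2 j true / k : ℝ)),
    fun t => -(t.2.1.1 / k : ℝ), fun t j u => (t.2.1.2 j u / k : ℝ), hq',
    ⟨fun t σ => ?_, fun t => div_pos (Real.exp_pos _) (disc_pos (hb' t) (hf' t) fun _ => true),
      hb', hf', fun n hn => ?_, fun φ ψ => ?_⟩, ?_⟩
  · rw [discPsi, Real.exp_add, Real.exp_sub, Real.exp_log (disc_pos (hb' t) (hf' t) σ),
      Real.exp_log (disc_pos (hb' t) (hf' t) fun _ => true)]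
    ring
  · obtain ⟨i2, e3⟩ := disc_sum (P := P) hq' fun t => (- -(t.2.1.1 / k : ℝ)) ^ n
    rw [e3]
    rcases n.even_or_odd with h | h
    · exact integral_nonneg fun ω => h.pow_nonneg _
    have i3 : Integrable (fun ω => (-b ω) ^ n) P :=
      (integrable_const (1 : ℝ)).mono' (hbm.neg.pow_const n).aestronglyMeasurable
        (Filter.Eventually.of_forall fun ω => by
          rw [norm_pow, norm_neg]
          exact pow_le_one₀ (norm_nonneg _) (hb ω).le)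
    refine (mul_nonneg (pow_nonneg s0 n) (h4 n hn)).trans ?_
    rw [← integral_const_mul]
    refine integral_mono (i3.const_mul _) i2 fun ω => ?_
    dsimp only
    rw [← mul_pow, neg_neg, h.pow_le_pow, le_div_iff₀ k1, mul_neg]
    exact Int.le_ceil _
  · have m3 : Measurable fun x : ℝ => φ (-(⌈-(s * x) * k⌉ / k : ℝ)) :=
      (measurable_of_countable fun i : ℤ => φ (-(i / k : ℝ))).comp m1
    have m4 : ∀ j, Measurable fun y : Bool → ℝ => ψ j fun u => (⌊y u * k⌋ / k : ℝ) := fun j =>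
      (measurable_of_countable fun i : Bool → ℤ => ψ j fun u => (i u / k : ℝ)).comp m2
    have m5 : Measurable fun y : Fin K → Bool → ℝ => ∏ j, ψ j fun u => (⌊y j u * k⌋ / k : ℝ) :=
      Finset.measurable_prod _ fun j _ => (m4 j).comp (measurable_pi_apply j)
    simp only [(disc_sum hq' _).2]
    refine (h3.integral_fun_comp_mul_comp hbm.aemeasurable hfm.aemeasurable
      m3.aestronglyMeasurable m5.aestronglyMeasurable).trans (congrArg _ ?_)
    refine (h1.integral_fun_prod_comp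
      (fun j => ((measurable_pi_apply j).comp hfm).aemeasurable)
      fun j => (m4 j).aestronglyMeasurable).trans (prod_congr rfl fun j _ => ?_)
    exact ((h2 j j₀).comp (m4 j)).integral_eq
  · refine (integral_mono_of_nonneg (Filter.Eventually.of_forall fun ω => norm_nonneg _)
      ((i0.add i1).add (integrable_const (δ / 3))) (Filter.Eventually.of_forall fun ω => ?_)).trans ?_
    · have h5 := e2 _ _ (hsb ω) (hf ω)
      refine (pi_norm_le_iff_of_nonneg (add_nonneg (add_nonneg (norm_nonneg _) (norm_nonneg _))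
        hδ3.le)).2 fun σ => ?_
      have h6 := (norm_le_pi_norm _ σ).trans h5
      have h7 := norm_le_pi_norm (discPsi (b ω, f ω) - discPsi (s * b ω, f ω)) σ
      rw [Pi.sub_apply] at h6 h7 ⊢
      rw [hθe, add_sub_add_comm, ← sub_add_sub_cancel (discPsi _ σ) (discPsi (s * b ω, f ω) σ),
        ← add_assoc]
      exact norm_add₃_le.trans (add_le_add (add_le_add le_rfl h7) h6)
    · rw [integral_add' (i0.add i1) (integrable_const _), integral_add' i0 i1, integral_const,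
        probReal_univ, one_smul]
      linarith

end Vale.Agent.P168
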