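import Vale.Agent.P168.JetG
import Vale.Agent.P168.TDl

/-! Computation of the jets for the species adapted to a tree. -/

namespace Vale.Agent.P168

open Finset

variable {L : Type} [Fintype L] [DecidableEq L]

namespace JetCAux

section
omit [Fintype L]
variable {g : L → ℕ → ℕ} {D b b' : Finset L} {d : ℕ}

theorem mem_blk : b ∈ blk g D d ↔ ∃ l ∈ D, b = D.filter fun x => g x d = g l d := by
  simp only [blk, mem_image]
  constructor
  · rintro ⟨_, ⟨l, hl, rfl⟩, rfl⟩
    exact ⟨l, hl, rfl⟩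
  · rintro ⟨l, hl, rfl⟩
    exact ⟨_, ⟨l, hl, rfl⟩, rfl⟩

theorem blk_nonempty (h : b ∈ blk g D d) : b.Nonempty := by
  obtain ⟨l, hl, rfl⟩ := mem_blk.1 h
  exact ⟨l, mem_filter.2 ⟨hl, rfl⟩⟩

theorem blk_disjoint (h : b ∈ blk g D d) (h' : b' ∈ blk g D d) (hne : b ≠ b') : Disjoint b b' := by
  obtain ⟨l, hl, rfl⟩ := mem_blk.1 h
  obtain ⟨l', hl', rfl⟩ := mem_blk.1 h'
  refine disjoint_left.2 fun x hx hx' => hne ?_
  rw [← (mem_filter.1 hx).2, ← (mem_filter.1 hx').2]

theorem blk_filter (hg : Nest g) (h : b ∈ blk g D d) :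
    (blk g D (d + 1)).filter (· ⊆ b) = blk g b (d + 1) := by
  obtain ⟨l₀, hl₀, rfl⟩ := mem_blk.1 h
  have key : ∀ l, g l d = g l₀ d → (D.filter fun x => g x d = g l₀ d).filter
      (fun x => g x (d + 1) = g l (d + 1)) = D.filter fun x => g x (d + 1) = g l (d + 1) := by
    intro l hl
    ext x
    simp only [mem_filter]
    exact ⟨fun h => ⟨h.1.1, h.2⟩, fun h => ⟨⟨h.1, (hg x l d h.2).trans hl⟩, h.2⟩⟩
  ext b'
  simp only [mem_filter, mem_blk]
  constructor
  · rintro ⟨⟨l, hl, rfl⟩, hs⟩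
    have h1 := mem_filter.1 (hs (mem_filter.2 ⟨hl, rfl⟩))
    exact ⟨l, h1, (key l h1.2).symm⟩
  · rintro ⟨l, hl, rfl⟩
    exact ⟨⟨l, hl.1, key l hl.2⟩, filter_subset _ _⟩

theorem prod_blk (F : Finset L → ℝ) : ∏ b ∈ blk g D d, F b =
    ∏ c ∈ D.image fun l => g l d, F (D.filter fun l => g l d = c) := by
  refine prod_image fun c hc c' _ h => ?_
  obtain ⟨l, hl, rfl⟩ := mem_image.1 hc
  have h1 : l ∈ D.filter fun x => g x d = g l d := mem_filter.2 ⟨hl, rfl⟩
  exact (mem_filter.1 (h.subset h1)).2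

theorem blk_subset (h : b ∈ blk g D d) : b ⊆ D := by
  obtain ⟨l, hl, rfl⟩ := mem_blk.1 h
  exact filter_subset _ _

end

theorem fac_choose (a : ℝ) (p : ℕ) :
    (p.factorial : ℝ) * Ring.choose a p = ∏ j ∈ range p, (a - j) := by
  rw [← nsmul_eq_mul, ← Ring.descPochhammer_eq_factorial_smul_choose, ← Polynomial.aeval_eq_smeval,
    Polynomial.aeval_def, ← Polynomial.eval_map, descPochhammer_map,
    descPochhammer_eval_eq_prod_range]

theorem fac_choose_ne {a : ℝ} (h0 : 0 < a) (h1 : a < 1) (p : ℕ) :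
    (p.factorial : ℝ) * Ring.choose a p ≠ 0 := by
  rw [fac_choose]
  refine prod_ne_zero_iff.2 fun j _ => ?_
  rcases Nat.eq_zero_or_pos j with rfl | hj
  · simpa using h0.ne'
  · have : (1 : ℝ) ≤ j := by exact_mod_cast hj
    exact (sub_neg.2 (h1.trans_le this)).ne

theorem exists_lower {X : Type*} (s : Finset X) {F : X → ℝ} (h : ∀ x ∈ s, F x ≠ 0) :
    ∃ c : ℝ, 0 < c ∧ c ≤ 1 ∧ ∀ x ∈ s, c ≤ |F x| := by
  classical
  induction s using Finset.induction_on with
  | empty => exact ⟨1, one_pos, le_rfl, by simp⟩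
  | insert a s _ ih =>
    obtain ⟨c, h0, h1, h2⟩ := ih fun x hx => h x (mem_insert_of_mem hx)
    refine ⟨min c |F a|, lt_min h0 (abs_pos.2 (h a (mem_insert_self _ _))),
      (min_le_left _ _).trans h1, fun x hx => ?_⟩
    rcases mem_insert.1 hx with rfl | hx
    · exact min_le_right _ _
    · exact (min_le_left _ _).trans (h2 x hx)

theorem ex_mm {R d : ℕ} (h1 : 1 ≤ d) (h2 : d < R) : 0 < ex (mm R) d ∧ ex (mm R) d < 1 := by
  have hR : (0 : ℝ) < R := by exact_mod_cast (by omega : 0 < R)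
  have hd : (0 : ℝ) < d := by exact_mod_cast h1
  rw [ex, mm, mm, min_eq_left h2.le, min_eq_left (Nat.succ_le_of_lt h2)]
  refine ⟨by positivity, (div_lt_one (by positivity)).2 (div_lt_div_of_pos_right ?_ hR)⟩
  exact_mod_cast Nat.lt_succ_self d

omit [DecidableEq L] in
theorem gam_le_one : gam L ≤ 1 := by
  rw [gam, div_le_one (by positivity)]
  have : (0 : ℝ) ≤ 2 ^ Fintype.card L := by positivity
  linarith

theorem kap_single_ne {D B : Finset L} (h : kap (rho1 {D}) B ≠ 0) : B = ∅ ∨ B = D := by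
  rw [kap_rho1] at h
  by_contra hcon
  rw [not_or] at hcon
  exact h (by rw [if_neg hcon.1, if_neg (by simpa using hcon.2)])

theorem kap_single {D : Finset L} (hD : D.Nonempty) : kap (rho1 {D}) D = gam L := by
  rw [kap_rho1, if_neg hD.ne_empty, if_pos (mem_singleton_self _)]

theorem w2_empty (f f' : L → ℝ) : w2 f f' ∅ = 1 := by
  have h1 : (∅ : Finset (L ⊕ L)).toLeft = ∅ := rfl
  have h2 : (∅ : Finset (L ⊕ L)).toRight = ∅ := rfl
  rw [w2, h1, h2, w1_empty, w1_empty, mul_one]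

end JetCAux

open JetCAux

omit [Fintype L] in
theorem blk_mer {g : L → ℕ → ℕ} {D : Finset L} {d : ℕ} (hD : D.Nonempty) (h : Mer g D d) :
    blk g D d = {D} := by
  have key : ∀ l ∈ D, (D.filter fun x => g x d = g l d) = D := fun l hl =>
    filter_true_of_mem fun x hx => h x hx l hl
  ext b
  rw [mem_blk, mem_singleton]
  constructor
  · rintro ⟨l, hl, rfl⟩
    exact key l hl
  · rintro rfl
    obtain ⟨l, hl⟩ := hD
    exact ⟨l, hl, (key l hl).symm⟩

theorem JJ'_blk {ι Ω : Type} [Fintype ι] [DecidableEq ι] [Fintype Ω] (C : Casc Ω) {m : ℕ → ℝ}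
    {ρ : ℕ → (ι → Bool) → ℝ} {wj : Ω → Finset ι → ℝ} {R : ℕ} (e : L ↪ ι) {g : L → ℕ → ℕ}
    {D : Finset L} {f : L → Ω → ℝ} (hg : Nest g)
    (hinj : ∀ l ∈ D, ∀ l' ∈ D, g l R = g l' R → l = l') (hm : ex m R = 1)
    (hρ : ∀ d, ∑ s, ρ d s = 1)
    (hk : ∀ d ≤ R, ∀ b, kap (ρ d) (b.map e) = kap (rho1 (blk g D d)) b)
    (hw : ∀ ω b, wj ω (b.map e) = w1 (fun q => f q ω) b) {d : ℕ} (hd : d ≤ R) {b : Finset L}
    (hb : b ∈ blk g D d) (ω : Ω) :
    C.JJ' m ρ wj R d ω (b.map e) = Kc m (blk g D) (R - d) d b * C.TD g f R d b ω := by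
  have hw0 : ∀ ω, wj ω ∅ = 1 := fun ω => by
    have := hw ω ∅
    rwa [map_empty, w1_empty] at this
  have hγ : ∀ d ≤ R, ∀ b ∈ blk g D d, kap (ρ d) (b.map e) = gam L := fun d hd b hb => by
    rw [hk d hd, kap_rho1, if_neg (blk_nonempty hb).ne_empty, if_pos hb]
  refine down_ind (P := fun d => ∀ b ∈ blk g D d, ∀ ω,
    C.JJ' m ρ wj R d ω (b.map e) = Kc m (blk g D) (R - d) d b * C.TD g f R d b ω)
    (fun b hb ω => ?_) (fun d hd ih b hb ω => ?_) d hd b hb ω
  · rw [Casc.JJ', hγ R le_rfl b hb, hm, Casc.JJ_top, powj_one (hw0 ω), hw, Nat.sub_self,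
      C.TD_ge le_rfl]
    obtain ⟨l, hl, rfl⟩ := mem_blk.1 hb
    have e1 : (D.filter fun x => g x R = g l R) = {l} := by
      ext x
      rw [mem_filter, mem_singleton]
      exact ⟨fun h => hinj x h.1 l hl h.2, fun h => by rw [h]; exact ⟨hl, rfl⟩⟩
    rw [e1, w1_single, prod_singleton, Kc]
  · have hinj' : Function.Injective fun b : Finset L => b.map e := map_injective e
    have hp := powj_blocks (ex m d) (c := C.JJ m ρ wj R d ω) (C.JJ_empty hρ hw0 ω)
      (D := b.map e) (𝓑 := (blk g b (d + 1)).image fun b' => b'.map e)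
      (fun B hB => by
        obtain ⟨b', hb', rfl⟩ := mem_image.1 hB
        exact (blk_nonempty hb').map)
      (fun B hB B' hB' hne => by
        obtain ⟨b₁, hb₁, rfl⟩ := mem_image.1 hB
        obtain ⟨b₂, hb₂, rfl⟩ := mem_image.1 hB'
        exact (disjoint_map e).2 (blk_disjoint hb₁ hb₂ fun h => hne (by rw [h])))
      (by
        ext y
        simp only [mem_biUnion, mem_image, id]
        constructor
        · rintro ⟨_, ⟨b', hb', rfl⟩, hy⟩
          exact map_subset_map.2 (blk_subset hb') hy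
        · intro hy
          obtain ⟨l, hl, rfl⟩ := mem_map.1 hy
          exact ⟨_, ⟨_, mem_blk.2 ⟨l, hl, rfl⟩, rfl⟩, mem_map_of_mem e (mem_filter.2 ⟨hl, rfl⟩)⟩)
      (fun B hB hne hB' => by
        obtain ⟨b', hb', rfl⟩ := subset_map_iff.1 hB
        have h1 : b' ∉ blk g D (d + 1) := fun h => hB' (mem_image_of_mem _
          (blk_filter hg hb ▸ mem_filter.2 ⟨h, hb'⟩))
        have h2 : kap (ρ (d + 1)) (b'.map e) = 0 := by
          rw [hk (d + 1) hd, kap_rho1, if_neg (map_nonempty.1 hne).ne_empty, if_neg h1]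
        rw [C.JJ_lt hd]
        simp only [Casc.JJ', h2, zero_mul, Casc.E_const])
    have hJ : ∀ b' ∈ blk g b (d + 1), C.JJ m ρ wj R d ω (b'.map e) =
        Kc m (blk g D) (R - (d + 1)) (d + 1) b' * C.E d (C.TD g f R (d + 1) b') ω := by
      intro b' hb'
      have h1 : b' ∈ blk g D (d + 1) := (mem_filter.1 (blk_filter hg hb ▸ hb')).1
      rw [C.JJ_lt hd, ← C.E_const_mul]
      simp only [ih b' h1]
    rw [Casc.JJ', hγ d hd.le b hb, hp, card_image_of_injective _ hinj',
      prod_image fun _ _ _ _ h => hinj' h, prod_congr rfl hJ, prod_mul_distrib,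
      show R - d = R - (d + 1) + 1 by omega, Kc, blk_filter hg hb, C.TD_lt hd,
      prod_blk fun b' => C.E d (C.TD g f R (d + 1) b') ω]
    ring

theorem Kc_chain {m : ℕ → ℝ} {π : ℕ → Finset (Finset L)} {k d : ℕ} {D : Finset L}
    (h : π (d + 1) = {D}) : Kc m π (k + 1) d D = gam L * ex m d * Kc m π k (d + 1) D := by
  have e : ({D} : Finset (Finset L)).filter (· ⊆ D) = {D} :=
    filter_true_of_mem fun x hx => (mem_singleton.1 hx).subset
  rw [Kc, h, e, card_singleton, prod_singleton, Ring.choose_one_right, Nat.factorial_one,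
    Nat.cast_one, one_mul]

theorem Kc_lower (L : Type) [Fintype L] [DecidableEq L] (R : ℕ) : ∃ κ : ℝ, 0 < κ ∧
    ∀ (π : ℕ → Finset (Finset L)) (d : ℕ) (b : Finset L), 1 ≤ d → d ≤ R →
      κ ≤ |Kc (mm R) π (R - d) d b| := by
  obtain ⟨c, c0, c1, hc⟩ := exists_lower (Ico 1 R ×ˢ range (Fintype.card (Finset L) + 1))
    (F := fun x => (x.2.factorial : ℝ) * Ring.choose (ex (mm R) x.1) x.2) fun x hx => by
      have h := mem_Ico.1 (mem_product.1 hx).1
      exact fac_choose_ne (ex_mm h.1 h.2).1 (ex_mm h.1 h.2).2 _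
  have g0 := gam_pos (L := L)
  have g1 := gam_le_one (L := L)
  have key : ∀ n : ℕ, ∃ κ : ℝ, 0 < κ ∧ κ ≤ gam L ∧ ∀ k ≤ n, ∀ (π : ℕ → Finset (Finset L)) (d : ℕ)
      (b : Finset L), 1 ≤ d → d + k ≤ R → κ ≤ |Kc (mm R) π k d b| := by
    intro n
    induction n with
    | zero =>
      refine ⟨gam L, g0, le_rfl, fun k hk π d b _ _ => ?_⟩
      rw [Nat.le_zero.1 hk, Kc, abs_of_pos g0]
    | succ n ih =>
      obtain ⟨κ, k0, k1, hκ⟩ := ih
      have k2 : κ ^ Fintype.card (Finset L) ≤ 1 := pow_le_one₀ k0.le (k1.trans g1)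
      have k3 : gam L * c * κ ^ Fintype.card (Finset L) ≤ gam L := by
        rw [mul_assoc]
        exact mul_le_of_le_one_right g0.le (mul_le_one₀ c1 (by positivity) k2)
      refine ⟨gam L * c * κ ^ Fintype.card (Finset L), by positivity, k3,
        fun k hk π d b hd hR => ?_⟩
      rcases k with _ | k
      · rwa [Kc, abs_of_pos g0]
      · have hp := card_le_univ ((π (d + 1)).filter (· ⊆ b))
        rw [Kc, abs_mul, abs_mul, abs_of_pos g0, abs_prod]
        refine mul_le_mul (mul_le_mul_of_nonneg_left (hc (d, _) (mem_product.2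
          ⟨mem_Ico.2 ⟨hd, by omega⟩, mem_range.2 (Nat.lt_succ_of_le hp)⟩)) g0.le) ?_
          (by positivity) (by positivity)
        refine (pow_le_pow_of_le_one k0.le (k1.trans g1) hp).trans ?_
        rw [← prod_const]
        exact prod_le_prod (fun _ _ => k0.le) fun b' _ =>
          hκ k (by omega) π (d + 1) b' (by omega) (by omega)
  obtain ⟨κ, k0, -, hκ⟩ := key R
  exact ⟨κ, k0, fun π d b h1 h2 => hκ _ (Nat.sub_le _ _) π d b h1 (by omega)⟩

section
variable {Ω : Type} [Fintype Ω] (C : Casc Ω) {m : ℕ → ℝ} {R : ℕ}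
  {π : Fin (R + 1) → Finset (Finset L)} {f f' : L → Ω → ℝ} {D : Finset L}

/-- one step along a chain, for a pair of test fields -/
theorem JJ'_pair (hD : D.Nonempty) {d : ℕ} (hd : d < R) (h1 : π (lv R d) = {D})
    (h2 : π (lv R (d + 1)) = {D}) (ω : Ω) :
    C.JJ' m (rho2 π π) (fun x => w2 (fun q => f q x) fun q => f' q x) R d ω (D.disjSum D) =
      gam L ^ 2 * (ex m d *
        C.JJ m (rho2 π π) (fun x => w2 (fun q => f q x) fun q => f' q x) R d ω (D.disjSum D) +
      ex m d * (ex m d - 1) *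
        (C.JJ m (rho2 π π) (fun x => w2 (fun q => f q x) fun q => f' q x) R d ω
          (D.map Function.Embedding.inl) *
        C.JJ m (rho2 π π) (fun x => w2 (fun q => f q x) fun q => f' q x) R d ω
          (D.map Function.Embedding.inr))) := by
  have e : D.map Function.Embedding.inl ∪ D.map Function.Embedding.inr = D.disjSum D := by
    rw [← map_inl_disjUnion_map_inr, disjUnion_eq_union]
  have hp := powj_four (ex m d)
    (c := C.JJ m (rho2 π π) (fun x => w2 (fun q => f q x) fun q => f' q x) R d ω)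
    (C.JJ_empty (fun d => (prob_rho2 π π d).2) (fun _ => w2_empty _ _) ω)
    (A := D.map Function.Embedding.inl) (A' := D.map Function.Embedding.inr) hD.map hD.map
    (disjoint_map_inl_map_inr D D) (fun B _ hne hA hA' hAA => by
      have h3 : kap (rho2 π π (d + 1)) B = 0 := by
        by_contra h
        rw [kap_rho2, h2] at h
        have hB := toLeft_disjSum_toRight (u := B)
        rcases kap_single_ne (left_ne_zero_of_mul h) with hl | hl <;>
          rcases kap_single_ne (right_ne_zero_of_mul h) with hr | hr <;> rw [hl, hr] at hB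
        · exact hne.ne_empty (hB.symm.trans (disjSum_eq_empty.2 ⟨rfl, rfl⟩))
        · exact hA' (hB.symm.trans (empty_disjSum D))
        · exact hA (hB.symm.trans (disjSum_empty D))
        · exact hAA (hB.symm.trans e.symm)
      rw [C.JJ_lt hd]
      simp only [Casc.JJ', h3, zero_mul, Casc.E_const])
  rw [e] at hp
  rw [Casc.JJ', hp, kap_rho2, toLeft_disjSum, toRight_disjSum, h1, kap_single hD, sq]

theorem JJ'_pair_top (hm : ex m R = 1) {q : L} (h : π (lv R R) = {{q}}) (ω : Ω) :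
    C.JJ' m (rho2 π π) (fun x => w2 (fun q => f q x) fun q => f' q x) R R ω
      (({q} : Finset L).disjSum {q}) = gam L ^ 2 * (f q ω * f' q ω) := by
  rw [Casc.JJ', hm, Casc.JJ_top, powj_one (w2_empty _ _), kap_rho2, toLeft_disjSum,
    toRight_disjSum, h, kap_single (singleton_nonempty q), w2, toLeft_disjSum, toRight_disjSum,
    w1_single, w1_single, sq]

end

end Vale.Agent.P168
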