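import Vale.Agent.P168.SysPin
import Vale.Agent.P168.JetC

/-! Vanishing of the intermediate variances. -/

namespace Vale.Agent.P168

open Finset

theorem ee_sq {θ c X x : ℝ} {N : ℕ} (h0 : 0 ≤ θ) (h1 : θ ≤ 1)
    (h : |X - θ ^ N * x| ≤ c * θ ^ (N + 1)) (hx : |x| ≤ c) :
    |X ^ 2 - θ ^ (N + N) * x ^ 2| ≤ 3 * c ^ 2 * θ ^ (N + N + 1) := by
  have hc : 0 ≤ c := (abs_nonneg _).trans hx
  have hp : 0 ≤ θ ^ N := pow_nonneg h0 N
  have h2 : |X + θ ^ N * x| ≤ 3 * c * θ ^ N := by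
    have h3 : |θ ^ N * x| ≤ θ ^ N * c := by
      rw [abs_mul, abs_of_nonneg hp]
      exact mul_le_mul_of_nonneg_left hx hp
    have h4 : c * θ ^ (N + 1) ≤ c * θ ^ N :=
      mul_le_mul_of_nonneg_left (pow_le_pow_of_le_one h0 h1 N.le_succ) hc
    rw [abs_le] at h h3 ⊢
    constructor <;> linarith [h.1, h.2, h3.1, h3.2]
  calc |X ^ 2 - θ ^ (N + N) * x ^ 2| = |X - θ ^ N * x| * |X + θ ^ N * x| := by
        rw [← abs_mul]
        congr 1
        ring
    _ ≤ c * θ ^ (N + 1) * (3 * c * θ ^ N) := mul_le_mul h h2 (abs_nonneg _) (by positivity)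
    _ = _ := by ring

theorem ee_n1 {p X Y x y e c θ ε : ℝ} (hp : 0 < p) (h1 : X - e ≤ Y) (h2 : Y ≤ p * (y + c * θ))
    (h3 : -(3 * c ^ 2 * (p * θ)) ≤ X - p * x) (h4 : e ≤ p * θ) (h5 : (3 * c ^ 2 + c + 1) * θ ≤ ε) :
    x - ε ≤ y := by
  refine le_of_mul_le_mul_left ?_ hp
  have := mul_le_mul_of_nonneg_left h5 hp.le
  linarith

theorem ee_n2 {p X Y x y e c θ ε : ℝ} (hp : 0 < p) (h1 : Y ≤ X + e) (h2 : p * (y - c * θ) ≤ Y)
    (h3 : X ≤ p * x + 3 * c ^ 2 * (p * θ)) (h4 : e ≤ p * θ) (h5 : (3 * c ^ 2 + c + 1) * θ ≤ ε) :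
    y ≤ x + ε := by
  refine le_of_mul_le_mul_left ?_ hp
  have := mul_le_mul_of_nonneg_left h5 hp.le
  linarith

theorem ee_avg {I : Type} [Fintype I] {a A J : I → ℝ} (ha : Cube a) {s b : ℝ} (hb : 0 ≤ b)
    (h : ∀ i, |A i - s * J i| ≤ b) :
    |(avg fun i => a i * A i) - s * avg fun i => a i * J i| ≤ b := by
  rw [← avg_const_mul, ← avg_sub]
  refine abs_avg_le_of hb fun i => ?_
  rw [show a i * A i - s * (a i * J i) = a i * (A i - s * J i) by ring, abs_mul]
  exact (mul_le_mul (ha i) (h i) (abs_nonneg _) zero_le_one).trans_eq (one_mul b)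

section
variable {L : Type} [Fintype L] [DecidableEq L] {R : ℕ} {I : Type} [Fintype I]

/-- the test function extracting the jet of order `D` -/
noncomputable def eeV (a : I → ℝ) (π : Fin (R + 1) → Finset (Finset L)) (τ : L → Bool)
    (D : Finset L) (x : I × Sp L R) : ℝ :=
  a x.1 * (Fintype.card (Sp L R) *
    if x.2.1 = π ∧ x.2.2.1 = τ ∧ x.2.2.2 ⊆ D then (-1) ^ (D.card - x.2.2.2.card) else 0)

omit [Fintype I] in
theorem abs_eeV {a : I → ℝ} (ha : Cube a) (π : Fin (R + 1) → Finset (Finset L)) (τ : L → Bool)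
    (D : Finset L) (x : I × Sp L R) : |eeV a π τ D x| ≤ Fintype.card (Sp L R) := by
  rw [eeV, abs_mul, abs_mul, Nat.abs_cast]
  refine (mul_le_mul (ha _) (mul_le_of_le_one_right (Nat.cast_nonneg _) ?_) (by positivity)
    zero_le_one).trans_eq (one_mul _)
  split_ifs <;> simp

theorem avg_eeV (a : I → ℝ) (π : Fin (R + 1) → Finset (Finset L)) (τ : L → Bool)
    (D : Finset L) (F : I × Sp L R → ℝ) :
    (avg fun x => eeV a π τ D x * F x) = avg fun i => a i * alt D fun B => F (i, π, τ, B) := by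
  rw [avg_prod]
  congr 1
  funext i
  have h : (Fintype.card (Sp L R) : ℝ) ≠ 0 := by exact_mod_cast Fintype.card_ne_zero
  simp only [eeV, mul_assoc, avg_const_mul]
  congr 1
  rw [avg, mul_div_cancel₀ _ h, Fintype.sum_prod_type, sum_eq_single π, Fintype.sum_prod_type,
    sum_eq_single τ, alt, ← sum_subset (subset_univ D.powerset)]
  · exact sum_congr rfl fun B hB => by simp [mem_powerset.1 hB]
  · intro B _ hB
    simp [mt mem_powerset.2 hB]
  · intro τ' _ h
    simp [h]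
  · simp
  · intro π' _ h
    simp [h]
  · simp

end

/-- the two pinning inequalities at the level of jets -/
def EEP {Ω L I : Type} [Fintype Ω] [Fintype L] [DecidableEq L] [Fintype I] (C : Casc Ω) (R : ℕ)
    (f : I → L → Ω → ℝ) (ε : ℝ) : Prop :=
  ∀ (π : Fin (R + 1) → Finset (Finset L)) (D : Finset L) (a : I → ℝ) (i₀ : I) (j : ℕ) (ω : Ω),
    Cube a → j < R →
    (avg fun i => a i * C.JJ (mm R) (rho2 π π) (fun x => w2 (fun q => f i q x) fun q => f i₀ q x)
        R j ω (D.map Function.Embedding.inl)) ^ 2 - ε ≤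
      (avg fun i => a i * avg fun i' => a i' * C.JJ (mm R) (rho2 π π)
        (fun x => w2 (fun q => f i q x) fun q => f i' q x) R j ω (D.disjSum D)) ∧
    (avg fun i => a i * avg fun i' => a i' * C.JJ (mm R) (rho2 π π)
        (fun x => w2 (fun q => f i q x) fun q => f i' q x) R j ω (D.disjSum D)) ≤
      C.E j (fun y => (avg fun i => a i * C.JJ' (mm R) (rho2 π π)
        (fun x => w2 (fun q => f i q x) fun q => f i₀ q x) R (j + 1) y
        (D.map Function.Embedding.inl)) ^ 2) ω + ε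

theorem ee_pin (L : Type) [Fintype L] [DecidableEq L] (R : ℕ) {ε : ℝ} (hε : 0 < ε) :
    ∃ (θ : ℝ) (t : ℕ), 0 ≤ θ ∧ θ * Fintype.card L ≤ 1 / 2 ∧
      ∀ (Sg I : Type) [Fintype Sg] [Fintype I] (ev : Sg → I → Bool) (H : Sg → ℝ) (τ : L → Bool),
        EEP (tsys L R t θ ev H) R (fun i l ω => ind (ev ω.1 i) (τ l)) ε := by
  obtain ⟨c, θ₀, hθ₀, hJ⟩ := jetG (L ⊕ L) (mm R) R
  set n := Fintype.card L with hn
  obtain ⟨θ, h0, h1, h2, h3, h4⟩ : ∃ θ : ℝ, 0 < θ ∧ θ ≤ 1 ∧ θ ≤ θ₀ ∧ θ * n ≤ 1 / 2 ∧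
      (3 * c ^ 2 + |c| + 1) * θ ≤ ε := by
    refine ⟨min (min 1 θ₀) (min (1 / (2 * n + 2)) (ε / (3 * c ^ 2 + |c| + 1))), by positivity,
      (min_le_left _ _).trans (min_le_left _ _), (min_le_left _ _).trans (min_le_right _ _), ?_, ?_⟩
    · refine (mul_le_mul_of_nonneg_right ((min_le_right _ _).trans (min_le_left _ _))
        (Nat.cast_nonneg n)).trans ?_
      rw [div_mul_eq_mul_div, div_le_div_iff₀ (by positivity) (by positivity)]
      linarith
    · refine (mul_le_mul_of_nonneg_left ((min_le_right _ _).trans (min_le_right _ _))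
        (by positivity)).trans_eq (mul_div_cancel₀ _ (by positivity))
  obtain ⟨t, ht⟩ := sysPin L (Fintype.card (Sp L R)) (ε := θ ^ (n + n + 1)) (by positivity)
  refine ⟨θ, t, h0.le, h3, fun Sg I _ _ ev H τ π D a i₀ j ω ha hj => ?_⟩
  obtain ⟨hP1, hP2⟩ := ht R θ h0.le h3 Sg I ev H j (eeV a π τ D) (i₀, π, τ, ∅) ω hj
    (abs_eeV ha π τ D) rfl
  set C := tsys L R t θ ev H with hC
  set wj : I → I → Om Sg I L R t → Finset (L ⊕ L) → ℝ := fun i i' x =>
    w2 (fun q => ind (ev x.1 i) (τ q)) fun q => ind (ev x.1 i') (τ q) with hwj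
  have hJ' := fun i i' => hJ θ h0.le h2 _ C (rho2 π π) (wj i i') (prob_rho2 π π)
    (fun x E => (abs_mul _ _).trans_le (mul_le_one₀ (abs_w1_le (fun _ => abs_ind _ _) _)
      (abs_nonneg _) (abs_w1_le (fun _ => abs_ind _ _) _)))
    fun x => (congrArg₂ (· * ·) (w1_empty _) (w1_empty _)).trans (one_mul 1)
  have hc : 0 ≤ c := (abs_nonneg _).trans (hJ' i₀ i₀ j hj.le ω ∅).2.2.1
  rw [abs_of_nonneg hc] at h4
  set N := D.card with hN
  have e1 : ∀ F : Finset (L ⊕ L) → ℝ, (alt D fun B => F (B.disjSum ∅)) =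
      alt (D.map Function.Embedding.inl) F := fun F => by
    rw [← disjSum_empty, alt_disjSum]
    simp [alt]
  have e2 : ∀ (X : ℝ) (x : ℝ), |X - θ ^ (N + N) * x| ≤ c * θ ^ (N + N + 1) →
      θ ^ (N + N) * (x - c * θ) ≤ X ∧ X ≤ θ ^ (N + N) * (x + c * θ) := fun X x h => by
    rw [abs_le, pow_succ] at h
    constructor <;> linarith [h.1, h.2]
  have hY : (avg fun x => avg fun x' => eeV a π τ D x * eeV a π τ D x' * G2 θ ev H j x x' ω) =
      avg fun i => a i * avg fun i' => a i' * alt (D.disjSum D) fun B =>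
        C.GG (mm R) (rho2 π π) (wj i i') R j (chi θ B) ω := by
    simp only [mul_assoc, avg_const_mul, avg_eeV, alt_disjSum]
    congr 1
    funext i
    congr 1
    simp only [alt, mul_sum, avg_sum, ← avg_const_mul]
    refine sum_congr rfl fun B _ => sum_congr rfl fun B' _ => congrArg avg (funext fun i' => ?_)
    exact mul_left_comm _ _ _
  have hYb := e2 _ _ (ee_avg ha (by positivity) fun i => ee_avg ha (by positivity) fun i' => by
    simpa only [card_disjSum] using (hJ' i i' j hj.le ω (D.disjSum D)).1)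
  have hb : ∀ (A : I → ℝ), (∀ i, |A i| ≤ c) → |avg fun i => a i * A i| ≤ c := fun A h =>
    abs_avg_le_of hc fun i => by
      rw [abs_mul]
      exact (mul_le_mul (ha i) (h i) (abs_nonneg _) zero_le_one).trans_eq (one_mul c)
  have hp : 0 < θ ^ (N + N) := by positivity
  have hε' : θ ^ (n + n + 1) ≤ θ ^ (N + N) * θ := by
    rw [← pow_succ]
    have : N ≤ n := card_le_univ D
    exact pow_le_pow_of_le_one h0.le h1 (by omega)
  rw [hY] at hP1 hP2
  constructor
  · rw [avg_eeV] at hP1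
    have h5 := ee_sq h0.le h1 (ee_avg ha (by positivity) fun i => by
      simpa only [card_map] using (hJ' i i₀ j hj.le ω (D.map Function.Embedding.inl)).1)
      (hb _ fun i => (hJ' i i₀ j hj.le ω (D.map Function.Embedding.inl)).2.2.1)
    simp only [← e1] at h5
    have h6 := (abs_le.1 h5).1
    rw [pow_succ θ (N + N)] at h6
    exact ee_n1 hp hP1 hYb.2 h6 hε' h4
  · have h5 : ∀ y, (avg fun x => eeV a π τ D x * Gam2 θ ev H (j + 1) x (i₀, π, τ, ∅) y) ^ 2 ≤
        θ ^ (N + N) * (avg fun i => a i * C.JJ' (mm R) (rho2 π π) (wj i i₀) R (j + 1) y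
          (D.map Function.Embedding.inl)) ^ 2 + 3 * c ^ 2 * θ ^ (N + N + 1) := by
      intro y
      have h5 := ee_sq h0.le h1 (ee_avg ha (by positivity) fun i => by
        simpa only [card_map] using (hJ' i i₀ (j + 1) hj y (D.map Function.Embedding.inl)).2.1)
        (hb _ fun i => (hJ' i i₀ (j + 1) hj y (D.map Function.Embedding.inl)).2.2.2)
      simp only [← e1] at h5
      rw [avg_eeV]
      exact sub_le_iff_le_add'.1 (abs_le.1 h5).2
    have h6 := C.E_mono (d := j) h5 ω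
    rw [Casc.E_add, Casc.E_const, Casc.E_const_mul, pow_succ θ (N + N)] at h6
    exact ee_n2 hp hP2 hYb.1 h6 hε' h4

theorem ex_mm {R l : ℕ} (h1 : 1 ≤ l) (h2 : l < R) : 1 / 2 ≤ ex (mm R) l ∧ ex (mm R) l ≤ 1 := by
  have hR : (0 : ℝ) < R := by exact_mod_cast (by omega : 0 < R)
  have hl : (1 : ℝ) ≤ l := by exact_mod_cast h1
  rw [ex, mm_of_le h2.le, mm_of_le h2, div_div_div_cancel_right₀ hR.ne', Nat.cast_succ,
    div_le_div_iff₀ (by positivity) (by positivity), div_le_one (by positivity)]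
  constructor <;> linarith

theorem ee_alg {Ω L I : Type} [Fintype Ω] [Fintype L] [DecidableEq L] [Fintype I] (C : Casc Ω)
    {R : ℕ} {f : I → L → Ω → ℝ} {ε κ : ℝ} (hε : 0 ≤ ε) (hP : EEP C R f ε) (hκ : 0 < κ)
    (hK : ∀ (π : ℕ → Finset (Finset L)) (d : ℕ) (b : Finset L), 1 ≤ d → d ≤ R →
      κ ≤ |Kc (mm R) π (R - d) d b|) {g : L → ℕ → ℕ} {D₀ : Finset L} (hg : Nest g)
    (hinj : ∀ l ∈ D₀, ∀ l' ∈ D₀, g l R = g l' R → l = l') :
    C.HypE g f R D₀ (4 * ε / (gam L ^ 2 * κ ^ 2)) := by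
  intro D hD hne j d hj hd hM a ha ω
  have hγ : 0 < gam L := gam_pos
  have hγ1 : gam L ≤ 1 := by
    rw [gam, div_le_one (by positivity)]
    linarith [pow_pos (two_pos : (0 : ℝ) < 2) (Fintype.card L)]
  rcases isEmpty_or_nonempty I with _ | ⟨⟨i₀⟩⟩
  · have h0 : C.hh g f R (d + 1) D a = fun _ => 0 := funext fun _ => by simp [Casc.hh, avg]
    have h1 : C.vr d (fun _ => 0) = fun _ => 0 := funext fun _ => by simp [Casc.vr]
    rw [h0, h1, Casc.E_const]
    positivity
  have hM' : ∀ l ≤ min (d + 2) R, Mer g D l := fun l hl x hx y hy => hg.le hl (hM x hx y hy)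
  have hex : ex (mm R) R = 1 := by
    rw [ex, mm_of_ge (by omega) le_rfl, mm_of_ge (by omega) R.le_succ, div_one]
  set π : Fin (R + 1) → Finset (Finset L) := fun l => blk g D l with hπ
  have hπ' : ∀ l ≤ R, π (lv R l) = blk g D l := fun l hl => by rw [hπ]; simp only [lv_val hl]
  set wj : I → I → Ω → Finset (L ⊕ L) → ℝ := fun i i' x =>
    w2 (fun q => f i q x) fun q => f i' q x with hwj
  set K : ℕ → ℝ := fun l => Kc (mm R) (blk g D) (R - l) l D with hKd
  have hb : ∀ l ≤ min (d + 2) R, blk g D l = {D} := fun l hl => blk_mer hne (hM' l hl)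
  have hρ : ∀ l, ∑ s, rho2 π π l s = 1 := fun l => (prob_rho2 π π l).2
  have hi : ∀ l ∈ D, ∀ l' ∈ D, g l R = g l' R → l = l' := fun l h l' h' => hinj l (hD h) l' (hD h')
  have hL : ∀ i i', ∀ l ≤ min (d + 2) R, ∀ y, C.JJ' (mm R) (rho2 π π) (wj i i') R l y
      (D.map Function.Embedding.inl) = K l * C.TD g (f i) R l D y := fun i i' l hl y =>
    JJ'_blk C _ hg hi hex hρ (fun e he b => by
        simp [← disjSum_empty, kap_rho2, hπ' e he, kap_rho1])
      (fun x b => by simp [← disjSum_empty, hwj, w2, w1_empty]) (hl.trans (min_le_right _ _))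
      (by rw [hb l hl]; exact mem_singleton_self D) y
  have hR : ∀ i i', ∀ l ≤ min (d + 2) R, ∀ y, C.JJ' (mm R) (rho2 π π) (wj i i') R l y
      (D.map Function.Embedding.inr) = K l * C.TD g (f i') R l D y := fun i i' l hl y =>
    JJ'_blk C _ hg hi hex hρ (fun e he b => by
        simp [← empty_disjSum, kap_rho2, hπ' e he, kap_rho1])
      (fun x b => by simp [← empty_disjSum, hwj, w2, w1_empty]) (hl.trans (min_le_right _ _))
      (by rw [hb l hl]; exact mem_singleton_self D) y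
  have hL' : ∀ i i' l, l + 1 ≤ min (d + 2) R → ∀ y, C.JJ (mm R) (rho2 π π) (wj i i') R l y
      (D.map Function.Embedding.inl) = K (l + 1) * C.TD g (f i) R l D y := fun i i' l hl y => by
    rw [C.JJ_lt (by omega), C.TD_mer (by omega) (hM' _ hl), ← Casc.E_const_mul]
    simp only [hL i i' _ hl]
  have hR' : ∀ i i' l, l + 1 ≤ min (d + 2) R → ∀ y, C.JJ (mm R) (rho2 π π) (wj i i') R l y
      (D.map Function.Embedding.inr) = K (l + 1) * C.TD g (f i') R l D y := fun i i' l hl y => by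
    rw [C.JJ_lt (by omega), C.TD_mer (by omega) (hM' _ hl), ← Casc.E_const_mul]
    simp only [hR i i' _ hl]
  set b : ℕ → Ω → ℝ := fun l y => avg fun i => a i * avg fun i' => a i' *
    C.JJ (mm R) (rho2 π π) (wj i i') R l y (D.disjSum D) with hbd
  set b' : ℕ → Ω → ℝ := fun l y => avg fun i => a i * avg fun i' => a i' *
    C.JJ' (mm R) (rho2 π π) (wj i i') R l y (D.disjSum D) with hbd'
  set h : ℕ → Ω → ℝ := fun l => C.hh g f R l D a with hh
  have e1 : ∀ l < R, ∀ y, b l y = C.E l (b' (l + 1)) y := fun l hl y => by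
    simp only [hbd, hbd', Casc.E_avg, Casc.E_const_mul, C.JJ_lt hl]
  have e2 : ∀ (k : ℝ) l y, (avg fun i => a i * (k * C.TD g (f i) R l D y)) = k * h l y :=
    fun k l y => by simp only [mul_left_comm _ k, avg_const_mul, hh, Casc.hh]
  have e3 : ∀ l, l + 1 ≤ min (d + 2) R → ∀ y, b' l y - (K l * h l y) ^ 2 =
      gam L ^ 2 * ex (mm R) l * (b l y - (K (l + 1) * h l y) ^ 2) := fun l hl y => by
    have hl' : l < R := by omega
    have h1 : K l = gam L * ex (mm R) l * K (l + 1) := by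
      simp only [hKd]
      rw [show R - l = R - (l + 1) + 1 by omega, Kc_chain (hb _ hl)]
    have h2 : b' l y = gam L ^ 2 * (ex (mm R) l * b l y + ex (mm R) l * (ex (mm R) l - 1) *
        (K (l + 1) * h l y * (K (l + 1) * h l y))) := by
      simp only [hbd', hwj, JJ'_pair C hne hl' ((hπ' l hl'.le).trans (hb l (by omega)))
        ((hπ' _ hl').trans (hb _ hl))]
      simp only [← e2, hbd, ← avg_const_mul, ← avg_mul_const, ← avg_add]
      refine congrArg avg (funext fun i => congrArg avg (funext fun i' => ?_))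
      rw [← hL' i i' l hl y, ← hR' i i' l hl y]
      ring
    rw [h1, h2]
    ring
  have p1 : ∀ l, l + 1 ≤ min (d + 2) R → ∀ y, -ε ≤ b l y - (K (l + 1) * h l y) ^ 2 := by
    intro l hl y
    have h1 := (hP π D a i₀ l y ha (by omega)).1
    have h2 := fun i => hL' i i₀ l hl y
    simp only [hwj] at h2
    simp only [h2, e2] at h1
    linarith
  have hu : ∀ y, -ε ≤ b' (d + 1) y - (K (d + 1) * h (d + 1) y) ^ 2 := by
    intro y
    rcases (Nat.succ_le_of_lt hd).eq_or_lt with h1 | h1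
    · obtain ⟨q, hq⟩ := hne
      have hq' : D = {q} := eq_singleton_iff_unique_mem.2 ⟨hq, fun x hx =>
        hi x hx q hq (hM' R (by omega) x hx q hq)⟩
      have h2 : π (lv R R) = {{q}} := by rw [hπ' R le_rfl, hb R (by omega), hq']
      rw [show d + 1 = R from h1]
      have h3 : b' R y = (K R * h R y) ^ 2 := by
        simp only [hbd', hwj, hq', JJ'_pair_top C hex h2, hKd, Nat.sub_self, Kc, hh, Casc.hh,
          C.TD_ge le_rfl, prod_singleton]
        rw [mul_pow, sq (avg _)]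
        simp only [← avg_const_mul, ← avg_mul_const]
        refine congrArg avg (funext fun i => congrArg avg (funext fun i' => ?_))
        ring
      linarith
    · have h2 := ex_mm (l := d + 1) (by omega) h1
      have h3 : gam L ^ 2 * ex (mm R) (d + 1) ≤ 1 := mul_le_one₀ (pow_le_one₀ hγ.le hγ1)
        (by linarith [h2.1]) h2.2
      have h4 : 0 ≤ gam L ^ 2 * ex (mm R) (d + 1) := mul_nonneg (sq_nonneg _) (by linarith [h2.1])
      rw [e3 (d + 1) (by omega)]
      nlinarith [p1 (d + 1) (by omega) y]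
  obtain ⟨d', rfl⟩ : ∃ d', d = d' + 1 := ⟨d - 1, by omega⟩
  have h2 := ex_mm (l := d' + 1) (by omega) hd
  have h3 : gam L ^ 2 * ex (mm R) (d' + 1) ≤ 1 := mul_le_one₀ (pow_le_one₀ hγ.le hγ1)
    (by linarith [h2.1]) h2.2
  have h4 : κ ^ 2 ≤ K (d' + 1 + 1) ^ 2 := by
    rw [← sq_abs (K _)]
    exact pow_le_pow_left₀ hκ.le (hK _ _ _ (by omega) hd) 2
  have hv : ∀ y, gam L ^ 2 * κ ^ 2 / 2 * C.vr (d' + 1) (h (d' + 1 + 1)) y ≤
      b' (d' + 1) y - (K (d' + 1) * h (d' + 1) y) ^ 2 + ε := by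
    intro y
    have h5 := C.le_E (d := d' + 1) hu y
    have h6 : h (d' + 1) y = C.E (d' + 1) (h (d' + 1 + 1)) y := by
      refine Eq.trans ?_ (C.E_avg (d' + 1) (fun i x => a i * C.TD g (f i) R (d' + 1 + 1) D x) y).symm
      simp only [hh, Casc.hh, Casc.E_const_mul, C.TD_mer hd (hM' _ (by omega))]
    simp only [mul_pow] at h5
    rw [Casc.E_sub, Casc.E_const_mul, ← e1 _ hd] at h5
    have h7 := C.vr_nonneg (d' + 1) (h (d' + 1 + 1)) y
    have h8 : κ ^ 2 * C.vr (d' + 1) (h (d' + 1 + 1)) y ≤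
        b (d' + 1) y - (K (d' + 1 + 1) * h (d' + 1) y) ^ 2 + ε := by
      refine (mul_le_mul_of_nonneg_right h4 h7).trans ?_
      rw [Casc.vr, ← h6]
      linarith
    have h9 := mul_le_mul_of_nonneg_left h8 (mul_nonneg (sq_nonneg (gam L)) (by linarith [h2.1]) :
      0 ≤ gam L ^ 2 * ex (mm R) (d' + 1))
    have h10 := mul_le_mul_of_nonneg_right h2.1
      (mul_nonneg (mul_nonneg (sq_nonneg (gam L)) (sq_nonneg κ)) h7)
    rw [e3 (d' + 1) (by omega)]
    nlinarith
  rw [← C.E_E (show j ≤ d' by omega)]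
  refine C.E_le (fun y => ?_) ω
  have h5 := C.E_mono (d := d') hv y
  have h6 := (hP π D a i₀ d' y ha (by omega)).2
  have h7 := fun i y => hL i i₀ (d' + 1) (by omega) y
  simp only [hwj] at h7
  simp only [h7, e2] at h6
  rw [Casc.E_const_mul, Casc.E_add, Casc.E_sub, Casc.E_const, ← e1 _ (by omega)] at h5
  rw [le_div_iff₀ (by positivity)]
  linarith

theorem hypE (L : Type) [Fintype L] [DecidableEq L] (R : ℕ) {ε : ℝ} (hε : 0 < ε) :
    ∃ (θ : ℝ) (t : ℕ), 0 ≤ θ ∧ θ * Fintype.card L ≤ 1 / 2 ∧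
      ∀ (Sg I : Type) [Fintype Sg] [Fintype I] (ev : Sg → I → Bool) (H : Sg → ℝ)
        (g : L → ℕ → ℕ) (D₀ : Finset L) (τ : L → Bool), Nest g →
        (∀ l ∈ D₀, ∀ l' ∈ D₀, g l R = g l' R → l = l') →
        (tsys L R t θ ev H).HypE g (fun i l ω => ind (ev ω.1 i) (τ l)) R D₀ ε := by
  obtain ⟨κ, hκ, hK⟩ := Kc_lower L R
  have hγ : 0 < gam L := gam_pos
  obtain ⟨θ, t, h0, h1, h⟩ := ee_pin L R (ε := ε * (gam L ^ 2 * κ ^ 2) / 4) (by positivity)
  refine ⟨θ, t, h0, h1, fun Sg I _ _ ev H g D₀ τ hg hinj => ?_⟩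
  convert ee_alg _ (by positivity) (h Sg I ev H τ) hκ hK hg hinj using 1
  field_simp

end Vale.Agent.P168
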