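import Vale.Agent.P168.Casc

/-! Definitions used in the proof. See `skel/P168/BLUEPRINT.md`. -/

namespace Vale.Agent.P168

open Finset

/-! ### Finite models -/

def Prob {X : Type*} [Fintype X] (p : X → ℝ) : Prop := (∀ t, 0 ≤ p t) ∧ ∑ t, p t = 1

/-- expectation over a Poisson number of independent types with law `p` -/
noncomputable def PF {Θ : Type*} [Fintype Θ] (p : Θ → ℝ) (a : ℝ)
    (G : (M : ℕ) → (Fin M → Θ) → ℝ) : ℝ :=
  ∑' M, po a M * ∑ c : Fin M → Θ, (∏ k, p (c k)) * G M c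

noncomputable def cl {K : ℕ} (θ : (Fin K → Bool) → ℝ) (X : Fin K → ℝ) : ℝ :=
  ∑ σ : Fin K → Bool, Real.exp (θ σ) * ∏ j, (1 + X j * sg (σ j)) / 2

def Cube {ι : Type*} (a : ι → ℝ) : Prop := ∀ i, |a i| ≤ 1

/-- multi-affine functions -/
def MA {J : Type} [Fintype J] [DecidableEq J] (Y : (J → ℝ) → ℝ) : Prop :=
  ∀ X, Y X = ∑ τ : J → Bool, Y (fun j => sg (τ j)) * ∏ j, (1 + X j * sg (τ j)) / 2

def Bd {J : Type} (c : ℝ) (Y : (J → ℝ) → ℝ) : Prop :=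
  ∀ X, Cube X → 0 < Y X ∧ |Real.log (Y X)| ≤ c

/-- linear growth -/
def Gr {Θ : Type*} (C : ℝ) (G : (M : ℕ) → (Fin M → Θ) → ℝ) : Prop :=
  ∀ M c, |G M c| ≤ C * (M + 1)

/-- `φ` is a factor map of cascades -/
structure Fac {Ω Ω' : Type} [Fintype Ω] [Fintype Ω'] (C : Casc Ω) (D : Casc Ω') (φ : Ω → Ω') :
    Prop where
  E : ∀ d f ω, C.E d (fun x => f (φ x)) ω = D.E d f (φ ω)
  av : ∀ f, C.av (fun x => f (φ x)) = D.av f

/-- `C₀` sits in `C` with conditional probabilities at least `p` -/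
structure Sub {Ω₀ Ω : Type} [Fintype Ω₀] [Fintype Ω] (p : ℝ) (C₀ : Casc Ω₀) (C : Casc Ω)
    (φ : Ω₀ → Ω) : Prop where
  inj : Function.Injective φ
  le : ∀ d a b, p * C₀.ker d a b ≤ C.ker d (φ a) (φ b)

section
variable {K : ℕ} {Θ Hh : Type} [Fintype Θ] [Fintype Hh] (p : Θ → ℝ)
  (θ : Θ → (Fin K → Bool) → ℝ) (ph hv : Hh → ℝ) (lam : ℝ)

noncomputable def pressF (N : ℕ) : ℝ :=
  (1 / N) * PF p (lam * N) fun _ c =>
    ∑ h : Fin N → Hh, (∏ i, ph (h i)) * logZ N (fun k => θ (c k)) fun i => hv (h i)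

noncomputable def trialF (r : ℕ) (m : Fin r → ℝ) (x : (Fin (r + 1) → unitInterval) → ℝ) : ℝ :=
  (PF p (K * lam) fun M c =>
    ∑ h, ph h * avg fun l : Fin M → Fin K => TT r m x (UU (fun k => θ (c k)) (hv h) l)) -
  PF p ((K - 1) * lam) fun _ c => TT r m x (VV fun k => θ (c k))

/-- the structure needed for the upper bound -/
structure PTF (j₀ : Fin K) (a b : Θ → ℝ) (f : Θ → Fin K → Bool → ℝ) : Prop where
  eq : ∀ t σ, Real.exp (θ t σ) = a t * (1 + b t * ∏ j, f t j (σ j))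
  ha : ∀ t, 0 < a t
  hb : ∀ t, |b t| < 1
  hf : ∀ t j s, |f t j s| ≤ 1
  pos : ∀ n, 1 ≤ n → 0 ≤ ∑ t, p t * (-b t) ^ n
  ind : ∀ (φ : ℝ → ℝ) (ψ : Fin K → (Bool → ℝ) → ℝ), ∑ t, p t * (φ (b t) * ∏ j, ψ j (f t j)) =
    (∑ t, p t * φ (b t)) * ∏ j, ∑ t, p t * ψ j (f t j₀)

end

def LowerF : Prop :=
  ∀ (K : ℕ) (Θ Hh : Type) [Fintype Θ] [Fintype Hh] (p : Θ → ℝ) (θ : Θ → (Fin K → Bool) → ℝ)
    (ph hv : Hh → ℝ) (lam : ℝ), 1 ≤ K → Prob p → Prob ph → 0 < lam → ∀ ε > 0,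
    ∀ᶠ N in Filter.atTop, ∃ r m x, Adm r m x ∧
      trialF p θ ph hv lam r m x ≤ pressF p θ ph hv lam N + ε

def UpperF : Prop :=
  ∀ (K : ℕ) (Θ Hh : Type) [Fintype Θ] [Fintype Hh] (p : Θ → ℝ) (θ : Θ → (Fin K → Bool) → ℝ)
    (ph hv : Hh → ℝ) (lam : ℝ) (j₀ : Fin K) (a b : Θ → ℝ) (f : Θ → Fin K → Bool → ℝ),
    Even K → Prob p → Prob ph → 0 < lam → PTF p θ j₀ a b f → ∀ r m x, Adm r m x → ∀ N, 1 ≤ N →
      pressF p θ ph hv lam N ≤ trialF p θ ph hv lam r m x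

/-! ### Poisson operators -/

section
variable {S : Type} [AddCommMonoid S]

noncomputable def LL (ν : S →₀ ℝ) : Module.End ℝ (S → ℝ) where
  toFun Φ η := ν.sum fun s w => w * Φ (η + s)
  map_add' Φ Ψ := by funext η; simp [Finsupp.sum, mul_add, sum_add_distrib]
  map_smul' c Φ := by funext η; simp [Finsupp.sum, mul_sum, mul_left_comm]

noncomputable def mass (ν : S →₀ ℝ) : ℝ := ν.sum fun _ w => w

noncomputable def Pois (ν : S →₀ ℝ) (Φ : S → ℝ) (η : S) : ℝ :=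
  ∑' M, Real.exp (-mass ν) / M.factorial * (LL ν ^ M) Φ η

def Lip (𝒜 : Set S) (c : ℝ) (Φ : S → ℝ) : Prop := ∀ s ∈ 𝒜, ∀ η, |Φ (η + s) - Φ η| ≤ c

def Jmp (𝒜 : Set S) (ν : S →₀ ℝ) : Prop := (∀ s, 0 ≤ ν s) ∧ ∀ s ∈ ν.support, s ∈ 𝒜

noncomputable def fam {ι : Type} [Fintype ι] (w : ι → ℝ) (s : ι → S) : S →₀ ℝ :=
  ∑ c, Finsupp.single (s c) (w c)

end

/-! ### Replicas -/

structure Lv (m : ℕ → ℝ) (R : ℕ) : Prop where
  pos : ∀ d, 0 < m (d + 1)
  zero : m 0 = 0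
  mono : ∀ d < R, m d ≤ m (d + 1)
  top : m R = 1

/-- birth depth of the replica `l`; `z l` = (parent, depth) of the replica `l + 1` -/
def dep (d₀ : ℕ) (z : ℕ → ℕ × ℕ) : ℕ → ℕ
  | 0 => d₀
  | l + 1 => max (z l).2 (dep d₀ z (min (z l).1 l))
decreasing_by omega

/-- name of the ancestor at depth `d` of the replica `l` -/
def addr (d₀ : ℕ) (z : ℕ → ℕ × ℕ) : ℕ → ℕ → ℕ
  | 0, _ => 0
  | l + 1, d => if d ≤ dep d₀ z (l + 1) then addr d₀ z (min (z l).1 l) d else l + 1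
decreasing_by omega

def Valid (R n : ℕ) (z : ℕ → ℕ × ℕ) : Prop := ∀ l < n, (z l).1 ≤ l ∧ (z l).2 < R

/-- average over the shapes of `n + 1` replicas -/
noncomputable def Avg (m : ℕ → ℝ) (R : ℕ) : ℕ → ((ℕ → ℕ × ℕ) → ℝ) → ℝ
  | 0, Ψ => Ψ fun _ => (0, 0)
  | n + 1, Ψ => Avg m R n fun z => ∑ p ∈ range (n + 1), ∑ e ∈ range R,
      (m (e + 1) - m e) / (n + 1) * Ψ (Function.update z n (p, e))

def Nest {L : Type*} (g : L → ℕ → ℕ) : Prop :=
  ∀ l l' d, g l (d + 1) = g l' (d + 1) → g l d = g l' d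

def Mer {L : Type*} (g : L → ℕ → ℕ) (D : Finset L) (d : ℕ) : Prop :=
  ∀ l ∈ D, ∀ l' ∈ D, g l d = g l' d

def ind (b b' : Bool) : ℝ := if b = b' then 1 else 0

namespace Casc

variable {Ω : Type} [Fintype Ω] (C : Casc Ω)

/-- expectation over the replicas `0, ..., n` with the shape `z` -/
noncomputable def ES (d₀ : ℕ) (z : ℕ → ℕ × ℕ) : ℕ → ((ℕ → Ω) → ℝ) → Ω → ℝ
  | 0, F => C.E d₀ fun ω' => F fun _ => ω'
  | n + 1, F => ES d₀ z n fun w =>
      C.E (dep d₀ z (n + 1)) (fun ω' => F (Function.update w (n + 1) ω')) (w (min (z n).1 n))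

noncomputable def NN (m : ℕ → ℝ) (R d₀ n : ℕ) (u : Ω → ℝ) (ω : Ω) : ℝ :=
  Avg m R n fun z => C.ES d₀ z n (fun w => ∏ l ∈ range (n + 1), u (w l)) ω

variable {L : Type} [DecidableEq L]

noncomputable def TDk (g : L → ℕ → ℕ) (f : L → Ω → ℝ) : ℕ → ℕ → Finset L → Ω → ℝ
  | 0, _, D => fun ω => ∏ l ∈ D, f l ω
  | k + 1, d, D => fun ω => ∏ c ∈ D.image fun l => g l (d + 1),
      C.E d (TDk g f k (d + 1) (D.filter fun l => g l (d + 1) = c)) ω

/-- top-down expectation of `∏ l ∈ D, f l (replica l)` along the tree with addresses `g` -/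
noncomputable def TD (g : L → ℕ → ℕ) (f : L → Ω → ℝ) (R d : ℕ) (D : Finset L) : Ω → ℝ :=
  C.TDk g f (R - d) d D

/-- conditional variance -/
noncomputable def vr (d : ℕ) (φ : Ω → ℝ) (ω : Ω) : ℝ :=
  C.E d (fun x => φ x ^ 2) ω - C.E d φ ω ^ 2

variable {I : Type} [Fintype I] (g : L → ℕ → ℕ) (f : I → L → Ω → ℝ) (R : ℕ)

noncomputable def hh (d : ℕ) (D : Finset L) (a : I → ℝ) (ω : Ω) : ℝ :=
  avg fun i => a i * C.TD g (f i) R d D ω

noncomputable def qq (d : ℕ) (D : Finset L) (a : I → ℝ) (ω : Ω) : ℝ :=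
  (avg fun i => avg fun i' => a i * a i' * C.TD g (fun l x => f i l x * f i' l x) R d D ω) -
    C.hh g f R d D a ω ^ 2

noncomputable def dl (d : ℕ) (D : Finset L) (ω : Ω) : ℝ :=
  avg fun i => C.vr d (C.TD g (f i) R (d + 1) D) ω

open Classical in
noncomputable def ww (D₀ : Finset L) (ω : Ω) (e : ℕ) : ℝ :=
  ∑ b ∈ D₀.powerset, if Mer g b (e + 1) then
    C.E 0 (C.dl g f R e b) ω + C.E 0 (C.dl g f R (e - 1) b) ω else 0

def HypE (D₀ : Finset L) (ε : ℝ) : Prop :=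
  ∀ D ⊆ D₀, D.Nonempty → ∀ j d, j < d → d < R → Mer g D (min (d + 2) R) → ∀ a, Cube a → ∀ ω,
    C.E j (C.vr d (C.hh g f R (d + 1) D a)) ω ≤ ε

end Casc

/-- multi-overlap of the replicas `0, ..., n` with the pattern `τ` -/
noncomputable def ov {Ω I : Type} [Fintype I] (ev : Ω → I → Bool) (τ : ℕ → Bool) (n : ℕ)
    (w : ℕ → Ω) : ℝ := avg fun i => ∏ l ∈ range (n + 1), ind (ev (w l) i) (τ l)

/-- concentration of the multi-overlaps below a node of depth `1` -/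
def Conc {Ω I : Type} [Fintype Ω] [Fintype I] (C : Casc Ω) (ev : Ω → I → Bool) (m : ℕ → ℝ)
    (R n₀ : ℕ) (δ : ℝ) : Prop :=
  ∀ n < n₀, ∀ (τ : ℕ → Bool) (ω : Ω), Avg m R n (fun z => C.E 0 (fun x =>
    C.ES 1 z n (fun w => ov ev τ n w ^ 2) x - C.ES 1 z n (ov ev τ n) x ^ 2) ω) ≤ δ

/-! ### Jets -/

section
variable {ι : Type} [Fintype ι] [DecidableEq ι]

def conv (c d : Finset ι → ℝ) (D : Finset ι) : ℝ := ∑ D₁ ∈ D.powerset, c D₁ * d (D \ D₁)

def one' (D : Finset ι) : ℝ := if D = ∅ then 1 else 0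

def cpow (c : Finset ι → ℝ) : ℕ → Finset ι → ℝ
  | 0 => one'
  | p + 1 => conv c (cpow c p)

noncomputable def powj (a : ℝ) (c : Finset ι → ℝ) (D : Finset ι) : ℝ :=
  ∑ p ∈ range (Fintype.card ι + 1), Ring.choose a p * cpow (fun B => c B - one' B) p D

def Reg (θ C : ℝ) (f c : Finset ι → ℝ) : Prop :=
  ∃ h : Finset ι → ℝ, (∀ B, |f B - ∑ D ∈ B.powerset, h D| ≤ C * θ ^ (Fintype.card ι + 1)) ∧
    (∀ D, |h D - θ ^ D.card * c D| ≤ C * θ ^ (D.card + 1)) ∧ ∀ D, |c D| ≤ C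

def alt (E : Finset ι) (f : Finset ι → ℝ) : ℝ := ∑ B ∈ E.powerset, (-1) ^ (E.card - B.card) * f B

def sgp (s : ι → Bool) (D : Finset ι) : ℝ := ∏ q ∈ D, sg (s q)

def tw (s : ι → Bool) (t : ι → ℝ) : ι → ℝ := fun q => sg (s q) * t q

def chi (θ : ℝ) (B : Finset ι) : ι → ℝ := fun q => if q ∈ B then θ else 0

def poly (c : Finset ι → ℝ) (t : ι → ℝ) : ℝ := ∑ D : Finset ι, c D * ∏ q ∈ D, t q

def kap (ρ : (ι → Bool) → ℝ) (D : Finset ι) : ℝ := ∑ s, ρ s * sgp s D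

noncomputable def ex (m : ℕ → ℝ) (d : ℕ) : ℝ := m d / m (d + 1)

namespace Casc

variable {Ω : Type} [Fintype Ω] (C : Casc Ω) (m : ℕ → ℝ) (ρ : ℕ → (ι → Bool) → ℝ)
  (wj : Ω → Finset ι → ℝ)

noncomputable def GGk : ℕ → ℕ → (ι → ℝ) → Ω → ℝ
  | 0, _, t => fun ω => poly (wj ω) t
  | k + 1, d, t => C.E d fun ω => ∑ s, ρ (d + 1) s * GGk k (d + 1) (tw s t) ω ^ ex m (d + 1)

noncomputable def GG (R d : ℕ) (t : ι → ℝ) : Ω → ℝ := C.GGk m ρ wj (R - d) d t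

noncomputable def Gam (R d : ℕ) (t : ι → ℝ) (ω : Ω) : ℝ :=
  ∑ s, ρ d s * C.GG m ρ wj R d (tw s t) ω ^ ex m d

noncomputable def JJk : ℕ → ℕ → Ω → Finset ι → ℝ
  | 0, _ => wj
  | k + 1, d => fun ω D =>
      C.E d (fun x => kap (ρ (d + 1)) D * powj (ex m (d + 1)) (JJk k (d + 1) x) D) ω

noncomputable def JJ (R d : ℕ) : Ω → Finset ι → ℝ := C.JJk m ρ wj (R - d) d

noncomputable def JJ' (R d : ℕ) (ω : Ω) (D : Finset ι) : ℝ :=
  kap (ρ d) D * powj (ex m d) (C.JJ m ρ wj R d ω) D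

end Casc

end

/-! ### The perturbed system -/

/-- the exponents `m d = d / R` -/
noncomputable def mm (R d : ℕ) : ℝ := (min d R : ℕ) / (R : ℝ)

section
variable {L : Type} [Fintype L] [DecidableEq L]

noncomputable def gam (L : Type) [Fintype L] : ℝ := 1 / (2 ^ Fintype.card L + 1)

noncomputable def rho1 (ϖ : Finset (Finset L)) (s : L → Bool) : ℝ :=
  (1 + gam L * ∑ b ∈ ϖ.erase ∅, sgp s b) / 2 ^ Fintype.card L

theorem abs_sg (b : Bool) : |sg b| = 1 := by cases b <;> simp [sg]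

omit [Fintype L] [DecidableEq L] in
theorem abs_sgp (s : L → Bool) (D : Finset L) : |sgp s D| = 1 := by
  simp [sgp, abs_prod, abs_sg]

theorem rho1_pos (ϖ : Finset (Finset L)) (s : L → Bool) : 0 < rho1 ϖ s := by
  refine div_pos ?_ (by positivity)
  have h1 : |∑ b ∈ ϖ.erase ∅, sgp s b| ≤ 2 ^ Fintype.card L := by
    refine (abs_sum_le_sum_abs _ _).trans ?_
    simp only [abs_sgp, sum_const, nsmul_eq_mul, mul_one]
    have := card_le_univ (ϖ.erase ∅)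
    rw [Fintype.card_finset] at this
    exact_mod_cast this
  have h2 : gam L * (2 ^ Fintype.card L + 1) = 1 := by
    unfold gam
    field_simp
  have h3 : 0 < gam L := by unfold gam; positivity
  nlinarith [(abs_le.1 h1).1]

def w1 (f : L → ℝ) (D : Finset L) : ℝ := one' D + ∑ q, if D = {q} then f q else 0

def w2 (f f' : L → ℝ) (D : Finset (L ⊕ L)) : ℝ := w1 f D.toLeft * w1 f' D.toRight

def lv (R d : ℕ) : Fin (R + 1) := Fin.ofNat (R + 1) d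

noncomputable def rho2 {R : ℕ} (π π' : Fin (R + 1) → Finset (Finset L)) (d : ℕ)
    (s : L ⊕ L → Bool) : ℝ :=
  rho1 (π (lv R d)) (fun q => s (Sum.inl q)) * rho1 (π' (lv R d)) fun q => s (Sum.inr q)

/-- the blocks of `D` at depth `d` -/
def blk (g : L → ℕ → ℕ) (D : Finset L) (d : ℕ) : Finset (Finset L) :=
  (D.image fun l => g l d).image fun c => D.filter fun l => g l d = c

/-- the constants relating jets to `TD` -/
noncomputable def Kc (m : ℕ → ℝ) (π : ℕ → Finset (Finset L)) : ℕ → ℕ → Finset L → ℝ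
  | 0, _, _ => gam L
  | k + 1, d, b => gam L * (((π (d + 1)).filter (· ⊆ b)).card.factorial *
      Ring.choose (ex m d) ((π (d + 1)).filter (· ⊆ b)).card) *
      ∏ b' ∈ (π (d + 1)).filter (· ⊆ b), Kc m π k (d + 1) b'

/-- species: blocks at each depth, pattern, active labels -/
abbrev Sp (L : Type) (R : ℕ) : Type := (Fin (R + 1) → Finset (Finset L)) × (L → Bool) × Finset L

abbrev Fl (I L : Type) (R : ℕ) : Type :=
  (I × Sp L R) × (Fin (R + 1) × Finset (Finset L) → L → Bool)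

/-- prior of a field born at depth `j + 1` -/
noncomputable def fld (I L : Type) [Fintype L] [DecidableEq L] (R j : ℕ) : Casc (Fl I L R) :=
  (ulev _ (j + 1)).prod (Casc.pi fun c => lev (max c.1 (j + 1)) (rho1 c.2) (rho1_pos c.2))

variable {I : Type} {R : ℕ}

def amp (θ : ℝ) (j l : ℕ) (φ : Fl I L R) (q : L) : ℝ :=
  if q ∈ φ.1.2.2.2 then θ * ∏ d ∈ Ioc j l, sg (φ.2 (lv R d, φ.1.2.1 (lv R d)) q) else 0

def Wf (θ : ℝ) (j : ℕ) (σ : I → Bool) (φ : Fl I L R) : ℝ :=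
  1 + ∑ q, amp θ j R φ q * ind (σ φ.1.1) (φ.1.2.2.1 q)

abbrev Om (Sg I L : Type) (R t : ℕ) : Type := Sg × (Fin R × Fin t → Fl I L R)

noncomputable def sys (Sg I L : Type) [Fintype L] [DecidableEq L] (R t : ℕ) :
    Casc (Om Sg I L R t) :=
  (ulev Sg R).prod (Casc.pi fun c => fld I L R c.1)

variable {Sg : Type} {t : ℕ}

/-- the perturbed Hamiltonian -/
noncomputable def hamS (θ : ℝ) (ev : Sg → I → Bool) (H : Sg → ℝ) (ω : Om Sg I L R t) : ℝ :=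
  H ω.1 + ∑ c, Real.log (Wf θ c.1 (ev ω.1) (ω.2 c))

variable [Fintype Sg] [Fintype I] (L R t)

noncomputable def tsys (θ : ℝ) (ev : Sg → I → Bool) (H : Sg → ℝ) : Casc (Om Sg I L R t) :=
  (sys Sg I L R t).tilt (mm R) R (hamS θ ev H)

/-- the perturbed free energy -/
noncomputable def XX (θ : ℝ) (ev : Sg → I → Bool) (H : Sg → ℝ) : ℝ :=
  (sys Sg I L R t).av ((sys Sg I L R t).T (mm R) R 0 (hamS θ ev H))

variable {L R t}

/-- jets of the product of two test fields -/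
def wj2 (ev : Sg → I → Bool) (x x' : I × Sp L R) (ω : Om Sg I L R t) : Finset (L ⊕ L) → ℝ :=
  w2 (fun q => ind (ev ω.1 x.1) (x.2.2.1 q)) fun q => ind (ev ω.1 x'.1) (x'.2.2.1 q)

noncomputable def G2 (θ : ℝ) (ev : Sg → I → Bool) (H : Sg → ℝ) (d : ℕ) (x x' : I × Sp L R) :
    Om Sg I L R t → ℝ :=
  (tsys L R t θ ev H).GG (mm R) (rho2 x.2.1 x'.2.1) (wj2 ev x x') R d
    (chi θ (x.2.2.2.disjSum x'.2.2.2))

noncomputable def Gam2 (θ : ℝ) (ev : Sg → I → Bool) (H : Sg → ℝ) (d : ℕ) (x x' : I × Sp L R) :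
    Om Sg I L R t → ℝ :=
  (tsys L R t θ ev H).Gam (mm R) (rho2 x.2.1 x'.2.1) (wj2 ev x x') R d
    (chi θ (x.2.2.2.disjSum x'.2.2.2))

end

/-- the cavity estimate -/
def CoreStmt : Prop :=
  ∀ (K : ℕ) (Θ Hh : Type) [Fintype Θ] [Fintype Hh] (p : Θ → ℝ) (θ : Θ → (Fin K → Bool) → ℝ)
    (ph hv : Hh → ℝ) (lam : ℝ), 1 ≤ K → Prob p → Prob ph → 0 < lam → ∀ ε > 0,
    ∃ (n₀ R t : ℕ) (η : ℝ), 1 ≤ R ∧ 0 ≤ η ∧ η * n₀ ≤ 1 / 2 ∧ ∀ n, 1 ≤ n →
      ∀ H : (Fin n → Bool) → ℝ, ∃ r m x, Adm r m x ∧ trialF p θ ph hv lam r m x ≤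
        (PF p (K * lam) fun M c => ∑ h, ph h * avg fun l : Fin M → Fin K =>
          avg fun idx : Fin M × Fin K → Fin n => XX (Fin n₀) R t η id fun σ =>
            H σ + Real.log (UU (fun k => θ (c k)) (hv h) l fun j => sg (σ (idx j)))) -
        (PF p ((K - 1) * lam) fun M c =>
          avg fun idx : Fin M × Fin K → Fin n => XX (Fin n₀) R t η id fun σ =>
            H σ + Real.log (VV (fun k => θ (c k)) fun j => sg (σ (idx j)))) + ε

/-! ### Step functions -/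

/-- the index of the interval of length `1 / (M + 1)` containing `u` -/
noncomputable def fl (M : ℕ) (u : unitInterval) : Fin (M + 1) :=
  ⟨min ⌊(u : ℝ) * (M + 1)⌋₊ M, Nat.lt_succ_of_le (min_le_right _ _)⟩

/-- the cascade of a step function message -/
def msg (r M : ℕ) : Casc (Fin (r + 1) → Fin (M + 1)) := Casc.pi fun d => ulev (Fin (M + 1)) d

/-- extension of the exponents to all depths -/
def mext {r : ℕ} (m : Fin r → ℝ) : ℕ → ℝ
  | 0 => 0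
  | d + 1 => if h : d < r then m ⟨d, h⟩ else 1

section
variable {K : ℕ} {Θ : Type}

/-- mean increment of the free energy when a clause with a given mask is added -/
noncomputable def SS {Ω X I : Type} [Fintype Ω] [Fintype X] [Fintype I] [Fintype Θ] (D : Casc Ω)
    (Mc : Casc X) (m : ℕ → ℝ) (R : ℕ) (s : Ω → I → ℝ) (g : X → ℝ) (p : Θ → ℝ)
    (θ : Θ → (Fin K → Bool) → ℝ) (mask : Fin K → Bool) : ℝ :=
  ∑ t, p t * avg fun idx : Fin K → I =>
    (D.prod (Casc.pi fun _ : Fin K => Mc)).av ((D.prod (Casc.pi fun _ : Fin K => Mc)).T m R 0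
      fun ω => Real.log (cl (θ t) fun j => if mask j then s ω.1 (idx j) else g (ω.2 j)))

/-- mask, type, sites -/
abbrev Item (K : ℕ) (Θ : Type) (N : ℕ) : Type := (Fin K → Bool) × Θ × (Fin K → Fin N)

abbrev Ms (r M : ℕ) : Type := Fin (r + 1) → Fin (M + 1)

def msgs (J : Type) [Fintype J] (r M : ℕ) : Casc (J → Ms r M) := Casc.pi fun _ => msg r M

def sysU (J : Type) [Fintype J] (K N r M : ℕ) : Casc ((Fin N → Bool) × (J × Fin K → Ms r M)) :=
  (ulev (Fin N → Bool) (r + 1)).prod (msgs (J × Fin K) r M)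

variable {N r M : ℕ} {J : Type} [Fintype J] [DecidableEq J] (θ : Θ → (Fin K → Bool) → ℝ)
  (m : Fin r → ℝ) (g : Ms r M → ℝ)

noncomputable def hamU (h : Fin N → ℝ) (it : J → Item K Θ N)
    (ω : (Fin N → Bool) × (J × Fin K → Ms r M)) : ℝ :=
  ∑ i, h i * sg (ω.1 i) + ∑ k, Real.log (cl (θ (it k).2.1) fun j =>
    if (it k).1 j then sg (ω.1 ((it k).2.2 j)) else g (ω.2 (k, j)))

/-- the interpolating free energy of a family of items -/
noncomputable def FF (h : Fin N → ℝ) (it : J → Item K Θ N) : ℝ :=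
  (sysU J K N r M).av ((sysU J K N r M).T (mext m) (r + 1) 0 (hamU θ g h it))

/-- the value `T U` for a family of (type, position) -/
noncomputable def UJ (h : ℝ) (it : J → Θ × Fin K) : ℝ :=
  (msgs (J × Fin K) r M).av ((msgs (J × Fin K) r M).T (mext m) (r + 1) 0 fun w =>
    Real.log (∑ ε : Bool, Real.exp (h * sg ε) *
      ∏ k, cl (θ (it k).1) (Function.update (fun j => g (w (k, j))) (it k).2 (sg ε))))

/-- the value `T V` for one clause -/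
noncomputable def V1 (t : Θ) : ℝ :=
  (msgs (Fin K) r M).av ((msgs (Fin K) r M).T (mext m) (r + 1) 0 fun w =>
    Real.log (cl (θ t) fun j => g (w j)))

end

def UpStep : Prop :=
  ∀ (K : ℕ) (Θ Hh : Type) [Fintype Θ] [Fintype Hh] (p : Θ → ℝ) (θ : Θ → (Fin K → Bool) → ℝ)
    (ph hv : Hh → ℝ) (lam : ℝ) (j₀ : Fin K) (a b : Θ → ℝ) (f : Θ → Fin K → Bool → ℝ),
    Even K → Prob p → Prob ph → 0 < lam → PTF p θ j₀ a b f →
    ∀ (r : ℕ) (m : Fin r → ℝ) (M : ℕ) (g : (Fin (r + 1) → Fin (M + 1)) → ℝ), StrictMono m →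
      (∀ q, 0 < m q ∧ m q < 1) → Cube g → ∀ N, 1 ≤ N →
      pressF p θ ph hv lam N ≤ trialF p θ ph hv lam r m fun w => g fun d => fl M (w d)

end Vale.Agent.P168
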