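import Vale.Agent.P168.FDefs

/-! Multilinear jets: closure properties of `Reg`. -/

namespace Vale.Agent.P168

open Finset

variable {ι : Type} [Fintype ι] [DecidableEq ι]

theorem jet_pow_eq (B : Finset ι) (g : Finset ι → ℝ) :
    ∑ D ∈ B.powerset, g D = ∑ D, if D ⊆ B then g D else 0 := by
  rw [← sum_filter]
  refine sum_congr ?_ fun _ _ => rfl
  ext D
  simp

omit [DecidableEq ι] in
theorem jet_univ_le {g : Finset ι → ℝ} {K : ℝ} (h : ∀ D, |g D| ≤ K) :
    |∑ D, g D| ≤ 2 ^ Fintype.card ι * K := by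
  refine (abs_sum_le_sum_abs _ _).trans ((sum_le_card_nsmul _ _ K fun D _ => h D).trans_eq ?_)
  rw [card_univ, Fintype.card_finset, nsmul_eq_mul, Nat.cast_pow, Nat.cast_ofNat]

theorem jet_sum_le (B : Finset ι) {g : Finset ι → ℝ} {K : ℝ} (hK : 0 ≤ K)
    (h : ∀ D ⊆ B, |g D| ≤ K) : |∑ D ∈ B.powerset, g D| ≤ 2 ^ Fintype.card ι * K := by
  rw [jet_pow_eq]
  refine jet_univ_le fun D => ?_
  split_ifs with p
  · exact h D p
  · rwa [abs_zero]

omit [Fintype ι] [DecidableEq ι] in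
theorem jet_h_le {θ C : ℝ} (h0 : 0 ≤ θ) (h1 : θ ≤ 1) {h c : Finset ι → ℝ}
    (a2 : ∀ D, |h D - θ ^ D.card * c D| ≤ C * θ ^ (D.card + 1)) (a3 : ∀ D, |c D| ≤ C)
    (D : Finset ι) : |h D| ≤ 2 * C * θ ^ D.card := by
  have hC : 0 ≤ C := (abs_nonneg _).trans (a3 ∅)
  have p := pow_nonneg h0 D.card
  have u1 : |θ ^ D.card * c D| ≤ θ ^ D.card * C := by
    rw [abs_mul, abs_of_nonneg p]
    exact mul_le_mul_of_nonneg_left (a3 D) p
  have u2 : C * θ ^ (D.card + 1) ≤ C * θ ^ D.card :=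
    mul_le_mul_of_nonneg_left (pow_le_pow_of_le_one h0 h1 (Nat.le_succ _)) hC
  have u3 := abs_add_le (h D - θ ^ D.card * c D) (θ ^ D.card * c D)
  rw [sub_add_cancel] at u3
  linarith [a2 D]

omit [Fintype ι] in
theorem jet_moebius (E : Finset ι) (g : Finset ι → ℝ) :
    alt E (fun B => ∑ D ∈ B.powerset, g D) = g E := by
  induction E using Finset.induction_on generalizing g with
  | empty => simp [alt]
  | insert a E ha ih =>
    rw [← ih fun D => g (insert a D), alt, alt, sum_powerset_insert ha, ← sum_add_distrib]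
    refine sum_congr rfl fun B hB => ?_
    have hB' := mem_powerset.1 hB
    have haB : a ∉ B := fun h => ha (hB' h)
    have := card_le_card hB'
    rw [sum_powerset_insert haB, card_insert_of_notMem ha, card_insert_of_notMem haB,
      Nat.add_sub_add_right, show E.card + 1 - B.card = E.card - B.card + 1 by omega, pow_succ]
    ring

theorem Reg.mono {θ C C' : ℝ} {f c : Finset ι → ℝ} (hθ : 0 ≤ θ) (h : Reg θ C f c) (hC : C ≤ C') :
    Reg θ C' f c := by
  obtain ⟨h, h1, h2, h3⟩ := h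
  exact ⟨h, fun B => (h1 B).trans (mul_le_mul_of_nonneg_right hC (pow_nonneg hθ _)),
    fun D => (h2 D).trans (mul_le_mul_of_nonneg_right hC (pow_nonneg hθ _)),
    fun D => (h3 D).trans hC⟩

/-- convex combinations -/
theorem reg_sum {X : Type} [Fintype X] {θ C : ℝ} {w : X → ℝ} (hw : Prob w)
    {f c : X → Finset ι → ℝ} (h : ∀ x, Reg θ C (f x) (c x)) :
    Reg θ C (fun B => ∑ x, w x * f x B) fun D => ∑ x, w x * c x D := by
  choose g h1 h2 h3 using h
  have key : ∀ (a : X → ℝ) (K : ℝ), (∀ x, |a x| ≤ K) → |∑ x, w x * a x| ≤ K := fun a K ha => by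
    refine (abs_sum_le_sum_abs _ _).trans ?_
    calc ∑ x, |w x * a x| ≤ ∑ x, w x * K := sum_le_sum fun x _ => by
          rw [abs_mul, abs_of_nonneg (hw.1 x)]
          exact mul_le_mul_of_nonneg_left (ha x) (hw.1 x)
      _ = K := by rw [← sum_mul, hw.2, one_mul]
  refine ⟨fun D => ∑ x, w x * g x D, fun B => ?_, fun D => ?_, fun D => key _ _ fun x => h3 x D⟩
  · have := key _ _ fun x => h1 x B
    simp only [mul_sub, sum_sub_distrib, mul_sum] at this
    rwa [sum_comm (s := B.powerset)]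
  · have := key _ _ fun x => h2 x D
    simp only [mul_sub, sum_sub_distrib, mul_left_comm (w _), ← mul_sum] at this
    exact this

theorem reg_poly {θ : ℝ} (hθ : 0 ≤ θ) {c : Finset ι → ℝ} (hc : ∀ D, |c D| ≤ 1) (s : ι → Bool) :
    Reg θ 1 (fun B => poly c (tw s (chi θ B))) fun D => sgp s D * c D := by
  refine ⟨fun D => θ ^ D.card * (sgp s D * c D), fun B => ?_, fun D => ?_, fun D => ?_⟩
  · have : poly c (tw s (chi θ B)) = ∑ D ∈ B.powerset, θ ^ D.card * (sgp s D * c D) := by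
      rw [jet_pow_eq, poly]
      refine sum_congr rfl fun D _ => ?_
      simp only [tw, prod_mul_distrib]
      split_ifs with h
      · rw [prod_congr rfl (f := chi θ B) (g := fun _ => θ) fun q hq => if_pos (h hq), prod_const, sgp]
        ring
      · obtain ⟨q, hq, hq'⟩ := not_subset.1 h
        rw [prod_eq_zero (f := chi θ B) hq (if_neg hq'), mul_zero, mul_zero]
    simp only [this, sub_self, abs_zero]
    positivity
  · rw [sub_self, abs_zero]
    positivity
  · have : |sgp s D| = 1 := by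
      rw [sgp, abs_prod]
      refine prod_eq_one fun q _ => ?_
      unfold sg
      split_ifs <;> simp
    rw [abs_mul, this, one_mul]
    exact hc D

theorem reg_mul (ι : Type) [Fintype ι] [DecidableEq ι] (C : ℝ) : ∃ C' : ℝ, ∀ θ, 0 ≤ θ → θ ≤ 1 →
    ∀ f c f' c' : Finset ι → ℝ, Reg θ C f c → Reg θ C f' c' →
      Reg θ C' (fun B => f B * f' B) (conv c c') := by
  refine ⟨5 * (2 ^ Fintype.card ι) ^ 2 * C ^ 2, fun θ h0 h1 f c f' c' H H' => ?_⟩
  obtain ⟨h, a1, a2, a3⟩ := H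
  obtain ⟨h', b1, b2, b3⟩ := H'
  have hC : 0 ≤ C := (abs_nonneg _).trans (a3 ∅)
  have a4 := jet_h_le h0 h1 a2 a3
  have b4 := jet_h_le h0 h1 b2 b3
  have hQ : (1 : ℝ) ≤ 2 ^ Fintype.card ι := one_le_pow₀ one_le_two
  have hp : ∀ k : ℕ, θ ^ k ≤ 1 := fun k => pow_le_one₀ h0 h1
  have hS : ∀ g : Finset ι → ℝ, (∀ D, |g D| ≤ 2 * C * θ ^ D.card) → ∀ B : Finset ι,
      |∑ D ∈ B.powerset, g D| ≤ 2 ^ Fintype.card ι * (2 * C) := fun g hg B =>
    jet_sum_le B (by positivity) fun D _ => (hg D).trans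
      (mul_le_of_le_one_right (by positivity) (hp _))
  refine ⟨fun D => ∑ D₁, ∑ D₂, if D₁ ∪ D₂ = D then h D₁ * h' D₂ else 0, fun B => ?_, fun D => ?_,
    fun D => ?_⟩
  · have e : ∑ D ∈ B.powerset, ∑ D₁, ∑ D₂, (if D₁ ∪ D₂ = D then h D₁ * h' D₂ else 0) =
        (∑ D ∈ B.powerset, h D) * ∑ D ∈ B.powerset, h' D := by
      rw [jet_pow_eq B h, jet_pow_eq B h', sum_mul_sum, sum_comm]
      refine sum_congr rfl fun D₁ _ => ?_
      rw [sum_comm]
      refine sum_congr rfl fun D₂ _ => ?_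
      rw [sum_ite_eq]
      simp only [mem_powerset, union_subset_iff]
      by_cases p : D₁ ⊆ B <;> by_cases q : D₂ ⊆ B <;> simp [p, q]
    rw [e]
    have s1 := hS h a4 B
    have s2 := hS h' b4 B
    have t1 := a1 B
    have t2 := b1 B
    have t0 := pow_nonneg h0 (Fintype.card ι + 1)
    have t3 := hp (Fintype.card ι + 1)
    generalize θ ^ (Fintype.card ι + 1) = T at t0 t1 t2 t3 ⊢
    generalize ∑ D ∈ B.powerset, h D = S at s1 t1 ⊢
    generalize ∑ D ∈ B.powerset, h' D = S' at s2 t2 ⊢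
    generalize (2 : ℝ) ^ Fintype.card ι = Q at s1 s2 hQ ⊢
    have e2 : f B * f' B - S * S' = (f B - S) * (f' B - S') + S * (f' B - S') + (f B - S) * S' := by
      ring
    have u1 : |(f B - S) * (f' B - S')| ≤ C * T * C := by
      rw [abs_mul]
      exact mul_le_mul t1 (t2.trans (mul_le_of_le_one_right hC t3)) (abs_nonneg _) (by positivity)
    have u2 : |S * (f' B - S')| ≤ Q * (2 * C) * (C * T) := by
      rw [abs_mul]
      exact mul_le_mul s1 t2 (abs_nonneg _) (by positivity)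
    have u3 : |(f B - S) * S'| ≤ C * T * (Q * (2 * C)) := by
      rw [abs_mul]
      exact mul_le_mul t1 s2 (abs_nonneg _) (by positivity)
    have u4 : 0 ≤ C ^ 2 * T := by positivity
    have u5 : 1 + 4 * Q ≤ 5 * Q ^ 2 := by nlinarith
    have u6 := mul_le_mul_of_nonneg_right u5 u4
    rw [e2]
    refine (abs_add_three _ _ _).trans ?_
    nlinarith
  · have e : conv c c' D = ∑ D₁, ∑ D₂, if D₁ ⊆ D ∧ D₂ = D \ D₁ then c D₁ * c' D₂ else 0 := by
      rw [conv, jet_pow_eq]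
      refine sum_congr rfl fun D₁ _ => ?_
      by_cases p : D₁ ⊆ D <;> simp [p]
    rw [e]
    simp only [mul_sum, ← sum_sub_distrib]
    have t0 := pow_nonneg h0 (D.card + 1)
    refine (jet_univ_le fun D₁ => jet_univ_le (K := 4 * C ^ 2 * θ ^ (D.card + 1))
      fun D₂ => ?_).trans (by nlinarith [mul_nonneg (sq_nonneg (2 ^ Fintype.card ι * C)) t0])
    by_cases p : D₁ ⊆ D ∧ D₂ = D \ D₁
    · have q : D₁ ∪ D₂ = D := by rw [p.2, union_sdiff_of_subset p.1]
      have k : D.card = D₁.card + D₂.card := by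
        rw [p.2, add_comm, card_sdiff_add_card_eq_card p.1]
      rw [if_pos q, if_pos p, k]
      have e2 : h D₁ * h' D₂ - θ ^ (D₁.card + D₂.card) * (c D₁ * c' D₂) =
          h D₁ * (h' D₂ - θ ^ D₂.card * c' D₂) +
            (h D₁ - θ ^ D₁.card * c D₁) * (θ ^ D₂.card * c' D₂) := by ring
      have u1 : |h D₁ * (h' D₂ - θ ^ D₂.card * c' D₂)| ≤
          2 * C * θ ^ D₁.card * (C * θ ^ (D₂.card + 1)) := by
        rw [abs_mul]
        exact mul_le_mul (a4 _) (b2 _) (abs_nonneg _) (by positivity)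
      have u2 : |(h D₁ - θ ^ D₁.card * c D₁) * (θ ^ D₂.card * c' D₂)| ≤
          C * θ ^ (D₁.card + 1) * (θ ^ D₂.card * C) := by
        rw [abs_mul, abs_mul, abs_of_nonneg (pow_nonneg h0 _)]
        exact mul_le_mul (a2 _) (mul_le_mul_of_nonneg_left (b3 _) (pow_nonneg h0 _))
          (by positivity) (by positivity)
      have u3 : 0 ≤ C ^ 2 * θ ^ (D₁.card + D₂.card + 1) := by positivity
      rw [e2]
      refine (abs_add_le _ _).trans ((add_le_add u1 u2).trans ?_)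
      have e3 : 2 * C * θ ^ D₁.card * (C * θ ^ (D₂.card + 1)) +
          C * θ ^ (D₁.card + 1) * (θ ^ D₂.card * C) =
          3 * (C ^ 2 * θ ^ (D₁.card + D₂.card + 1)) := by ring
      rw [e3]
      linarith
    · rw [if_neg p, mul_zero, sub_zero]
      split_ifs with q
      · have k : D.card + 1 ≤ D₁.card + D₂.card := by
          rw [← card_union_add_card_inter, q]
          refine Nat.add_le_add_left (card_pos.2 (nonempty_iff_ne_empty.2 fun e' => p ?_)) _
          subst q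
          exact ⟨subset_union_left, (union_sdiff_cancel_left (disjoint_iff_inter_eq_empty.2 e')).symm⟩
        rw [abs_mul]
        refine (mul_le_mul (a4 _) (b4 _) (abs_nonneg _) (by positivity)).trans ?_
        have e3 : 2 * C * θ ^ D₁.card * (2 * C * θ ^ D₂.card) =
            4 * C ^ 2 * θ ^ (D₁.card + D₂.card) := by ring
        rw [e3]
        exact mul_le_mul_of_nonneg_left (pow_le_pow_of_le_one h0 h1 k) (by positivity)
      · rw [abs_zero]
        positivity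
  · refine (jet_sum_le D (K := C * C) (by positivity) fun D₁ _ => ?_).trans ?_
    · rw [abs_mul]
      exact mul_le_mul (a3 _) (b3 _) (abs_nonneg _) hC
    · have u4 : 0 ≤ C ^ 2 := by positivity
      have u5 : (2 : ℝ) ^ Fintype.card ι ≤ 5 * (2 ^ Fintype.card ι) ^ 2 := by nlinarith
      nlinarith [mul_le_mul_of_nonneg_right u5 u4]

theorem jet_one {θ : ℝ} (hθ : 0 ≤ θ) : Reg θ 1 (fun _ : Finset ι => 1) one' := by
  refine ⟨one', fun B => ?_, fun D => ?_, fun D => ?_⟩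
  · have : ∑ D ∈ B.powerset, one' D = 1 := by simp [one']
    rw [this, sub_self, abs_zero]
    positivity
  · have : one' D - θ ^ D.card * one' D = 0 := by
      unfold one'
      split_ifs with h
      · simp [h]
      · simp
    rw [this, abs_zero]
    positivity
  · unfold one'
    split_ifs <;> simp

theorem jet_lin {θ C C' : ℝ} {f c f' c' : Finset ι → ℝ} (H : Reg θ C f c) (H' : Reg θ C' f' c')
    (b : ℝ) : Reg θ (C + |b| * C') (fun B => f B + b * f' B) fun D => c D + b * c' D := by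
  obtain ⟨h, a1, a2, a3⟩ := H
  obtain ⟨h', b1, b2, b3⟩ := H'
  have key : ∀ x y K K' : ℝ, |x| ≤ K → |y| ≤ K' → |x + b * y| ≤ K + |b| * K' :=
    fun x y K K' hx hy => (abs_add_le _ _).trans (add_le_add hx (by
      rw [abs_mul]
      exact mul_le_mul_of_nonneg_left hy (abs_nonneg _)))
  refine ⟨fun D => h D + b * h' D, fun B => ?_, fun D => ?_, fun D => key _ _ _ _ (a3 D) (b3 D)⟩
  · refine le_of_eq_of_le (congrArg abs ?_) ((key _ _ _ _ (a1 B) (b1 B)).trans_eq (by ring))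
    simp only [sum_add_distrib, ← mul_sum]
    ring
  · refine le_of_eq_of_le (congrArg abs ?_) ((key _ _ _ _ (a2 D) (b2 D)).trans_eq (by ring))
    ring

theorem jet_sub_one {θ C : ℝ} (hθ : 0 ≤ θ) {f c : Finset ι → ℝ} (H : Reg θ C f c) :
    Reg θ (C + 1) (fun B => f B - 1) fun D => c D - one' D := by
  simpa [sub_eq_add_neg] using jet_lin H (jet_one hθ) (-1)

theorem jet_pow (ι : Type) [Fintype ι] [DecidableEq ι] (C : ℝ) (p : ℕ) : ∃ C' : ℝ, ∀ θ, 0 ≤ θ →
    θ ≤ 1 → ∀ f c : Finset ι → ℝ, Reg θ C f c → Reg θ C' (fun B => f B ^ p) (cpow c p) := by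
  induction p with
  | zero => exact ⟨1, fun θ h0 _ f c _ => by simpa [cpow] using jet_one h0⟩
  | succ p ih =>
    obtain ⟨C₁, h₁⟩ := ih
    obtain ⟨C₂, h₂⟩ := reg_mul ι (max C C₁)
    refine ⟨C₂, fun θ h0 h1 f c H => ?_⟩
    simpa only [cpow, pow_succ'] using h₂ θ h0 h1 _ _ _ _ (H.mono h0 (le_max_left _ _))
      ((h₁ θ h0 h1 f c H).mono h0 (le_max_right _ _))

theorem jet_series (ι : Type) [Fintype ι] [DecidableEq ι] (b : ℕ → ℝ) (C : ℝ) (n : ℕ) :
    ∃ C' : ℝ, ∀ θ, 0 ≤ θ → θ ≤ 1 → ∀ f c : Finset ι → ℝ, Reg θ C f c →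
      Reg θ C' (fun B => ∑ p ∈ range n, b p * f B ^ p)
        fun D => ∑ p ∈ range n, b p * cpow c p D := by
  induction n with
  | zero => exact ⟨0, fun θ _ _ f c _ => ⟨fun _ => 0, by simp, by simp, by simp⟩⟩
  | succ n ih =>
    obtain ⟨C₁, h₁⟩ := ih
    obtain ⟨C₂, h₂⟩ := jet_pow ι C n
    refine ⟨C₁ + |b n| * C₂, fun θ h0 h1 f c H => ?_⟩
    simpa only [sum_range_succ] using jet_lin (h₁ θ h0 h1 f c H) (h₂ θ h0 h1 f c H) (b n)

theorem jet_perturb {θ C K : ℝ} (hθ : 0 ≤ θ) {f c g : Finset ι → ℝ} (H : Reg θ C f c) (hK : 0 ≤ K)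
    (hg : ∀ B, |g B - f B| ≤ K * θ ^ (Fintype.card ι + 1)) : Reg θ (C + K) g c := by
  obtain ⟨h, a1, a2, a3⟩ := H
  refine ⟨h, fun B => ?_, fun D => (a2 D).trans (mul_le_mul_of_nonneg_right
    (le_add_of_nonneg_right hK) (pow_nonneg hθ _)), fun D => (a3 D).trans (le_add_of_nonneg_right hK)⟩
  have := abs_sub_le (g B) (f B) (∑ D ∈ B.powerset, h D)
  linarith [a1 B, hg B]

theorem jet_small {θ C : ℝ} (h0 : 0 ≤ θ) (h1 : θ ≤ 1) {f c : Finset ι → ℝ} (H : Reg θ C f c)
    (hc : c ∅ = 0) (B : Finset ι) : |f B| ≤ (2 * 2 ^ Fintype.card ι + 1) * C * θ := by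
  obtain ⟨h, a1, a2, a3⟩ := H
  have hC : 0 ≤ C := (abs_nonneg _).trans (a3 ∅)
  have s := jet_sum_le B (g := h) (K := 2 * C * θ) (by positivity) fun D _ => by
    rcases D.eq_empty_or_nonempty with rfl | hD
    · have := a2 ∅
      rw [hc, mul_zero, sub_zero, card_empty, zero_add, pow_one] at this
      nlinarith [mul_nonneg hC h0]
    · exact (jet_h_le h0 h1 a2 a3 D).trans (mul_le_mul_of_nonneg_left
        (pow_le_of_le_one h0 h1 hD.card_pos.ne') (by positivity))
  have t := (a1 B).trans (mul_le_mul_of_nonneg_left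
    (pow_le_of_le_one h0 h1 (Nat.succ_ne_zero _)) hC)
  have := abs_add_le (f B - ∑ D ∈ B.powerset, h D) (∑ D ∈ B.powerset, h D)
  rw [sub_add_cancel] at this
  linarith

theorem jet_binom (a : ℝ) (n : ℕ) : ∃ K δ : ℝ, 0 ≤ K ∧ 0 < δ ∧ ∀ y : ℝ, |y| ≤ δ →
    |(1 + y) ^ a - ∑ p ∈ range n, Ring.choose a p * y ^ p| ≤ K * |y| ^ n := by
  obtain ⟨K, hK, h⟩ := ((Real.one_add_rpow_hasFPowerSeriesAt_zero
    (a := a)).isBigO_sub_partialSum_pow n).exists_nonneg
  obtain ⟨δ, hδ, hb⟩ := Metric.eventually_nhds_iff.1 h.bound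
  refine ⟨K, δ / 2, hK, half_pos hδ, fun y hy => ?_⟩
  have := hb (y := y) (by rw [dist_zero_right]; exact hy.trans_lt (half_lt_self hδ))
  simpa [FormalMultilinearSeries.partialSum, binomialSeries,
    FormalMultilinearSeries.ofScalars_apply_eq, mul_comm] using this

theorem reg_rpow (ι : Type) [Fintype ι] [DecidableEq ι] (a C : ℝ) : ∃ C' θ₀ : ℝ, 0 < θ₀ ∧
    ∀ θ, 0 ≤ θ → θ ≤ θ₀ → ∀ f c : Finset ι → ℝ, Reg θ C f c → c ∅ = 1 →
      Reg θ C' (fun B => f B ^ a) (powj a c) := by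
  obtain ⟨C₁, h₁⟩ := jet_series ι (fun p => Ring.choose a p) (C + 1) (Fintype.card ι + 1)
  obtain ⟨K, δ, hK, hδ, hr⟩ := jet_binom a (Fintype.card ι + 1)
  obtain ⟨L, hL, eL⟩ : ∃ L : ℝ, 0 < L ∧ (2 * 2 ^ Fintype.card ι + 1) * (C + 1) ≤ L :=
    ⟨|(2 * 2 ^ Fintype.card ι + 1) * (C + 1)| + 1, by positivity,
      (le_abs_self _).trans (le_add_of_nonneg_right zero_le_one)⟩
  refine ⟨C₁ + K * L ^ (Fintype.card ι + 1), min 1 (δ / L), by positivity,
    fun θ h0 h1 f c H hc => ?_⟩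
  have h2 := h1.trans (min_le_left _ _)
  have h3 : L * θ ≤ δ := by
    rw [mul_comm]
    exact (le_div_iff₀ hL).1 (h1.trans (min_le_right _ _))
  have Hu := jet_sub_one h0 H
  have hu : ∀ B, |f B - 1| ≤ L * θ := fun B =>
    (jet_small h0 h2 Hu (by simp [hc, one']) B).trans (mul_le_mul_of_nonneg_right eL h0)
  refine jet_perturb h0 (h₁ θ h0 h2 _ _ Hu) (by positivity) fun B => ?_
  have := hr (f B - 1) ((hu B).trans h3)
  rw [add_sub_cancel] at this
  refine this.trans ?_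
  rw [mul_assoc, ← mul_pow]
  exact mul_le_mul_of_nonneg_left (pow_le_pow_left₀ (abs_nonneg _) (hu B) _) hK

theorem reg_alt {θ C : ℝ} (h0 : 0 ≤ θ) (h1 : θ ≤ 1) {f c : Finset ι → ℝ} (h : Reg θ C f c)
    (E : Finset ι) : |alt E f - θ ^ E.card * c E| ≤
      (2 ^ Fintype.card ι + 1) * C * θ ^ (E.card + 1) := by
  obtain ⟨g, a1, a2, a3⟩ := h
  have hC : 0 ≤ C := (abs_nonneg _).trans (a3 ∅)
  have e : alt E f - θ ^ E.card * c E =
      ∑ B ∈ E.powerset, (-1) ^ (E.card - B.card) * (f B - ∑ D ∈ B.powerset, g D) +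
        (g E - θ ^ E.card * c E) := by
    have := jet_moebius E g
    simp only [alt, mul_sub, sum_sub_distrib] at this ⊢
    rw [this]
    ring
  have p : θ ^ (Fintype.card ι + 1) ≤ θ ^ (E.card + 1) :=
    pow_le_pow_of_le_one h0 h1 (Nat.succ_le_succ (card_le_univ E))
  have s := jet_sum_le E (K := C * θ ^ (E.card + 1)) (by positivity)
    (g := fun B => (-1) ^ (E.card - B.card) * (f B - ∑ D ∈ B.powerset, g D)) fun B _ => by
      rw [abs_mul, abs_neg_one_pow, one_mul]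
      exact (a1 B).trans (mul_le_mul_of_nonneg_left p hC)
  rw [e]
  refine (abs_add_le _ _).trans ((add_le_add s (a2 E)).trans (le_of_eq ?_))
  ring

end Vale.Agent.P168
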