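import Vale.Agent.P168.FDefs

/-! Algebra of `powj`, `kap`, `poly`, `alt`. -/

namespace Vale.Agent.P168

open Finset

section
variable {ι : Type} [Fintype ι] [DecidableEq ι]

omit [Fintype ι] in
private theorem cpow_empty {c : Finset ι → ℝ} (hc : c ∅ = 0) (p : ℕ) :
    cpow c p ∅ = if p = 0 then 1 else 0 := by
  cases p with
  | zero => simp [cpow, one']
  | succ p => simp [cpow, conv, hc]

omit [Fintype ι] in
private theorem cpow_one (c : Finset ι → ℝ) (D : Finset ι) : cpow c 1 D = c D := by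
  simp only [cpow, conv, one', sdiff_eq_empty_iff_subset, mul_ite, mul_one, mul_zero]
  rw [sum_eq_single_of_mem D (mem_powerset_self D)]
  · simp
  · intro B hB hne
    exact if_neg fun h => hne (Subset.antisymm (mem_powerset.1 hB) h)

omit [Fintype ι] in
private theorem cpow_blocks {c : Finset ι → ℝ} (p : ℕ) : ∀ {D : Finset ι}
    {𝓑 : Finset (Finset ι)}, (∀ b ∈ 𝓑, b.Nonempty) →
    (∀ b ∈ 𝓑, ∀ b' ∈ 𝓑, b ≠ b' → Disjoint b b') → 𝓑.biUnion id = D →
    (∀ B ⊆ D, B ∉ 𝓑 → c B = 0) →
    cpow c p D = if p = 𝓑.card then p.factorial * ∏ b ∈ 𝓑, c b else 0 := by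
  induction p with
  | zero =>
    intro D 𝓑 hne _ hU _
    rcases 𝓑.eq_empty_or_nonempty with rfl | ⟨b, hb⟩
    · simp [cpow, one', ← hU]
    · have h1 : D ≠ ∅ := by
        obtain ⟨x, hx⟩ := hne b hb
        exact ne_empty_of_mem (hU ▸ mem_biUnion.2 ⟨b, hb, hx⟩)
      have h2 : 0 ≠ 𝓑.card := (card_pos.2 ⟨b, hb⟩).ne
      simp [cpow, one', h1, h2]
  | succ p ih =>
    intro D 𝓑 hne hdj hU h0
    have hsub : 𝓑 ⊆ D.powerset := fun b hb =>
      mem_powerset.2 (hU ▸ subset_biUnion_of_mem id hb)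
    have hstep : ∀ b ∈ 𝓑, c b * cpow c p (D \ b) =
        if p + 1 = 𝓑.card then p.factorial * ∏ b ∈ 𝓑, c b else 0 := by
      intro b hb
      rw [ih (𝓑 := 𝓑.erase b) (fun b' h => hne b' (mem_of_mem_erase h))
        (fun b' h b'' h' => hdj b' (mem_of_mem_erase h) b'' (mem_of_mem_erase h'))]
      · have hc := card_erase_add_one hb
        by_cases hp : p + 1 = 𝓑.card
        · rw [if_pos hp, if_pos (by omega), mul_left_comm, mul_prod_erase _ _ hb]
        · rw [if_neg hp, if_neg (by omega), mul_zero]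
      · ext x
        simp only [← hU, mem_biUnion, mem_erase, id, mem_sdiff]
        constructor
        · rintro ⟨b', ⟨h1, h2⟩, hx⟩
          exact ⟨⟨b', h2, hx⟩, disjoint_left.1 (hdj b' h2 b hb h1) hx⟩
        · rintro ⟨⟨b', h2, hx⟩, hxb⟩
          exact ⟨b', ⟨fun h => hxb (h ▸ hx), h2⟩, hx⟩
      · intro B hB hB'
        refine h0 B (hB.trans sdiff_subset) fun h => hB' (mem_erase.2 ⟨?_, h⟩)
        rintro rfl
        obtain ⟨x, hx⟩ := hne B hb
        exact (mem_sdiff.1 (hB hx)).2 hx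
    rw [cpow, conv, ← sum_subset hsub fun B hB hB' => by
      rw [h0 B (mem_powerset.1 hB) hB', zero_mul], sum_congr rfl hstep, sum_const, nsmul_eq_mul]
    split_ifs with hp
    · rw [← hp, Nat.factorial_succ]
      push_cast
      ring
    · rw [mul_zero]

omit [Fintype ι] in
private theorem sub_one_ne (c : Finset ι → ℝ) {B : Finset ι} (h : B.Nonempty) :
    c B - one' B = c B := by
  simp [one', h.ne_empty]

theorem powj_empty (a : ℝ) {c : Finset ι → ℝ} (hc : c ∅ = 1) : powj a c ∅ = 1 := by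
  have h : ∀ p, cpow (fun B => c B - one' B) p ∅ = if p = 0 then 1 else 0 :=
    cpow_empty (by simp [hc, one'])
  simp [powj, h]

theorem powj_one {c : Finset ι → ℝ} (hc : c ∅ = 1) (D : Finset ι) : powj 1 c D = c D := by
  rcases D.eq_empty_or_nonempty with rfl | hD
  · rw [powj_empty 1 hc, hc]
  have h1 : 1 < Fintype.card ι + 1 := Nat.lt_succ_of_le (hD.card_pos.trans_le (card_le_univ D))
  rw [powj, sum_eq_single_of_mem 1 (mem_range.2 h1), Ring.choose_one_right, cpow_one,
    sub_one_ne c hD, one_mul]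
  rintro (_ | p) _ hp
  · simp [cpow, one', hD.ne_empty]
  · have := Ring.choose_natCast (R := ℝ) 1 (p + 1)
    rw [Nat.cast_one, Nat.choose_eq_zero_of_lt (by omega)] at this
    simp [this]

theorem powj_tw (a : ℝ) (s : ι → Bool) (c : Finset ι → ℝ) (D : Finset ι) :
    powj a (fun B => sgp s B * c B) D = sgp s D * powj a c D := by
  have h : ∀ p D, cpow (fun B => sgp s B * c B - one' B) p D =
      sgp s D * cpow (fun B => c B - one' B) p D := by
    have h1 : ∀ B : Finset ι, sgp s B * one' B = one' B := by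
      intro B
      unfold one'
      split_ifs with h <;> simp [sgp, h]
    intro p
    induction p with
    | zero => exact fun D => (h1 D).symm
    | succ p ih =>
      intro D
      simp only [cpow, conv, ih, mul_sum]
      refine sum_congr rfl fun B hB => ?_
      have e : sgp s D = sgp s (D \ B) * sgp s B := (prod_sdiff (mem_powerset.1 hB)).symm
      rw [e, ← h1 B]
      have := h1 B
      linear_combination (sgp s (D \ B) * sgp s B * cpow (fun B => c B - one' B) p (D \ B)) * this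
  simp only [powj, h, mul_sum]
  exact sum_congr rfl fun p _ => mul_left_comm _ _ _

/-- jets supported on the blocks of a partition -/
theorem powj_blocks (a : ℝ) {c : Finset ι → ℝ} (hc : c ∅ = 1) {D : Finset ι}
    {𝓑 : Finset (Finset ι)} (hne : ∀ b ∈ 𝓑, b.Nonempty)
    (hdj : ∀ b ∈ 𝓑, ∀ b' ∈ 𝓑, b ≠ b' → Disjoint b b') (hU : 𝓑.biUnion id = D)
    (h0 : ∀ B ⊆ D, B.Nonempty → B ∉ 𝓑 → c B = 0) :
    powj a c D = (𝓑.card.factorial * Ring.choose a 𝓑.card) * ∏ b ∈ 𝓑, c b := by
  have h : ∀ p, cpow (fun B => c B - one' B) p D =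
      if p = 𝓑.card then p.factorial * ∏ b ∈ 𝓑, (c b - one' b) else 0 := by
    refine fun p => cpow_blocks p hne hdj hU fun B hB hB' => ?_
    rcases B.eq_empty_or_nonempty with rfl | hB0
    · simp [hc, one']
    · rw [sub_one_ne c hB0, h0 B hB hB0 hB']
  have h1 : 𝓑.card < Fintype.card ι + 1 :=
    Nat.lt_succ_of_le ((card_le_card_biUnion (f := id) (fun b hb b' hb' => hdj b hb b' hb')
      hne).trans (card_le_univ _))
  rw [powj, sum_eq_single_of_mem _ (mem_range.2 h1) fun p _ hp => by rw [h, if_neg hp, mul_zero],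
    h, if_pos rfl, prod_congr rfl fun b hb => sub_one_ne c (hne b hb)]
  ring

/-- jets supported on `∅, A, A', A ∪ A'` -/
theorem powj_four (a : ℝ) {c : Finset ι → ℝ} (hc : c ∅ = 1) {A A' : Finset ι} (hA : A.Nonempty)
    (hA' : A'.Nonempty) (hdj : Disjoint A A')
    (h0 : ∀ B ⊆ A ∪ A', B.Nonempty → B ≠ A → B ≠ A' → B ≠ A ∪ A' → c B = 0) :
    powj a c (A ∪ A') = a * c (A ∪ A') + a * (a - 1) * (c A * c A') := by
  set c0 : Finset ι → ℝ := fun B => c B - one' B with hc0
  have e0 : c0 ∅ = 0 := by simp [hc0, hc, one']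
  have hU : (A ∪ A').Nonempty := hA.mono subset_union_left
  have n1 : ∀ B ⊆ A, B.Nonempty → B ≠ A' ∧ B ≠ A ∪ A' := by
    intro B hB _
    obtain ⟨x, hx⟩ := hA'
    constructor <;> rintro rfl
    · exact disjoint_left.1 hdj (hB hx) hx
    · exact disjoint_left.1 hdj (hB (mem_union_right _ hx)) hx
  have n2 : ∀ B ⊆ A', B.Nonempty → B ≠ A ∧ B ≠ A ∪ A' := by
    intro B hB _
    obtain ⟨x, hx⟩ := hA
    constructor <;> rintro rfl
    · exact disjoint_left.1 hdj hx (hB hx)
    · exact disjoint_left.1 hdj hx (hB (mem_union_left _ hx))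
  have z : ∀ B ⊆ A ∪ A', B ≠ A → B ≠ A' → B ≠ A ∪ A' → c0 B = 0 := by
    intro B hB h1 h2 h3
    rcases B.eq_empty_or_nonempty with rfl | hB0
    · exact e0
    · exact (sub_one_ne c hB0).trans (h0 B hB hB0 h1 h2 h3)
  have single : ∀ X : Finset ι, X.Nonempty → (∀ B ⊆ X, B ≠ X → c0 B = 0) → ∀ p,
      cpow c0 p X = if p = 1 then c X else 0 := by
    intro X hX h p
    rw [cpow_blocks (𝓑 := {X}) p (by simpa using hX) (by simp) (by simp) (by simpa using h)]
    split_ifs with h1 h2 h2
    · simp [h2, hc0, sub_one_ne c hX]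
    · simp [h2] at h1
    · simp [h2] at h1
    · rfl
  have pA := single A hA fun B hB hne => by
    rcases B.eq_empty_or_nonempty with rfl | hB0
    · exact e0
    · exact z B (hB.trans subset_union_left) hne (n1 B hB hB0).1 (n1 B hB hB0).2
  have pA' := single A' hA' fun B hB hne => by
    rcases B.eq_empty_or_nonempty with rfl | hB0
    · exact e0
    · exact z B (hB.trans subset_union_right) (n2 B hB hB0).1 hne (n2 B hB hB0).2
  have key : ∀ p, cpow c0 (p + 1) (A ∪ A') = c A * cpow c0 p A' + c A' * cpow c0 p A +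
      c (A ∪ A') * cpow c0 p ∅ := by
    intro p
    have hs : ({A, A', A ∪ A'} : Finset (Finset ι)) ⊆ (A ∪ A').powerset := by
      simp only [insert_subset_iff, singleton_subset_iff, mem_powerset]
      exact ⟨subset_union_left, subset_union_right, subset_rfl⟩
    rw [cpow, conv, ← sum_subset hs fun B hB hB' => by
      simp only [mem_insert, mem_singleton, not_or] at hB'
      rw [z B (mem_powerset.1 hB) hB'.1 hB'.2.1 hB'.2.2, zero_mul],
      sum_insert (by simpa using n1 A subset_rfl hA), sum_pair (n2 A' subset_rfl hA').2,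
      union_sdiff_cancel_left hdj, union_sdiff_cancel_right hdj, sdiff_self, bot_eq_empty]
    simp only [hc0, sub_one_ne c hA, sub_one_ne c hA', sub_one_ne c hU, add_assoc]
  have h2 : 2 ≤ Fintype.card ι := by
    have := card_le_univ (A ∪ A')
    rw [card_union_of_disjoint hdj] at this
    have := hA.card_pos
    have := hA'.card_pos
    omega
  obtain ⟨k, hk⟩ := Nat.exists_eq_add_of_le' h2
  have ch : Ring.choose a 2 * 2 = a * (a - 1) := by
    have := Ring.descPochhammer_eq_factorial_smul_choose a 2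
    simp [descPochhammer, Polynomial.smeval_mul, Polynomial.smeval_sub,
      Polynomial.smeval_X, Polynomial.smeval_one] at this
    linarith
  rw [powj, ← hc0, hk, sum_range_succ', sum_range_succ', sum_range_succ', sum_eq_zero]
  · simp only [key, pA, pA', cpow_empty e0]
    simp only [cpow, one', hU.ne_empty]
    simp
    linear_combination (c A * c A') * ch
  · intro p _
    simp [key, pA, pA', cpow_empty e0]

private theorem sg_beq (b b' : Bool) : sg (b == b') = sg b * sg b' := by
  cases b <;> cases b' <;> simp [sg]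

omit [Fintype ι] [DecidableEq ι] in
theorem tw_tw (s s' : ι → Bool) (t : ι → ℝ) : tw s (tw s' t) = tw (fun q => s q == s' q) t := by
  funext q
  simp only [tw, sg_beq, mul_assoc]

omit [Fintype ι] [DecidableEq ι] in
theorem sgp_beq (s s' : ι → Bool) (D : Finset ι) :
    sgp (fun q => s q == s' q) D = sgp s D * sgp s' D := by
  simp only [sgp, sg_beq, prod_mul_distrib]

omit [Fintype ι] [DecidableEq ι] in
theorem tw_true (t : ι → ℝ) : tw (fun _ => true) t = t := by
  funext q
  simp [tw, sg]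

omit [Fintype ι] [DecidableEq ι] in
theorem sgp_true (D : Finset ι) : sgp (fun _ => true) D = 1 := by
  simp [sgp, sg]

end

section
variable {L : Type} [Fintype L] [DecidableEq L]

omit [DecidableEq L] in
theorem gam_pos : 0 < gam L := by
  unfold gam
  positivity

private theorem sgp_orth (b D : Finset L) :
    ∑ s : L → Bool, sgp s b * sgp s D = if b = D then 2 ^ Fintype.card L else 0 := by
  have e : ∀ s : L → Bool, sgp s b * sgp s D =
      ∏ q, (if q ∈ b then sg (s q) else 1) * if q ∈ D then sg (s q) else 1 := by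
    intro s
    rw [prod_mul_distrib, prod_ite_mem, prod_ite_mem, univ_inter, univ_inter, sgp, sgp]
  simp only [e]
  rw [← Fintype.piFinset_univ, ← prod_univ_sum (fun _ => univ)
    fun q t => (if q ∈ b then sg t else 1) * if q ∈ D then sg t else 1]
  split_ifs with h
  · subst h
    rw [← card_univ, ← prod_const]
    refine prod_congr rfl fun q _ => ?_
    split_ifs <;> norm_num [sg]
  · obtain ⟨q, hq⟩ := not_forall.1 (mt Finset.ext h)
    refine prod_eq_zero (mem_univ q) ?_
    by_cases h1 : q ∈ b <;> by_cases h2 : q ∈ D <;> simp_all [sg]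

private theorem kap_rho1' (ϖ : Finset (Finset L)) (D : Finset L) :
    kap (rho1 ϖ) D = if D = ∅ then 1 else if D ∈ ϖ then gam L else 0 := by
  have e : ∀ s : L → Bool, rho1 ϖ s * sgp s D = (sgp s ∅ * sgp s D +
      gam L * ∑ b ∈ ϖ.erase ∅, sgp s b * sgp s D) / 2 ^ Fintype.card L := by
    intro s
    rw [← sum_mul, rho1, show sgp s ∅ = 1 from prod_empty]
    ring
  simp only [kap, e]
  rw [← sum_div, sum_add_distrib, ← mul_sum, sum_comm]
  simp only [sgp_orth, sum_ite_eq', mem_erase, eq_comm (a := (∅ : Finset L))]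
  by_cases h1 : D = ∅
  · simp [h1]
  · by_cases h2 : D ∈ ϖ <;> simp [h1, h2]

theorem prob_rho1 (ϖ : Finset (Finset L)) : Prob (rho1 ϖ) := by
  refine ⟨fun s => (rho1_pos ϖ s).le, ?_⟩
  simpa [kap, sgp] using kap_rho1' ϖ ∅

theorem kap_rho1 (ϖ : Finset (Finset L)) (D : Finset L) :
    kap (rho1 ϖ) D = if D = ∅ then 1 else if D ∈ ϖ then gam L else 0 :=
  kap_rho1' ϖ D

theorem sum_rho2 {R : ℕ} (π π' : Fin (R + 1) → Finset (Finset L)) (d : ℕ)
    (F : (L ⊕ L → Bool) → ℝ) : ∑ s, rho2 π π' d s * F s =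
      ∑ s₁, rho1 (π (lv R d)) s₁ * ∑ s₂, rho1 (π' (lv R d)) s₂ * F (Sum.elim s₁ s₂) := by
  rw [← (Equiv.sumArrowEquivProdArrow L L Bool).symm.sum_comp, Fintype.sum_prod_type]
  refine sum_congr rfl fun s₁ _ => ?_
  rw [mul_sum]
  refine sum_congr rfl fun s₂ _ => ?_
  rw [← mul_assoc]
  rfl

theorem prob_rho2 {R : ℕ} (π π' : Fin (R + 1) → Finset (Finset L)) (d : ℕ) :
    Prob (rho2 π π' d) := by
  refine ⟨fun s => (mul_pos (rho1_pos _ _) (rho1_pos _ _)).le, ?_⟩
  simpa [(prob_rho1 _).2] using sum_rho2 π π' d fun _ => 1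

theorem kap_rho2 {R : ℕ} (π π' : Fin (R + 1) → Finset (Finset L)) (d : ℕ) (D : Finset (L ⊕ L)) :
    kap (rho2 π π' d) D = kap (rho1 (π (lv R d))) D.toLeft * kap (rho1 (π' (lv R d))) D.toRight := by
  rw [kap, sum_rho2, kap, kap, sum_mul]
  refine sum_congr rfl fun s₁ _ => ?_
  rw [mul_assoc, mul_sum _ _ (sgp _ _)]
  refine congrArg _ (sum_congr rfl fun s₂ _ => ?_)
  rw [sgp, prod_sum_eq_prod_toLeft_mul_prod_toRight, mul_left_comm]
  rfl

private theorem poly_w1 (f t : L → ℝ) : poly (w1 f) t = 1 + ∑ q, t q * f q := by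
  simp only [poly, w1, one', add_mul, sum_add_distrib, sum_mul, ite_mul, one_mul, zero_mul]
  rw [sum_comm]
  simp [mul_comm]

theorem poly_w2 (f f' : L → ℝ) (t : L ⊕ L → ℝ) : poly (w2 f f') t =
    (1 + ∑ q, t (Sum.inl q) * f q) * (1 + ∑ q, t (Sum.inr q) * f' q) := by
  rw [← poly_w1, ← poly_w1, poly, poly, poly, sum_mul_sum, ← Fintype.sum_prod_type']
  refine Fintype.sum_equiv Finset.sumEquiv.toEquiv _ _ fun D => ?_
  rw [prod_sum_eq_prod_toLeft_mul_prod_toRight, w2, mul_mul_mul_comm]
  rfl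

theorem w1_empty (f : L → ℝ) : w1 f ∅ = 1 := by
  simp [w1, one', (singleton_ne_empty _).symm]

theorem w1_single (f : L → ℝ) (q : L) : w1 f {q} = f q := by
  simp [w1, one']

theorem abs_w1_le {f : L → ℝ} (hf : Cube f) (D : Finset L) : |w1 f D| ≤ 1 := by
  by_cases h : ∃ q, D = {q}
  · obtain ⟨q, rfl⟩ := h
    rw [w1_single]
    exact hf q
  · rw [w1, sum_eq_zero fun q _ => if_neg fun e => h ⟨q, e⟩, add_zero, one']
    split_ifs <;> simp

omit [Fintype L] in
theorem alt_disjSum (D D' : Finset L) (F : Finset (L ⊕ L) → ℝ) :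
    alt (D.disjSum D') F = alt D fun B => alt D' fun B' => F (B.disjSum B') := by
  simp only [alt, mul_sum]
  rw [← sum_product']
  refine sum_nbij' (fun B => (B.toLeft, B.toRight)) (fun p => p.1.disjSum p.2) ?_ ?_ ?_ ?_ ?_
  · intro B hB
    simpa [subset_disjSum] using hB
  · intro p hp
    simpa [subset_disjSum] using hp
  · exact fun B _ => toLeft_disjSum_toRight
  · intro p _
    simp
  · intro B hB
    obtain ⟨h1, h2⟩ := subset_disjSum.1 (mem_powerset.1 hB)
    have := card_le_card h1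
    have := card_le_card h2
    rw [toLeft_disjSum_toRight, ← mul_assoc, ← pow_add, card_disjSum,
      ← card_toLeft_add_card_toRight (u := B)]
    congr 2
    simp only
    omega

theorem lv_val {R d : ℕ} (h : d ≤ R) : (lv R d : ℕ) = d :=
  Nat.mod_eq_of_lt (Nat.lt_succ_of_le h)

end

end Vale.Agent.P168
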