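import Vale.Agent.P168.Jet
import Vale.Agent.P168.Powj
import Vale.Agent.P168.Casc2

/-! Uniform jet expansion of `GG` and `Gam`. -/

namespace Vale.Agent.P168

open Finset

namespace Casc

variable {ι Ω : Type} [Fintype ι] [DecidableEq ι] [Fintype Ω] (C : Casc Ω) {m : ℕ → ℝ}
  {ρ : ℕ → (ι → Bool) → ℝ} {wj : Ω → Finset ι → ℝ} {R d : ℕ}

theorem GG_top (t : ι → ℝ) (ω : Ω) : C.GG m ρ wj R R t ω = poly (wj ω) t := by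
  rw [GG, Nat.sub_self, GGk]

theorem GG_lt (h : d < R) (t : ι → ℝ) :
    C.GG m ρ wj R d t = C.E d (C.Gam m ρ wj R (d + 1) t) := by
  rw [GG, show R - d = (R - (d + 1)) + 1 by omega, GGk]
  rfl

theorem JJ_top : C.JJ m ρ wj R R = wj := by
  rw [JJ, Nat.sub_self, JJk]

theorem JJ_lt (h : d < R) (ω : Ω) (D : Finset ι) :
    C.JJ m ρ wj R d ω D = C.E d (fun x => C.JJ' m ρ wj R (d + 1) x D) ω := by
  rw [JJ, show R - d = (R - (d + 1)) + 1 by omega, JJk]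
  rfl

theorem jetG_JJk (hρ : ∀ d, ∑ s, ρ d s = 1) (hw : ∀ ω, wj ω ∅ = 1) :
    ∀ (k d : ℕ) (ω : Ω), C.JJk m ρ wj k d ω ∅ = 1
  | 0, _, ω => hw ω
  | k + 1, d, ω => by
    simp only [JJk, powj_empty _ (jetG_JJk hρ hw k (d + 1) _), kap, sgp, prod_empty, mul_one, hρ,
      E_const]

theorem JJ_empty (hρ : ∀ d, ∑ s, ρ d s = 1) (hw : ∀ ω, wj ω ∅ = 1) (ω : Ω) :
    C.JJ m ρ wj R d ω ∅ = 1 := C.jetG_JJk hρ hw _ _ ω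

theorem JJ'_empty (hρ : ∀ d, ∑ s, ρ d s = 1) (hw : ∀ ω, wj ω ∅ = 1) (ω : Ω) :
    C.JJ' m ρ wj R d ω ∅ = 1 := by
  simp only [JJ', powj_empty _ (C.JJ_empty hρ hw ω), kap, sgp, prod_empty, mul_one, hρ]

end Casc

section
variable (ι : Type) [Fintype ι] [DecidableEq ι] (m : ℕ → ℝ) (R : ℕ)

/-- uniform regularity of `GG` at depth `d` -/
def JetP (d : ℕ) (c θ₀ : ℝ) : Prop :=
  ∀ θ, 0 ≤ θ → θ ≤ θ₀ → ∀ (Ω : Type) [Fintype Ω] (C : Casc Ω) (ρ : ℕ → (ι → Bool) → ℝ)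
    (wj : Ω → Finset ι → ℝ), (∀ d, Prob (ρ d)) → (∀ ω D, |wj ω D| ≤ 1) → (∀ ω, wj ω ∅ = 1) →
    ∀ s ω, Reg θ c (fun B => C.GG m ρ wj R d (tw s (chi θ B)) ω)
      fun D => sgp s D * C.JJ m ρ wj R d ω D

/-- uniform regularity of `Gam` at depth `d` -/
def JetQ (d : ℕ) (c θ₀ : ℝ) : Prop :=
  ∀ θ, 0 ≤ θ → θ ≤ θ₀ → ∀ (Ω : Type) [Fintype Ω] (C : Casc Ω) (ρ : ℕ → (ι → Bool) → ℝ)
    (wj : Ω → Finset ι → ℝ), (∀ d, Prob (ρ d)) → (∀ ω D, |wj ω D| ≤ 1) → (∀ ω, wj ω ∅ = 1) →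
    ∀ s ω, Reg θ c (fun B => C.Gam m ρ wj R d (tw s (chi θ B)) ω)
      fun D => sgp s D * C.JJ' m ρ wj R d ω D

variable {ι m R}

theorem JetP.mono {d : ℕ} {c c' θ₀ θ₁ : ℝ} (h : JetP ι m R d c θ₀) (hc : c ≤ c') (hθ : θ₁ ≤ θ₀) :
    JetP ι m R d c' θ₁ := fun θ h0 h1 Ω _ C ρ wj a1 a2 a3 s ω =>
  (h θ h0 (h1.trans hθ) Ω C ρ wj a1 a2 a3 s ω).mono h0 hc

theorem JetQ.mono {d : ℕ} {c c' θ₀ θ₁ : ℝ} (h : JetQ ι m R d c θ₀) (hc : c ≤ c') (hθ : θ₁ ≤ θ₀) :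
    JetQ ι m R d c' θ₁ := fun θ h0 h1 Ω _ C ρ wj a1 a2 a3 s ω =>
  (h θ h0 (h1.trans hθ) Ω C ρ wj a1 a2 a3 s ω).mono h0 hc

theorem jetP_top : JetP ι m R R 1 1 := by
  intro θ h0 _ Ω _ C ρ wj _ a2 _ s ω
  simp only [Casc.GG_top, Casc.JJ_top]
  exact reg_poly h0 (a2 ω) s

theorem JetP.toQ {d : ℕ} {c θ₀ : ℝ} (h : JetP ι m R d c θ₀) (h0 : 0 < θ₀) :
    ∃ c' θ₁ : ℝ, 0 < θ₁ ∧ JetQ ι m R d c' θ₁ := by
  obtain ⟨c', θ₁, h1, h2⟩ := reg_rpow ι (ex m d) c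
  refine ⟨c', min θ₀ θ₁, lt_min h0 h1, fun θ b0 b1 Ω _ C ρ wj a1 a2 a3 s ω => ?_⟩
  have h3 := reg_sum (a1 d) fun s' => h2 θ b0 (b1.trans (min_le_right _ _)) _ _
    (h θ b0 (b1.trans (min_le_left _ _)) Ω C ρ wj a1 a2 a3 (fun q => s' q == s q) ω)
    (by rw [C.JJ_empty (fun d => (a1 d).2) a3, sgp, prod_empty, mul_one])
  have e : (fun D => sgp s D * C.JJ' m ρ wj R d ω D) = fun D => ∑ s', ρ d s' *
      powj (ex m d) (fun D => sgp (fun q => s' q == s q) D * C.JJ m ρ wj R d ω D) D := by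
    funext D
    simp only [powj_tw, Casc.JJ', kap, sum_mul, mul_sum]
    exact sum_congr rfl fun s' _ => by rw [sgp_beq]; ring
  simp only [Casc.Gam, tw_tw]
  rwa [e]

theorem JetQ.toP {d : ℕ} {c θ₀ : ℝ} (hd : d < R) (h : JetQ ι m R (d + 1) c θ₀) :
    JetP ι m R d c θ₀ := by
  intro θ b0 b1 Ω _ C ρ wj a1 a2 a3 s ω
  have h3 := reg_sum (w := C.ker d ω) ⟨C.ker_nonneg d ω, C.ker_sum d ω⟩
    fun x => h θ b0 b1 Ω C ρ wj a1 a2 a3 s x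
  simp only [C.GG_lt hd, C.JJ_lt hd, Casc.E, mul_sum, mul_left_comm (sgp s _)]
  exact h3

theorem jetG_all : ∀ d ≤ R, ∃ c θ₀ : ℝ, 0 < θ₀ ∧ ∀ e, d ≤ e → e ≤ R →
    JetP ι m R e c θ₀ ∧ JetQ ι m R e c θ₀ := by
  refine down_ind ?_ ?_
  · obtain ⟨c, θ₀, h0, h⟩ := (jetP_top (ι := ι) (m := m) (R := R)).toQ one_pos
    refine ⟨max 1 c, min 1 θ₀, lt_min one_pos h0, fun e h1 h2 => ?_⟩
    obtain rfl := le_antisymm h1 h2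
    exact ⟨jetP_top.mono (le_max_left _ _) (min_le_left _ _),
      h.mono (le_max_right _ _) (min_le_right _ _)⟩
  · rintro d hd ⟨c, θ₀, h0, h⟩
    have h1 := (h (d + 1) le_rfl hd).2.toP hd
    obtain ⟨c', θ₁, h2, h3⟩ := h1.toQ h0
    refine ⟨max c c', min θ₀ θ₁, lt_min h0 h2, fun e h4 h5 => ?_⟩
    rcases h4.eq_or_lt with rfl | h4
    · exact ⟨h1.mono (le_max_left _ _) (min_le_left _ _),
        h3.mono (le_max_right _ _) (min_le_right _ _)⟩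
    · exact ⟨(h e h4 h5).1.mono (le_max_left _ _) (min_le_left _ _),
        (h e h4 h5).2.mono (le_max_left _ _) (min_le_left _ _)⟩

end

theorem jetG (ι : Type) [Fintype ι] [DecidableEq ι] (m : ℕ → ℝ) (R : ℕ) :
    ∃ c θ₀ : ℝ, 0 < θ₀ ∧ ∀ θ, 0 ≤ θ → θ ≤ θ₀ → ∀ (Ω : Type) [Fintype Ω] (C : Casc Ω)
      (ρ : ℕ → (ι → Bool) → ℝ) (wj : Ω → Finset ι → ℝ), (∀ d, Prob (ρ d)) →
      (∀ ω D, |wj ω D| ≤ 1) → (∀ ω, wj ω ∅ = 1) → ∀ d ≤ R, ∀ (ω : Ω) (E : Finset ι),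
        |alt E (fun B => C.GG m ρ wj R d (chi θ B) ω) - θ ^ E.card * C.JJ m ρ wj R d ω E| ≤
          c * θ ^ (E.card + 1) ∧
        |alt E (fun B => C.Gam m ρ wj R d (chi θ B) ω) - θ ^ E.card * C.JJ' m ρ wj R d ω E| ≤
          c * θ ^ (E.card + 1) ∧
        |C.JJ m ρ wj R d ω E| ≤ c ∧ |C.JJ' m ρ wj R d ω E| ≤ c := by
  obtain ⟨c, θ₀, h0, h⟩ := jetG_all (ι := ι) (m := m) (R := R) 0 (Nat.zero_le _)
  refine ⟨(2 ^ Fintype.card ι + 1) * c, min θ₀ 1, lt_min h0 one_pos,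
    fun θ b0 b1 Ω _ C ρ wj a1 a2 a3 d hd ω E => ?_⟩
  have h1 := (h d (Nat.zero_le _) hd).1 θ b0 (b1.trans (min_le_left _ _)) Ω C ρ wj a1 a2 a3
    (fun _ => true) ω
  have h2 := (h d (Nat.zero_le _) hd).2 θ b0 (b1.trans (min_le_left _ _)) Ω C ρ wj a1 a2 a3
    (fun _ => true) ω
  simp only [tw_true, sgp_true, one_mul] at h1 h2
  have h3 := h1.choose_spec.2.2 E
  have h4 : c ≤ (2 ^ Fintype.card ι + 1) * c :=
    le_mul_of_one_le_left ((abs_nonneg _).trans h3) (le_add_of_nonneg_left (by positivity))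
  exact ⟨reg_alt b0 (b1.trans (min_le_right _ _)) h1 E, reg_alt b0 (b1.trans (min_le_right _ _)) h2 E,
    h3.trans h4, (h2.choose_spec.2.2 E).trans h4⟩

end Vale.Agent.P168
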