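import Vale.Agent.P168.XXl
import Vale.Agent.P168.JetG

/-! Two test fields added to a cascade. -/

namespace Vale.Agent.P168

open Finset

section
variable {L I Ω : Type} [Fintype L] [DecidableEq L] [Fintype I] [Fintype Ω] {R : ℕ} (C : Casc Ω)
  (ev : Ω → I → Bool) {θ : ℝ}

/-- jets of the product of two test fields over a general cascade -/
def wj2' (x x' : I × Sp L R) (ω : Ω) : Finset (L ⊕ L) → ℝ :=
  w2 (fun q => ind (ev ω x.1) (x.2.2.1 q)) fun q => ind (ev ω x'.1) (x'.2.2.1 q)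

noncomputable def Gm (θ : ℝ) (d : ℕ) (x x' : I × Sp L R) : Ω → ℝ :=
  C.Gam (mm R) (rho2 x.2.1 x'.2.1) (wj2' ev x x') R d (chi θ (x.2.2.2.disjSum x'.2.2.2))

theorem lk_ex (hR : 1 ≤ R) (d : ℕ) : 0 ≤ ex (mm R) d ∧ ex (mm R) d ≤ 1 := by
  have h : (0 : ℝ) < R := by exact_mod_cast hR
  have h1 := (lv_mm hR).pos d
  have h2 : 0 ≤ mm R d := div_nonneg (Nat.cast_nonneg _) h.le
  have h3 : mm R d ≤ mm R (d + 1) := by
    refine div_le_div_of_nonneg_right ?_ h.le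
    exact_mod_cast (by omega : min d R ≤ min (d + 1) R)
  exact ⟨div_nonneg h2 h1.le, (div_le_one h1).2 h3⟩

theorem lk_rpow {y a : ℝ} (ha : 0 ≤ a ∧ a ≤ 1) (hy : 1 / 4 ≤ y ∧ y ≤ 4) :
    1 / 4 ≤ y ^ a ∧ y ^ a ≤ 4 := by
  constructor
  · calc (1 / 4 : ℝ) = (1 / 4) ^ (1 : ℝ) := (Real.rpow_one _).symm
      _ ≤ (1 / 4) ^ a := Real.rpow_le_rpow_of_exponent_ge (by norm_num) (by norm_num) ha.2
      _ ≤ y ^ a := Real.rpow_le_rpow (by norm_num) hy.1 ha.1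
  · calc y ^ a ≤ 4 ^ a := Real.rpow_le_rpow (by linarith [hy.1]) hy.2 ha.1
      _ ≤ 4 ^ (1 : ℝ) := Real.rpow_le_rpow_of_exponent_le (by norm_num) ha.2
      _ = 4 := Real.rpow_one _

theorem lk_conv {X : Type} [Fintype X] {p f : X → ℝ} (hp : Prob p) {a b : ℝ}
    (hf : ∀ s, a ≤ f s ∧ f s ≤ b) : a ≤ ∑ s, p s * f s ∧ ∑ s, p s * f s ≤ b := by
  constructor
  · calc a = ∑ s, p s * a := by rw [← sum_mul, hp.2, one_mul]
      _ ≤ _ := sum_le_sum fun s _ => mul_le_mul_of_nonneg_left (hf s).1 (hp.1 s)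
  · calc _ ≤ ∑ s, p s * b := sum_le_sum fun s _ => mul_le_mul_of_nonneg_left (hf s).2 (hp.1 s)
      _ = b := by rw [← sum_mul, hp.2, one_mul]

omit [DecidableEq L] in
theorem lk_lin (h1 : θ * Fintype.card L ≤ 1 / 2) {t : L → ℝ} (ht : ∀ q, |t q| ≤ θ)
    (b : Bool) (τ : L → Bool) :
    1 / 2 ≤ 1 + ∑ q, t q * ind b (τ q) ∧ 1 + ∑ q, t q * ind b (τ q) ≤ 3 / 2 := by
  have h : |∑ q, t q * ind b (τ q)| ≤ θ * Fintype.card L := by
    refine (abs_sum_le_sum_abs _ _).trans ?_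
    have h2 : ∀ q ∈ (univ : Finset L), |t q * ind b (τ q)| ≤ θ := fun q _ => by
      unfold ind
      split_ifs
      · simpa using ht q
      · simpa using (abs_nonneg _).trans (ht q)
    refine (sum_le_sum h2).trans_eq ?_
    rw [sum_const, card_univ, nsmul_eq_mul, mul_comm]
  have := abs_le.1 h
  constructor <;> linarith [this.1, this.2]

omit [Fintype I] in
theorem lk_GGk_mem (hR : 1 ≤ R) (h1 : θ * Fintype.card L ≤ 1 / 2) (x x' : I × Sp L R) :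
    ∀ (k d : ℕ) (t : L ⊕ L → ℝ), (∀ q, |t q| ≤ θ) → ∀ ω,
      1 / 4 ≤ C.GGk (mm R) (rho2 x.2.1 x'.2.1) (wj2' ev x x') k d t ω ∧
        C.GGk (mm R) (rho2 x.2.1 x'.2.1) (wj2' ev x x') k d t ω ≤ 4
  | 0, d, t, ht, ω => by
    simp only [Casc.GGk, wj2', poly_w2]
    have a1 := lk_lin h1 (fun q => ht (Sum.inl q)) (ev ω x.1) x.2.2.1
    have a2 := lk_lin h1 (fun q => ht (Sum.inr q)) (ev ω x'.1) x'.2.2.1
    constructor <;> nlinarith [a1.1, a1.2, a2.1, a2.2]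
  | k + 1, d, t, ht, ω => by
    have h : ∀ y, 1 / 4 ≤ ∑ s, rho2 x.2.1 x'.2.1 (d + 1) s *
        C.GGk (mm R) (rho2 x.2.1 x'.2.1) (wj2' ev x x') k (d + 1) (tw s t) y ^ ex (mm R) (d + 1) ∧
        ∑ s, rho2 x.2.1 x'.2.1 (d + 1) s *
        C.GGk (mm R) (rho2 x.2.1 x'.2.1) (wj2' ev x x') k (d + 1) (tw s t) y ^ ex (mm R) (d + 1)
          ≤ 4 := fun y =>
      lk_conv (prob_rho2 _ _ _) fun s => lk_rpow (lk_ex hR _)
        (lk_GGk_mem hR h1 x x' k (d + 1) (tw s t) (fun q => by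
          rw [tw, abs_mul, abs_sg, one_mul]
          exact ht q) y)
    exact ⟨C.le_E (fun y => (h y).1) ω, C.E_le (fun y => (h y).2) ω⟩

theorem lk_sum_triv (π π' π'' : Fin (R + 1) → Finset (Finset L)) (d : ℕ)
    (F : (L ⊕ L → ℝ) → ℝ) {t : L ⊕ L → ℝ} (ht : ∀ q, t (Sum.inr q) = 0) :
    ∑ s, rho2 π π' d s * F (tw s t) = ∑ s, rho2 π π'' d s * F (tw s t) := by
  have e : ∀ s₁ s₂ : L → Bool, tw (Sum.elim s₁ s₂) t = tw (Sum.elim s₁ fun _ => true) t := by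
    intro s₁ s₂
    funext q
    rcases q with q | q
    · rfl
    · simp [tw, ht]
  rw [sum_rho2 π π' d fun s => F (tw s t), sum_rho2 π π'' d fun s => F (tw s t)]
  refine sum_congr rfl fun s₁ _ => congrArg _ ?_
  simp only [e s₁, ← sum_mul, (prob_rho1 _).2]

omit [Fintype I] in
theorem lk_GGk_triv (x o o' : I × Sp L R) :
    ∀ (k d : ℕ) (t : L ⊕ L → ℝ), (∀ q, t (Sum.inr q) = 0) →
      C.GGk (mm R) (rho2 x.2.1 o'.2.1) (wj2' ev x o') k d t =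
        C.GGk (mm R) (rho2 x.2.1 o.2.1) (wj2' ev x o) k d t
  | 0, d, t, ht => by
    funext ω
    simp only [Casc.GGk, wj2', poly_w2, ht, zero_mul, sum_const_zero]
  | k + 1, d, t, ht => by
    funext ω
    refine C.E_congr fun y _ => ?_
    have h : ∀ s, C.GGk (mm R) (rho2 x.2.1 o'.2.1) (wj2' ev x o') k (d + 1) (tw s t) =
        C.GGk (mm R) (rho2 x.2.1 o.2.1) (wj2' ev x o) k (d + 1) (tw s t) := fun s =>
      lk_GGk_triv x o o' k (d + 1) (tw s t) fun q => by rw [tw, ht, mul_zero]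
    simp only [h]
    exact lk_sum_triv _ _ _ _ (fun u => C.GGk (mm R) (rho2 x.2.1 o.2.1) (wj2' ev x o) k (d + 1) u y ^
      ex (mm R) (d + 1)) ht

omit [Fintype I] in
theorem lk_GGk_one (o o' : I × Sp L R) :
    ∀ (k d : ℕ) (t : L ⊕ L → ℝ), (∀ q, t q = 0) → ∀ ω,
      C.GGk (mm R) (rho2 o'.2.1 o.2.1) (wj2' ev o' o) k d t ω = 1
  | 0, d, t, ht, ω => by
    simp only [Casc.GGk, wj2', poly_w2, ht, zero_mul, sum_const_zero, add_zero, mul_one]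
  | k + 1, d, t, ht, ω => by
    have h : ∀ s y, C.GGk (mm R) (rho2 o'.2.1 o.2.1) (wj2' ev o' o) k (d + 1) (tw s t) y = 1 :=
      fun s y => lk_GGk_one o o' k (d + 1) (tw s t) (fun q => by rw [tw, ht, mul_zero]) y
    simp only [Casc.GGk, h, Real.one_rpow, mul_one, (prob_rho2 _ _ _).2, Casc.E_const]

omit [Fintype I] in
theorem lk_pi {j l d : ℕ} (ϖ : Finset (Finset L)) (hl : d < max (lv R l : ℕ) (j + 1))
    (K : (L → Bool) → ℝ) (y : Fin (R + 1) × Finset (Finset L) → L → Bool) :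
    (Casc.pi fun c : Fin (R + 1) × Finset (Finset L) =>
      lev (max c.1 (j + 1)) (rho1 c.2) (rho1_pos c.2)).E d (fun z => K (z (lv R l, ϖ))) y =
      ∑ s, rho1 ϖ s * K s := by
  rw [(fac_eval (fun c : Fin (R + 1) × Finset (Finset L) =>
      lev (max c.1 (j + 1)) (rho1 c.2) (rho1_pos c.2)) (lv R l, ϖ)).E d K y, E_lev_lt hl,
    (prob_rho1 _).2, div_one]

theorem lk_one {j l : ℕ} (h1 : j + 1 ≤ l) (h2 : l < R) (G : I × Sp L R → (L → ℝ) → ℝ)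
    (φ : Fl I L R) : (fld I L R j).E l (fun ψ => G ψ.1 (amp θ j (l + 1) ψ)) φ =
      ∑ s, rho1 (φ.1.2.1 (lv R (l + 1))) s * G φ.1 (tw s (amp θ j l φ)) := by
  have e : (fld I L R j).E l (fun ψ => G ψ.1 (amp θ j (l + 1) ψ)) φ = (fld I L R j).E l
      (fun ψ => G φ.1 (tw (ψ.2 (lv R (l + 1), φ.1.2.1 (lv R (l + 1)))) (amp θ j l φ))) φ := by
    refine Casc.E_congr _ fun ψ hψ => ?_
    have a1 : φ.1 = ψ.1 := hψ.1 h1
    have a2 : ∀ c : Fin (R + 1) × Finset (Finset L), max (c.1 : ℕ) (j + 1) ≤ l → φ.2 c = ψ.2 c :=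
      fun c => hψ.2 c
    rw [← a1]
    refine congrArg _ (funext fun q => ?_)
    simp only [amp, tw, ← a1]
    split_ifs
    · rw [prod_Ioc_succ_top (by omega)]
      have a3 : ∏ d ∈ Ioc j l, sg (ψ.2 (lv R d, φ.1.2.1 (lv R d)) q) =
          ∏ d ∈ Ioc j l, sg (φ.2 (lv R d, φ.1.2.1 (lv R d)) q) := by
        refine prod_congr rfl fun d hd => ?_
        have hd' := (mem_Ioc.1 hd).2
        rw [a2 (lv R d, φ.1.2.1 (lv R d)) (max_le (by rw [lv_val (by omega)]; exact hd') h1)]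
      rw [a3]
      ring
    · rw [mul_zero]
  rw [e, fld, E_prod]
  have e2 := lk_pi (j := j) (l := l + 1) (d := l) (φ.1.2.1 (lv R (l + 1)))
    (lt_max_of_lt_left (by rw [lv_val (by omega)]; omega)) (fun s => G φ.1 (tw s (amp θ j l φ))) φ.2
  simp only [e2, Casc.E_const]

theorem lk_zero {j : ℕ} (G : I × Sp L R → (L → ℝ) → ℝ) (φ : Fl I L R) :
    (fld I L R j).E j (fun ψ => G ψ.1 (amp θ j (j + 1) ψ)) φ =
      avg fun x : I × Sp L R => ∑ s, rho1 (x.2.1 (lv R (j + 1))) s * G x (tw s (chi θ x.2.2.2)) := by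
  rw [fld, E_prod, E_ulev_lt (Nat.lt_succ_self j)]
  refine congrArg _ (funext fun x => ?_)
  rw [← lk_pi (j := j) (l := j + 1) (d := j) (x.2.1 (lv R (j + 1)))
    (lt_max_of_lt_right (Nat.lt_succ_self j)) (fun s => G x (tw s (chi θ x.2.2.2))) φ.2]
  refine Casc.E_congr _ fun z _ => congrArg _ (funext fun q => ?_)
  simp only [amp, tw, chi, Nat.Ioc_succ_singleton, prod_singleton]
  split_ifs
  · ring
  · rw [mul_zero]

omit [Fintype L] [DecidableEq L] in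
theorem lk_tw (s₁ s₂ : L → Bool) (a a' : L → ℝ) :
    tw (Sum.elim s₁ s₂) (Sum.elim a a') = Sum.elim (tw s₁ a) (tw s₂ a') := by
  funext q
  rcases q with q | q <;> rfl

omit [Fintype L] in
theorem lk_chi (θ : ℝ) (B B' : Finset L) :
    chi θ (B.disjSum B') = Sum.elim (chi θ B) (chi θ B') := by
  funext q
  rcases q with q | q <;> simp [chi]

theorem lk_exp (hR : 1 ≤ R) (d : ℕ) (u : ℝ) :
    Real.exp (mm R d * u) = Real.exp (mm R (d + 1) * u) ^ ex (mm R) d := by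
  have h := ((lv_mm hR).pos d).ne'
  rw [← Real.exp_mul, ex]
  congr 1
  field_simp

theorem lk_T (h0 : 0 ≤ θ) (h1 : θ * Fintype.card L ≤ 1 / 2) {j : ℕ} (hj : j < R) :
    ∀ l ≤ R, j + 1 ≤ l → ∀ ω : Ω × Fl I L R × Fl I L R,
      Real.exp (mm R (l + 1) * (C.prod ((fld I L R j).prod (fld I L R j))).T (mm R) R l
        (fun y => Real.log (Wf θ j (ev y.1) y.2.1) + Real.log (Wf θ j (ev y.1) y.2.2)) ω) =
      C.GG (mm R) (rho2 ω.2.1.1.2.1 ω.2.2.1.2.1) (wj2' ev ω.2.1.1 ω.2.2.1) R l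
        (Sum.elim (amp θ j l ω.2.1) (amp θ j l ω.2.2)) ω.1 := by
  have hR : 1 ≤ R := by omega
  refine down_ind (fun _ ω => ?_) fun l hl ih hjl ω => ?_
  · have a1 := (Wf_mem h0 h1 j (ev ω.1) ω.2.1).1
    have a2 := (Wf_mem h0 h1 j (ev ω.1) ω.2.2).1
    rw [Casc.T_top, mm_of_ge hR (Nat.le_succ R), one_mul, Real.exp_add,
      Real.exp_log (by linarith), Real.exp_log (by linarith), Casc.GG_top, wj2', poly_w2]
    rfl
  · rw [Casc.exp_T _ (lv_mm hR).pos hl, Casc.GG_lt _ hl]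
    simp only [lk_exp hR (l + 1), ih (by omega)]
    rw [E_prod]
    refine C.E_congr fun y _ => ?_
    rw [E_prod]
    have e1 : ∀ ψ : Fl I L R, (fld I L R j).E l (fun ψ' =>
        C.GG (mm R) (rho2 ψ.1.2.1 ψ'.1.2.1) (wj2' ev ψ.1 ψ'.1) R (l + 1)
          (Sum.elim (amp θ j (l + 1) ψ) (amp θ j (l + 1) ψ')) y ^ ex (mm R) (l + 1)) ω.2.2 =
        ∑ s₂, rho1 (ω.2.2.1.2.1 (lv R (l + 1))) s₂ *
          C.GG (mm R) (rho2 ψ.1.2.1 ω.2.2.1.2.1) (wj2' ev ψ.1 ω.2.2.1) R (l + 1)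
          (Sum.elim (amp θ j (l + 1) ψ) (tw s₂ (amp θ j l ω.2.2))) y ^ ex (mm R) (l + 1) :=
      fun ψ => lk_one hjl hl (fun x' a' => C.GG (mm R) (rho2 ψ.1.2.1 x'.2.1) (wj2' ev ψ.1 x') R
        (l + 1) (Sum.elim (amp θ j (l + 1) ψ) a') y ^ ex (mm R) (l + 1)) ω.2.2
    simp only [e1]
    rw [lk_one hjl hl (fun x a => ∑ s₂, rho1 (ω.2.2.1.2.1 (lv R (l + 1))) s₂ *
      C.GG (mm R) (rho2 x.2.1 ω.2.2.1.2.1) (wj2' ev x ω.2.2.1) R (l + 1)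
        (Sum.elim a (tw s₂ (amp θ j l ω.2.2))) y ^ ex (mm R) (l + 1)) ω.2.1, Casc.Gam, sum_rho2]
    simp only [lk_tw]

theorem Gm_mem (hR : 1 ≤ R) (h0 : 0 ≤ θ) (h1 : θ * Fintype.card L ≤ 1 / 2) {d : ℕ} (hd : d ≤ R)
    (x x' : I × Sp L R) (ω : Ω) : 1 / 4 ≤ Gm C ev θ d x x' ω ∧ Gm C ev θ d x x' ω ≤ 4 := by
  refine lk_conv (prob_rho2 _ _ _) fun s => lk_rpow (lk_ex hR _)
    (lk_GGk_mem C ev hR h1 x x' _ _ _ (fun q => ?_) ω)
  rw [tw, abs_mul, abs_sg, one_mul, chi]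
  split_ifs
  · exact (abs_of_nonneg h0).le
  · simpa using h0

theorem Gm_triv {d : ℕ} (hd : d ≤ R) (x : I × Sp L R) {o o' : I × Sp L R} (ho : o.2.2.2 = ∅)
    (ho' : o'.2.2.2 = ∅) (ω : Ω) : Gm C ev θ d x o' ω = Gm C ev θ d x o ω := by
  have ht : ∀ q, chi θ (x.2.2.2.disjSum (∅ : Finset L)) (Sum.inr q) = 0 := fun q => by simp [chi]
  have h : ∀ s, C.GG (mm R) (rho2 x.2.1 o'.2.1) (wj2' ev x o') R d
      (tw s (chi θ (x.2.2.2.disjSum ∅))) = C.GG (mm R) (rho2 x.2.1 o.2.1) (wj2' ev x o) R d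
      (tw s (chi θ (x.2.2.2.disjSum ∅))) := fun s =>
    lk_GGk_triv C ev x o o' _ _ _ fun q => by rw [tw, ht, mul_zero]
  simp only [Gm, Casc.Gam, ho, ho', h]
  exact lk_sum_triv _ _ _ _ (fun u => C.GG (mm R) (rho2 x.2.1 o.2.1) (wj2' ev x o) R d u ω ^
    ex (mm R) d) ht

theorem Gm_one {d : ℕ} (hd : d ≤ R) {o o' : I × Sp L R} (ho : o.2.2.2 = ∅) (ho' : o'.2.2.2 = ∅)
    (ω : Ω) : Gm C ev θ d o' o ω = 1 := by
  have h : ∀ s, C.GG (mm R) (rho2 o'.2.1 o.2.1) (wj2' ev o' o) R d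
      (tw s (chi θ ((∅ : Finset L).disjSum ∅))) ω = 1 := fun s =>
    lk_GGk_one C ev o o' _ _ _ (fun q => by simp [tw, chi]) ω
  simp only [Gm, Casc.Gam, ho, ho', h, Real.one_rpow, mul_one, (prob_rho2 _ _ _).2]

theorem link (h0 : 0 ≤ θ) (h1 : θ * Fintype.card L ≤ 1 / 2) {j : ℕ} (hj : j < R)
    (F : I × Sp L R → I × Sp L R → Ω → ℝ) (ω : Ω × Fl I L R × Fl I L R) :
    (C.prod ((fld I L R j).prod (fld I L R j))).E j (fun x => F x.2.1.1 x.2.2.1 x.1 *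
      Real.exp (mm R (j + 1) * (C.prod ((fld I L R j).prod (fld I L R j))).T (mm R) R (j + 1)
        (fun y => Real.log (Wf θ j (ev y.1) y.2.1) + Real.log (Wf θ j (ev y.1) y.2.2)) x)) ω =
    avg fun x => avg fun x' => C.E j (fun y => F x x' y * Gm C ev θ (j + 1) x x' y) ω.1 := by
  have hR : 1 ≤ R := by omega
  simp only [lk_exp hR (j + 1), lk_T C ev h0 h1 hj (j + 1) hj le_rfl]
  rw [E_prod]
  simp only [← Casc.E_avg]
  refine C.E_congr fun y _ => ?_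
  rw [E_prod]
  have e1 : ∀ ψ : Fl I L R, (fld I L R j).E j (fun ψ' => F ψ.1 ψ'.1 y *
      C.GG (mm R) (rho2 ψ.1.2.1 ψ'.1.2.1) (wj2' ev ψ.1 ψ'.1) R (j + 1)
        (Sum.elim (amp θ j (j + 1) ψ) (amp θ j (j + 1) ψ')) y ^ ex (mm R) (j + 1)) ω.2.2 =
      avg fun x' : I × Sp L R => ∑ s₂, rho1 (x'.2.1 (lv R (j + 1))) s₂ * (F ψ.1 x' y *
        C.GG (mm R) (rho2 ψ.1.2.1 x'.2.1) (wj2' ev ψ.1 x') R (j + 1)
        (Sum.elim (amp θ j (j + 1) ψ) (tw s₂ (chi θ x'.2.2.2))) y ^ ex (mm R) (j + 1)) :=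
    fun ψ => lk_zero (fun x' a' => F ψ.1 x' y * C.GG (mm R) (rho2 ψ.1.2.1 x'.2.1) (wj2' ev ψ.1 x') R
      (j + 1) (Sum.elim (amp θ j (j + 1) ψ) a') y ^ ex (mm R) (j + 1)) ω.2.2
  simp only [e1]
  rw [lk_zero (fun x a => avg fun x' : I × Sp L R => ∑ s₂, rho1 (x'.2.1 (lv R (j + 1))) s₂ *
    (F x x' y * C.GG (mm R) (rho2 x.2.1 x'.2.1) (wj2' ev x x') R (j + 1)
      (Sum.elim a (tw s₂ (chi θ x'.2.2.2))) y ^ ex (mm R) (j + 1))) ω.2.1]
  refine congrArg _ (funext fun x => ?_)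
  simp only [← avg_const_mul, ← avg_sum]
  refine congrArg _ (funext fun x' => ?_)
  rw [Gm, Casc.Gam, sum_rho2, lk_chi, mul_sum]
  refine sum_congr rfl fun s₁ _ => ?_
  simp only [lk_tw, mul_sum]
  exact sum_congr rfl fun s₂ _ => by ring

end

end Vale.Agent.P168
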