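import Vale.Agent.P168.Step
import Vale.Agent.P168.PFl

/-! Comparison of a general model with a finite model. -/

namespace Vale.Agent.P168

open Finset MeasureTheory

section
variable {Ω : Type*} [MeasurableSpace Ω] (P : Measure Ω) [IsProbabilityMeasure P]
  {Θ : Type} [Fintype Θ] {q : Ω → Θ}

omit [MeasurableSpace Ω] in
theorem redA_ind (f : Θ → ℝ) :
    (fun ω => f (q ω)) = fun ω => ∑ t, (q ⁻¹' {t}).indicator (fun _ => f t) ω := by
  classical
  funext ω
  simp [Set.indicator_apply]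

theorem redA_int (hq : ∀ t, MeasurableSet (q ⁻¹' {t})) (f : Θ → ℝ) :
    Integrable (fun ω => f (q ω)) P := by
  rw [redA_ind]
  exact integrable_finsetSum _ fun t _ => (integrable_const _).indicator (hq t)

theorem redA_eq (hq : ∀ t, MeasurableSet (q ⁻¹' {t})) (f : Θ → ℝ) :
    ∫ ω, f (q ω) ∂P = ∑ t, P.real (q ⁻¹' {t}) * f t := by
  rw [redA_ind, integral_finsetSum _ fun t _ => (integrable_const _).indicator (hq t)]
  refine sum_congr rfl fun t _ => ?_
  rw [integral_indicator_const _ (hq t), smul_eq_mul]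

theorem redA_core (hq : ∀ t, MeasurableSet (q ⁻¹' {t})) {f D : Ω → ℝ} {f' : Θ → ℝ}
    (hf : AEStronglyMeasurable f P) (hD : Integrable D P) (h : ∀ ω, |f ω - f' (q ω)| ≤ D ω) :
    Integrable f P ∧ |∫ ω, f ω ∂P - ∑ t, P.real (q ⁻¹' {t}) * f' t| ≤ ∫ ω, D ω ∂P := by
  have h1 := redA_int P hq f'
  have h2 : Integrable (fun ω => f ω - f' (q ω)) P :=
    hD.mono' (hf.sub h1.aestronglyMeasurable) (Filter.Eventually.of_forall h)
  have h3 : Integrable f P := by
    have := h2.add h1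
    refine this.congr (Filter.Eventually.of_forall fun ω => ?_)
    simp
  refine ⟨h3, ?_⟩
  rw [← redA_eq P hq, ← integral_sub h3 h1]
  exact norm_integral_le_of_norm_le (f := fun ω => f ω - f' (q ω)) hD
    (Filter.Eventually.of_forall h)

end

theorem prob_law {Ω : Type*} [MeasurableSpace Ω] (P : Measure Ω) [IsProbabilityMeasure P]
    {Θ : Type} [Fintype Θ] {q : Ω → Θ} (hq : ∀ t, MeasurableSet (q ⁻¹' {t})) :
    Prob fun t => P.real (q ⁻¹' {t}) := by
  refine ⟨fun t => measureReal_nonneg, ?_⟩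
  have h := redA_eq P hq fun _ => 1
  simpa using h.symm

section
variable {Ω : Type*} [MeasurableSpace Ω] {P : Measure Ω} [IsProbabilityMeasure P]
  {Θ : Type} [Fintype Θ] {q : Ω → Θ} {E : Type} [NormedAddCommGroup E] [MeasurableSpace E]
  [BorelSpace E] [SecondCountableTopology E] {θ : Ω → E}

theorem redA_dist (hθ : Measurable θ) (hi : Integrable (fun ω => ‖θ ω‖) P)
    (hq : ∀ t, MeasurableSet (q ⁻¹' {t})) (θ' : Θ → E) :
    Integrable (fun ω => ‖θ ω - θ' (q ω)‖) P := by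
  let _ : MeasurableSpace Θ := ⊤
  have hq' : Measurable q := measurable_to_countable' hq
  have h1 : Measurable fun ω => θ' (q ω) := (measurable_from_top (f := θ')).comp hq'
  refine (hi.add (redA_int P hq fun t => ‖θ' t‖)).mono' (hθ.sub h1).norm.aestronglyMeasurable
    (Filter.Eventually.of_forall fun ω => ?_)
  rw [norm_norm]
  exact norm_sub_le _ _

theorem redA_one (hθ : Measurable θ) (hi : Integrable (fun ω => ‖θ ω‖) P)
    (hq : ∀ t, MeasurableSet (q ⁻¹' {t})) (θ' : Θ → E) {G : E → ℝ}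
    (hG : ∀ a a', |G a - G a'| ≤ ‖a - a'‖) :
    Integrable (fun ω => G (θ ω)) P ∧
      |∫ ω, G (θ ω) ∂P - ∑ t, P.real (q ⁻¹' {t}) * G (θ' t)| ≤ ∫ ω, ‖θ ω - θ' (q ω)‖ ∂P := by
  have hc : Continuous G := by
    refine (LipschitzWith.of_dist_le_mul (K := 1) fun a a' => ?_).continuous
    simpa [Real.dist_eq, dist_eq_norm] using hG a a'
  exact redA_core P hq (f' := fun t => G (θ' t)) (hc.measurable.comp hθ).aestronglyMeasurable
    (redA_dist hθ hi hq θ') fun ω => hG _ _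

theorem redA_fix (hθ : Measurable θ) (hi : Integrable (fun ω => ‖θ ω‖) P)
    (hq : ∀ t, MeasurableSet (q ⁻¹' {t})) (θ' : Θ → E) {M : ℕ} {G : (Fin M → E) → ℝ}
    (hG : ∀ a a', |G a - G a'| ≤ ∑ k, ‖a k - a' k‖) :
    Integrable (fun ω : Fin M → Ω => G fun k => θ (ω k)) (Measure.pi fun _ => P) ∧
      |∫ ω : Fin M → Ω, G (fun k => θ (ω k)) ∂(Measure.pi fun _ => P) -
        ∑ c : Fin M → Θ, (∏ k, P.real (q ⁻¹' {c k})) * G fun k => θ' (c k)| ≤
        M * ∫ ω, ‖θ ω - θ' (q ω)‖ ∂P := by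
  classical
  have hc : Continuous G := by
    refine (LipschitzWith.of_dist_le_mul (K := M) fun a a' => ?_).continuous
    rw [Real.dist_eq, dist_eq_norm]
    refine (hG a a').trans ?_
    have := sum_le_card_nsmul univ (fun k => ‖a k - a' k‖) ‖a - a'‖
      fun k _ => norm_le_pi_norm (a - a') k
    simpa using this
  have hfib : ∀ c : Fin M → Θ, (fun (ω : Fin M → Ω) k => q (ω k)) ⁻¹' {c} =
      Set.pi Set.univ fun k => q ⁻¹' {c k} := by
    intro c
    ext ω
    simp [funext_iff]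
  have hq' : ∀ c : Fin M → Θ, MeasurableSet ((fun (ω : Fin M → Ω) k => q (ω k)) ⁻¹' {c}) := by
    intro c
    rw [hfib]
    exact MeasurableSet.univ_pi fun k => hq _
  have hd := redA_dist hθ hi hq θ'
  have hm : Measurable fun (ω : Fin M → Ω) k => θ (ω k) :=
    measurable_pi_lambda _ fun k => hθ.comp (measurable_pi_apply k)
  have hdk : ∀ k : Fin M, Integrable (fun ω : Fin M → Ω => ‖θ (ω k) - θ' (q (ω k))‖)
      (Measure.pi fun _ => P) := fun k =>
    integrable_comp_eval (μ := fun _ : Fin M => P) (i := k) hd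
  have key := redA_core (Measure.pi fun _ : Fin M => P) hq'
    (f := fun ω => G fun k => θ (ω k)) (f' := fun c => G fun k => θ' (c k))
    (D := fun ω => ∑ k, ‖θ (ω k) - θ' (q (ω k))‖)
    (hc.measurable.comp hm).aestronglyMeasurable (integrable_finsetSum _ fun k _ => hdk k)
    fun ω => hG _ _
  refine ⟨key.1, ?_⟩
  have h2 := key.2
  rw [integral_finsetSum _ fun k _ => hdk k] at h2
  have h3 : ∀ k : Fin M, ∫ ω : Fin M → Ω, ‖θ (ω k) - θ' (q (ω k))‖ ∂(Measure.pi fun _ => P) =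
      ∫ ω, ‖θ ω - θ' (q ω)‖ ∂P := fun k =>
    integral_comp_eval (μ := fun _ : Fin M => P) (i := k) hd.aestronglyMeasurable
  simp only [h3, sum_const, card_univ, Fintype.card_fin, nsmul_eq_mul] at h2
  have h4 : ∀ c : Fin M → Θ, (Measure.pi fun _ : Fin M => P).real
      ((fun (ω : Fin M → Ω) k => q (ω k)) ⁻¹' {c}) = ∏ k, P.real (q ⁻¹' {c k}) := by
    intro c
    rw [hfib, Measure.real, Measure.pi_pi, ENNReal.toReal_prod]
    rfl
  simpa only [h4] using h2

theorem redA_pois (hθ : Measurable θ) (hi : Integrable (fun ω => ‖θ ω‖) P)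
    (hq : ∀ t, MeasurableSet (q ⁻¹' {t})) (θ' : Θ → E) {a β C : ℝ} (ha : 0 ≤ a)
    {G : (M : ℕ) → (Fin M → E) → ℝ} (hG : ∀ M a a', |G M a - G M a'| ≤ ∑ k, ‖a k - a' k‖)
    {G' : (M : ℕ) → (Fin M → Θ) → ℝ} (hC : Gr C G')
    (hβ : ∀ M c, |G M (fun k => θ' (c k)) - G' M c| ≤ β) :
    |PE P a (fun M ω => G M fun k => θ (ω k)) - PF (fun t => P.real (q ⁻¹' {t})) a G'| ≤
      a * ∫ ω, ‖θ ω - θ' (q ω)‖ ∂P + β := by
  classical
  obtain ⟨δ, hδ⟩ : ∃ δ, δ = ∫ ω, ‖θ ω - θ' (q ω)‖ ∂P := ⟨_, rfl⟩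
  rw [← hδ]
  have hp := prob_law P hq
  have hB := PF_summable hp ha hC
  have hs : HasSum (fun M => po a M * (M * δ + β)) (a * δ + β) := by
    have := ((hasSum_po_mul a).mul_right δ).add ((hasSum_po a).mul_right β)
    rw [one_mul] at this
    have e : (fun M => po a M * (M * δ + β)) = fun M => po a M * M * δ + po a M * β :=
      funext fun M => by ring
    rw [e]
    exact this
  have hle : ∀ M, ‖po a M * ∫ ω : Fin M → Ω, G M (fun k => θ (ω k)) ∂(Measure.pi fun _ => P) -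
      po a M * ∑ c : Fin M → Θ, (∏ k, P.real (q ⁻¹' {c k})) * G' M c‖ ≤
      po a M * (M * δ + β) := by
    intro M
    rw [← mul_sub, Real.norm_eq_abs, abs_mul, abs_of_nonneg (po_nonneg ha M)]
    refine mul_le_mul_of_nonneg_left ?_ (po_nonneg ha M)
    have h1 := (redA_fix hθ hi hq θ' (hG M)).2
    rw [← hδ] at h1
    have h2 := (hp.pi (Fin M)).abs_le (hβ M)
    simp only [mul_sub, sum_sub_distrib] at h2
    exact (abs_sub_le _ _ _).trans (add_le_add h1 h2)
  have hD := Summable.of_norm_bounded hs.summable hle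
  have hA : Summable fun M =>
      po a M * ∫ ω : Fin M → Ω, G M (fun k => θ (ω k)) ∂(Measure.pi fun _ => P) := by
    refine (hD.add hB).congr fun M => ?_
    ring
  unfold PE PF
  rw [← hA.tsum_sub hB]
  exact tsum_of_norm_bounded hs hle

end

theorem redA_lip {X : Type*} [MeasurableSpace X] {ν : Measure X} [IsProbabilityMeasure ν]
    {f g : X → ℝ} (hf : Integrable f ν) (hg : Integrable g ν) {c : ℝ}
    (h : ∀ x, |f x - g x| ≤ c) : |∫ x, f x ∂ν - ∫ x, g x ∂ν| ≤ c := by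
  rw [← integral_sub hf hg]
  have := norm_integral_le_of_norm_le_const (μ := ν) (f := fun x => f x - g x) (C := c)
    (Filter.Eventually.of_forall h)
  simpa using this

theorem redA_UU {K M r : ℕ} {m : Fin r → ℝ} {x : (Fin (r + 1) → unitInterval) → ℝ}
    (h : Adm r m x) (a a' : Fin M → (Fin K → Bool) → ℝ) (y y' : ℝ) :
    |(avg fun l : Fin M → Fin K => TT r m x (UU a y l)) -
      avg fun l : Fin M → Fin K => TT r m x (UU a' y' l)| ≤ ∑ k, ‖a k - a' k‖ + |y - y'| := by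
  rw [← avg_sub]
  refine abs_avg_le_of (by positivity) fun l => ?_
  have hb : ∀ (a : Fin M → (Fin K → Bool) → ℝ) (y : ℝ),
      Bd ((‖a‖ + |y| + 1) * (M + 1)) (UU a y l) := by
    intro a y
    refine UU_bd (fun k σ => ?_) (by linarith [norm_nonneg a]) l
    have h1 := norm_le_pi_norm (a k) σ
    have h2 := norm_le_pi_norm a k
    rw [Real.norm_eq_abs] at h1
    linarith [abs_nonneg y]
  exact TT_lip h (UU_ma a y l) (UU_ma a' y' l) (hb a y) (hb a' y')
    fun X hX => UU_lip a a' y y' l hX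

theorem redA_VV {K M r : ℕ} {m : Fin r → ℝ} {x : (Fin (r + 1) → unitInterval) → ℝ}
    (h : Adm r m x) (a a' : Fin M → (Fin K → Bool) → ℝ) :
    |TT r m x (VV a) - TT r m x (VV a')| ≤ ∑ k, ‖a k - a' k‖ := by
  have hb : ∀ a : Fin M → (Fin K → Bool) → ℝ, Bd ((‖a‖ + 1) * (M + 1)) (VV a) := by
    intro a
    refine VV_bd (norm_nonneg a) fun k σ => ?_
    have h1 := norm_le_pi_norm (a k) σ
    have h2 := norm_le_pi_norm a k
    rw [Real.norm_eq_abs] at h1
    linarith
  exact TT_lip h (VV_ma a) (VV_ma a') (hb a) (hb a') fun X hX => VV_lip a a' hX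

section
variable {K : ℕ} {Ω : Type*} [MeasurableSpace Ω] {P : Measure Ω} [IsProbabilityMeasure P]
  {θ : Ω → (Fin K → Bool) → ℝ} {μ : Measure ℝ} [IsProbabilityMeasure μ] {lam : ℝ}
  {Θ Hh : Type} [Fintype Θ] [Fintype Hh] {q : Ω → Θ} {θ' : Θ → (Fin K → Bool) → ℝ}
  {s : ℝ → Hh} {hv : Hh → ℝ}

theorem pressure_close (hθ : Measurable θ) (hi : Integrable (fun ω => ‖θ ω‖) P)
    (hμ : Integrable id μ) (hl : 0 ≤ lam) (hq : ∀ t, MeasurableSet (q ⁻¹' {t}))
    (hs : ∀ t, MeasurableSet (s ⁻¹' {t})) {N : ℕ} (hN : 1 ≤ N) :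
    |pressure P θ μ lam N -
      pressF (fun t => P.real (q ⁻¹' {t})) θ' (fun t => μ.real (s ⁻¹' {t})) hv lam N| ≤
      lam * ∫ ω, ‖θ ω - θ' (q ω)‖ ∂P + ∫ h, |h - hv (s h)| ∂μ := by
  classical
  have hN' : (0 : ℝ) < N := by exact_mod_cast hN
  have hfix : ∀ {M : ℕ} (a : Fin M → (Fin K → Bool) → ℝ),
      Integrable (fun h : Fin N → ℝ => logZ N a h) (Measure.pi fun _ => μ) ∧
      |∫ h : Fin N → ℝ, logZ N a h ∂(Measure.pi fun _ => μ) -
        ∑ c : Fin N → Hh, (∏ k, μ.real (s ⁻¹' {c k})) * logZ N a fun k => hv (c k)| ≤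
        N * ∫ h, |h - hv (s h)| ∂μ := by
    intro M a
    refine redA_fix (θ := fun h : ℝ => h) (G := fun h => logZ N a h) measurable_id hμ.norm hs hv
      fun h h' => ?_
    simpa using logZ_lip N a a h h'
  have hGr : Gr (N + ‖θ'‖ + N * ‖hv‖) fun M (c : Fin M → Θ) =>
      ∑ h : Fin N → Hh, (∏ i, μ.real (s ⁻¹' {h i})) *
        logZ N (fun k => θ' (c k)) fun i => hv (h i) := by
    intro M c
    refine ((prob_law μ hs).pi (Fin N)).abs_le fun h => ?_
    have h1 := logZ_lip N (fun k => θ' (c k)) 0 (fun i => hv (h i)) 0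
    have h2 := logZ_zero (M := M) (K := K) N
    simp only [Pi.zero_apply, sub_zero] at h1
    have h3 := sum_le_card_nsmul univ (fun k => ‖θ' (c k)‖) ‖θ'‖
      fun k _ => norm_le_pi_norm θ' (c k)
    have h4 := sum_le_card_nsmul univ (fun i => |hv (h i)|) ‖hv‖
      fun i _ => norm_le_pi_norm hv (h i)
    simp only [card_univ, Fintype.card_fin, nsmul_eq_mul] at h3 h4
    have h5 := abs_sub_abs_le_abs_sub (logZ N (fun k => θ' (c k)) fun i => hv (h i))
      (logZ N (0 : Fin M → (Fin K → Bool) → ℝ) 0)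
    have h6 : (0 : ℝ) ≤ M := Nat.cast_nonneg _
    have h7 : 0 ≤ (N : ℝ) * ‖hv‖ := by positivity
    nlinarith [norm_nonneg θ', mul_nonneg h6 h7, mul_nonneg h6 hN'.le]
  have key := redA_pois hθ hi hq θ' (a := lam * N) (by positivity)
    (G := fun M a => ∫ h : Fin N → ℝ, logZ N a h ∂(Measure.pi fun _ => μ))
    (fun M a a' => redA_lip (hfix a).1 (hfix a').1 fun h => by simpa using logZ_lip N a a' h h)
    hGr fun M c => (hfix _).2
  unfold pressure pressF
  rw [← mul_sub, abs_mul, abs_of_pos (by positivity : (0 : ℝ) < 1 / N)]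
  refine (mul_le_mul_of_nonneg_left key (by positivity)).trans_eq ?_
  field_simp

theorem trial_close (hK : 1 ≤ K) (hθ : Measurable θ) (hi : Integrable (fun ω => ‖θ ω‖) P)
    (hμ : Integrable id μ) (hl : 0 ≤ lam) (hq : ∀ t, MeasurableSet (q ⁻¹' {t}))
    (hs : ∀ t, MeasurableSet (s ⁻¹' {t})) {r : ℕ} {m : Fin r → ℝ}
    {x : (Fin (r + 1) → unitInterval) → ℝ} (h : Adm r m x) :
    |trial P θ μ lam r m x -
      trialF (fun t => P.real (q ⁻¹' {t})) θ' (fun t => μ.real (s ⁻¹' {t})) hv lam r m x| ≤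
      2 * K * lam * ∫ ω, ‖θ ω - θ' (q ω)‖ ∂P + ∫ h, |h - hv (s h)| ∂μ := by
  classical
  have hK' : (1 : ℝ) ≤ K := by exact_mod_cast hK
  have hone : ∀ {M : ℕ} (a : Fin M → (Fin K → Bool) → ℝ),
      Integrable (fun y : ℝ => avg fun l : Fin M → Fin K => TT r m x (UU a y l)) μ ∧
      |∫ y, (avg fun l : Fin M → Fin K => TT r m x (UU a y l)) ∂μ -
        ∑ t, μ.real (s ⁻¹' {t}) * avg fun l : Fin M → Fin K => TT r m x (UU a (hv t) l)| ≤
        ∫ y, |y - hv (s y)| ∂μ := by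
    intro M a
    refine redA_one (θ := fun y : ℝ => y)
      (G := fun y => avg fun l : Fin M → Fin K => TT r m x (UU a y l)) measurable_id hμ.norm hs hv
      fun y y' => ?_
    simpa using redA_UU h a a y y'
  have hb : ∀ t σ, |θ' t σ| ≤ ‖θ'‖ := fun t σ =>
    (norm_le_pi_norm (θ' t) σ).trans (norm_le_pi_norm θ' t)
  have hGr : Gr (‖θ'‖ + ‖hv‖ + 1) fun M (c : Fin M → Θ) => ∑ t, μ.real (s ⁻¹' {t}) *
      avg fun l : Fin M → Fin K => TT r m x (UU (fun k => θ' (c k)) (hv t) l) := by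
    intro M c
    refine (prob_law μ hs).abs_le fun t => abs_avg_le_of (by positivity) fun l => ?_
    refine TT_bd h (UU_ma _ _ l) (UU_bd (fun k σ => ?_) ?_ l)
    · linarith [hb (c k) σ, norm_nonneg hv]
    · have := norm_le_pi_norm hv t
      rw [Real.norm_eq_abs] at this
      linarith [norm_nonneg θ']
  have hGr' : Gr (‖θ'‖ + 1) fun M (c : Fin M → Θ) => TT r m x (VV fun k => θ' (c k)) :=
    fun M c => TT_bd h (VV_ma _) (VV_bd (norm_nonneg _) fun k σ => hb (c k) σ)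
  have k1 := redA_pois hθ hi hq θ' (a := K * lam) (by positivity)
    (G := fun M a => ∫ y, (avg fun l : Fin M → Fin K => TT r m x (UU a y l)) ∂μ)
    (fun M a a' => redA_lip (hone a).1 (hone a').1 fun y => by simpa using redA_UU h a a' y y)
    hGr fun M c => (hone _).2
  have k2 := redA_pois hθ hi hq θ' (a := (K - 1) * lam) (β := 0) (mul_nonneg (by linarith) hl)
    (G := fun M a => TT r m x (VV a)) (fun M a a' => redA_VV h a a') hGr'
    fun M c => by simp
  have hδ : 0 ≤ lam * ∫ ω, ‖θ ω - θ' (q ω)‖ ∂P :=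
    mul_nonneg hl (integral_nonneg fun _ => norm_nonneg _)
  unfold trial trialF
  rw [abs_le] at k1 k2 ⊢
  constructor <;> nlinarith [k1.1, k1.2, k2.1, k2.2]

end

end Vale.Agent.P168
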