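import Vale.Agent.P168.RealU
import Vale.Agent.P168.Cl

/-! The interpolating free energy of a family of items. -/

namespace Vale.Agent.P168

open Finset

theorem UpB1_mpos {r : ℕ} {m : Fin r → ℝ} (hm : ∀ q, 0 < m q) (d : ℕ) : 0 < mext m (d + 1) := by
  simp only [mext]
  split_ifs
  · exact hm _
  · exact one_pos

theorem UpB1_mtop {r : ℕ} (m : Fin r → ℝ) : mext m (r + 1) = 1 := by simp [mext]

theorem UpB1_top_msgs (J : Type) [Fintype J] (r M : ℕ) : (msgs J r M).Top (r + 1) :=
  top_pi fun _ => top_msg r M r.le_succ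

theorem UpB1_top_sysU (J : Type) [Fintype J] (K N r M : ℕ) : (sysU J K N r M).Top (r + 1) :=
  top_prod (top_lev le_rfl _ _) (UpB1_top_msgs _ r M)

theorem UpB1_cl_pos {K : ℕ} (θ : (Fin K → Bool) → ℝ) {X : Fin K → ℝ} (hX : Cube X) :
    0 < cl θ X :=
  (cl_bd (c := ∑ σ, |θ σ|) (fun σ => single_le_sum (f := fun σ => |θ σ|)
    (fun _ _ => abs_nonneg _) (mem_univ σ)) X hX).1

theorem UpB1_cube_ite {K : ℕ} (b : Fin K → Bool) (s : Fin K → Bool) {X : Fin K → ℝ}
    (hX : Cube X) : Cube fun j => if b j then sg (s j) else X j := fun j => by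
  beta_reduce
  split_ifs
  · exact (abs_sg _).le
  · exact hX j

theorem UpB1_cube_upd {K : ℕ} {X : Fin K → ℝ} (hX : Cube X) (l : Fin K) (ε : Bool) :
    Cube (Function.update X l (sg ε)) := fun j => by
  rcases eq_or_ne j l with rfl | hj
  · rw [Function.update_self]
    exact (abs_sg _).le
  · rw [Function.update_of_ne hj]
    exact hX j

theorem UpB1_fac_msgs {J J' : Type} [Fintype J] [DecidableEq J] [Fintype J'] [DecidableEq J']
    (r M : ℕ) {e : J' → J} (he : Function.Injective e) :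
    Fac (msgs J r M) (msgs J' r M) fun x j => x (e j) :=
  fac_comp (fun _ => msg r M) he

/-- splitting off the messages of the new item -/
def UpB1_eqv (J : Type) (K N r M : ℕ) : ((Fin N → Bool) × (Option J × Fin K → Ms r M)) ≃
    (((Fin N → Bool) × (J × Fin K → Ms r M)) × (Fin K → Ms r M)) where
  toFun ω := ((ω.1, fun p => ω.2 (some p.1, p.2)), fun j => ω.2 (none, j))
  invFun ω := (ω.1.1, fun p => p.1.elim (ω.2 p.2) fun k => ω.1.2 (k, p.2))
  left_inv ω := by
    refine Prod.ext rfl (funext fun p => ?_)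
    rcases p with ⟨_ | k, j⟩ <;> rfl
  right_inv ω := rfl

theorem UpB1_fac_opt (J : Type) [Fintype J] [DecidableEq J] (K N r M : ℕ) :
    Fac (sysU (Option J) K N r M) ((sysU J K N r M).prod (Casc.pi fun _ : Fin K => msg r M))
      (UpB1_eqv J K N r M) := by
  refine fac_equiv _ one_pos (fun ω => ?_) fun d a b => ?_
  · show (1 : ℝ) * ∏ p : Option J × Fin K, (msg r M).μ (ω.2 p) =
      1 * ((1 * ∏ p : J × Fin K, (msg r M).μ (ω.2 (some p.1, p.2))) *
        ∏ j : Fin K, (msg r M).μ (ω.2 (none, j)))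
    rw [Fintype.prod_prod_type, Fintype.prod_prod_type, Fintype.prod_option]
    ring
  · constructor
    · rintro ⟨h1, h2⟩
      exact ⟨⟨h1, fun p => h2 (some p.1, p.2)⟩, fun j => h2 (none, j)⟩
    · rintro ⟨⟨h1, h2⟩, h3⟩
      refine ⟨h1, fun p => ?_⟩
      rcases p with ⟨_ | k, j⟩
      · exact h3 j
      · exact h2 (k, j)

theorem UpB1_log_sum {ι : Type} [Fintype ι] [Nonempty ι] {a x : ι → ℝ} {c : ℝ}
    (ha : ∀ i, 0 < a i) (hx : ∀ i, 0 < x i ∧ |Real.log (x i)| ≤ c) :
    |Real.log (∑ i, a i * x i) - Real.log (∑ i, a i)| ≤ c := by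
  have h0 : 0 < ∑ i, a i := sum_pos (fun i _ => ha i) univ_nonempty
  have h1 : 0 < ∑ i, a i * x i := sum_pos (fun i _ => mul_pos (ha i) (hx i).1) univ_nonempty
  have h2 : ∑ i, a i * x i ≤ (∑ i, a i) * Real.exp c := by
    rw [sum_mul]
    refine sum_le_sum fun i _ => mul_le_mul_of_nonneg_left ?_ (ha i).le
    exact (Real.log_le_iff_le_exp (hx i).1).1 (abs_le.1 (hx i).2).2
  have h3 : (∑ i, a i) * Real.exp (-c) ≤ ∑ i, a i * x i := by
    rw [sum_mul]
    refine sum_le_sum fun i _ => mul_le_mul_of_nonneg_left ?_ (ha i).le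
    exact (Real.le_log_iff_exp_le (hx i).1).1 (abs_le.1 (hx i).2).1
  have h4 := Real.log_le_log h1 h2
  have h5 := Real.log_le_log (mul_pos h0 (Real.exp_pos _)) h3
  rw [Real.log_mul h0.ne' (Real.exp_pos _).ne', Real.log_exp] at h4 h5
  rw [abs_le]
  constructor <;> linarith

section
variable {K N r M : ℕ} {Θ J J' : Type} [Fintype J] [DecidableEq J] [Fintype J'] [DecidableEq J']
  {θ : Θ → (Fin K → Bool) → ℝ} {m : Fin r → ℝ} {g : Ms r M → ℝ} {h : Fin N → ℝ}

theorem UpB1_FF_spin (it : J → Item K Θ N) : FF θ m g h it =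
    (msgs (J × Fin K) r M).av ((msgs (J × Fin K) r M).T (mext m) (r + 1) 0 fun y =>
      Real.log (avg fun σ => Real.exp (hamU θ g h it (σ, y)))) := by
  rw [FF, sysU, funext (T_spin (UpB1_mtop m) r.succ_pos _ _)]
  exact (fac_snd _ _).av _

theorem FF_equiv (e : J ≃ J') (it : J' → Item K Θ N) :
    FF θ m g h (fun k => it (e k)) = FF θ m g h it := by
  have hf := (Fac.refl (ulev (Fin N → Bool) (r + 1))).prod (UpB1_fac_msgs r M
    (e := Prod.map e (id : Fin K → Fin K)) (e.injective.prodMap Function.injective_id))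
  have h1 := hf.avT (m := mext m) (R := r + 1) (d := 0) (hamU θ g h fun k => it (e k))
  refine h1.symm.trans ?_
  rw [FF, sysU]
  congr 2
  funext ω
  simp only [hamU, Prod.map_fst, Prod.map_snd, Prod.map_apply, id]
  congr 1
  exact e.sum_comp fun k => Real.log (cl (θ (it k).2.1) fun j =>
    if (it k).1 j then sg (ω.1 ((it k).2.2 j)) else g (ω.2 (k, j)))

theorem UJ_equiv (e : J ≃ J') (a : ℝ) (it : J' → Θ × Fin K) :
    UJ θ m g a (fun k => it (e k)) = UJ θ m g a it := by
  have hf := UpB1_fac_msgs r M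
    (e := Prod.map e (id : Fin K → Fin K)) (e.injective.prodMap Function.injective_id)
  have h1 := hf.avT (m := mext m) (R := r + 1) (d := 0) fun w =>
    Real.log (∑ ε : Bool, Real.exp (a * sg ε) *
      ∏ k, cl (θ (it (e k)).1) (Function.update (fun j => g (w (k, j))) (it (e k)).2 (sg ε)))
  refine h1.symm.trans ?_
  rw [UJ]
  congr 2
  funext w
  congr 1
  refine sum_congr rfl fun ε _ => ?_
  congr 1
  exact e.prod_comp fun k =>
    cl (θ (it k).1) (Function.update (fun j => g (w (k, j))) (it k).2 (sg ε))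

theorem FF_option (hm : ∀ q, 0 < m q) (it : J → Item K Θ N) (a : Item K Θ N) :
    FF θ m g h (fun k : Option J => k.elim a it) = FF θ m g h it +
      (((sysU J K N r M).tilt (mext m) (r + 1) (hamU θ g h it)).prod
        (Casc.pi fun _ : Fin K => msg r M)).av
      ((((sysU J K N r M).tilt (mext m) (r + 1) (hamU θ g h it)).prod
        (Casc.pi fun _ : Fin K => msg r M)).T (mext m) (r + 1) 0 fun ω =>
          Real.log (cl (θ a.2.1) fun j => if a.1 j then sg (ω.1.1 (a.2.2 j)) else g (ω.2 j))) := by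
  have hp := UpB1_mpos hm
  have htop : ((sysU J K N r M).prod (Casc.pi fun _ : Fin K => msg r M)).Top (r + 1) :=
    top_prod (UpB1_top_sysU J K N r M) (UpB1_top_msgs _ r M)
  have h1 := (UpB1_fac_opt J K N r M).avT (m := mext m) (R := r + 1) (d := 0) fun ω =>
    hamU θ g h it ω.1 +
      Real.log (cl (θ a.2.1) fun j => if a.1 j then sg (ω.1.1 (a.2.2 j)) else g (ω.2 j))
  have h2 : hamU θ g h (fun k : Option J => k.elim a it) = fun x =>
      (fun ω : ((Fin N → Bool) × (J × Fin K → Ms r M)) × (Fin K → Ms r M) => hamU θ g h it ω.1 +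
      Real.log (cl (θ a.2.1) fun j => if a.1 j then sg (ω.1.1 (a.2.2 j)) else g (ω.2 j)))
        (UpB1_eqv J K N r M x) := by
    funext x
    simp only [hamU, Fintype.sum_option]
    rw [add_assoc, add_comm (∑ k : J, _)]
    rfl
  rw [FF, h2, h1, funext (Casc.T_add _ hp (htop.meas _) (htop.meas _)), Casc.av_add,
    (fac_fst _ _).avT, ← tilt_prod, FF]
  congr 1
  refine (Casc.av_tilt _ hp (htop.meas _) ?_).symm
  exact fun a b hr => Casc.T_meas _ _ r.succ_pos _ a b hr

theorem FF_lip (hm : ∀ q, 0 < m q) (hg : Cube g) {c : ℝ} (hc : ∀ t σ, |θ t σ| ≤ c)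
    (it : J → Item K Θ N) (a : Item K Θ N) :
    |FF θ m g h (fun k : Option J => k.elim a it) - FF θ m g h it| ≤ c := by
  rw [FF_option hm, add_sub_cancel_left]
  refine Casc.abs_av_le _ fun x => Casc.abs_T_le _ (UpB1_mpos hm) (fun ω => ?_) x
  exact (cl_bd (hc _) _ (UpB1_cube_ite a.1 (fun j => ω.1.1 (a.2.2 j)) fun j => hg _)).2

theorem UJ_lip (hm : ∀ q, 0 < m q) (hg : Cube g) {c : ℝ} (hc : ∀ t σ, |θ t σ| ≤ c) (b : ℝ)
    (it : J → Θ × Fin K) (a : Θ × Fin K) :
    |UJ θ m g b (fun k : Option J => k.elim a it) - UJ θ m g b it| ≤ c := by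
  have hf := UpB1_fac_msgs r M (e := Prod.map (some : J → Option J) (id : Fin K → Fin K))
    ((Option.some_injective J).prodMap Function.injective_id)
  have h1 := hf.avT (m := mext m) (R := r + 1) (d := 0) fun w =>
    Real.log (∑ ε : Bool, Real.exp (b * sg ε) *
      ∏ k, cl (θ (it k).1) (Function.update (fun j => g (w (k, j))) (it k).2 (sg ε)))
  rw [UJ, UJ, ← h1, ← Casc.av_sub]
  refine Casc.abs_av_le _ fun x => Casc.abs_T_sub_le _ (UpB1_mpos hm) (fun w => ?_) x
  have h2 := UpB1_log_sum (c := c) (a := fun ε : Bool => Real.exp (b * sg ε) *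
      ∏ k, cl (θ (it k).1) (Function.update (fun j => g (w (some k, j))) (it k).2 (sg ε)))
    (x := fun ε => cl (θ a.1) (Function.update (fun j => g (w (none, j))) a.2 (sg ε)))
    (fun ε => mul_pos (Real.exp_pos _) (prod_pos fun k _ =>
      UpB1_cl_pos _ (UpB1_cube_upd (fun j => hg _) _ _)))
    fun ε => cl_bd (hc _) _ (UpB1_cube_upd (fun j => hg _) _ _)
  refine le_of_eq_of_le ?_ h2
  congr 3
  refine sum_congr rfl fun ε _ => ?_
  rw [Fintype.prod_option, mul_assoc, mul_comm (∏ k : J, _)]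
  rfl

/-- a clause with messages only decouples -/
theorem FF_false (hm : ∀ q, 0 < m q) (it : J → Item K Θ N) (t : Θ) (i : Fin K → Fin N) :
    FF θ m g h (fun k : Option J => k.elim (fun _ => false, t, i) it) =
      FF θ m g h it + V1 θ m g t := by
  have h1 := (fac_snd ((sysU J K N r M).tilt (mext m) (r + 1) (hamU θ g h it))
    (Casc.pi fun _ : Fin K => msg r M)).avT (m := mext m) (R := r + 1) (d := 0)
    fun w => Real.log (cl (θ t) fun j => g (w j))
  rw [FF_option hm, V1, msgs, ← h1]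
  simp only [Bool.false_eq_true, if_false]

theorem FF_true (hm : ∀ q, 0 < m q) {n : ℕ} (t : Fin n → Θ) (i : Fin n → Fin K → Fin N) :
    FF θ m g h (fun k => (fun _ => true, t k, i k)) =
      Real.log (∑ σ, Real.exp (ham (fun k => θ (t k)) i h σ)) - N * Real.log 2 := by
  have h1 : ∀ σ y, hamU θ g h (fun k => ((fun _ => true, t k, i k) : Item K Θ N)) (σ, y) =
      ham (fun k => θ (t k)) i h σ := by
    intro σ y
    simp only [hamU, ham, if_true]
    rw [add_comm]
    congr 1
    exact sum_congr rfl fun k _ => by rw [cl_spin (θ (t k)) fun j => σ (i k j), Real.log_exp]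
  rw [UpB1_FF_spin]
  simp only [h1]
  rw [funext (Casc.T_const _ (UpB1_mpos hm) _), Casc.av_const, avg, Real.log_div
    (sum_pos (fun _ _ => Real.exp_pos _) univ_nonempty).ne' (by positivity)]
  simp

theorem FF_single (hm : ∀ q, 0 < m q) (hg : Cube g) (t : J → Θ) (l : J → Fin K)
    (i : J → Fin K → Fin N) :
    FF θ m g h (fun k => (fun j => decide (j = l k), t k, i k)) =
      ∑ a, (UJ θ m g (h a) (fun k : {k // i k (l k) = a} => (t k, l k)) - Real.log 2) := by
  have hp := UpB1_mpos hm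
  set F : Fin N → (J × Fin K → Ms r M) → Bool → ℝ := fun a y ε => Real.exp (h a * sg ε) *
    ∏ k : {k // i k (l k) = a}, cl (θ (t k)) (Function.update (fun j => g (y (k, j))) (l k) (sg ε))
    with hF
  have hFp : ∀ a y ε, 0 < F a y ε := fun a y ε => mul_pos (Real.exp_pos _) (prod_pos fun k _ =>
    UpB1_cl_pos _ (UpB1_cube_upd (fun j => hg _) _ _))
  have h1 : ∀ σ y, Real.exp (hamU θ g h
      (fun k => ((fun j => decide (j = l k), t k, i k) : Item K Θ N)) (σ, y)) =
      ∏ a, F a y (σ a) := by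
    intro σ y
    have h2 : ∀ k, (fun j => if decide (j = l k) then sg (σ (i k j)) else g (y (k, j))) =
        Function.update (fun j => g (y (k, j))) (l k) (sg (σ (i k (l k)))) := by
      intro k
      funext j
      rcases eq_or_ne j (l k) with rfl | hj
      · simp
      · simp [hj]
    simp only [hamU, h2, hF]
    rw [Real.exp_add, Real.exp_sum, Real.exp_sum, prod_mul_distrib]
    congr 1
    rw [← Fintype.prod_fiberwise (fun k => i k (l k))]
    refine prod_congr rfl fun a _ => prod_congr rfl fun k _ => ?_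
    rw [Real.exp_log (UpB1_cl_pos _ (UpB1_cube_upd (fun j => hg _) _ _)), k.2]
  have h3 : ∀ y, Real.log (avg fun σ : Fin N → Bool => ∏ a, F a y (σ a)) =
      ∑ a, (Real.log (∑ ε, F a y ε) + -Real.log 2) := by
    intro y
    have h4 : ∀ a, 0 < ∑ ε, F a y ε := fun a => sum_pos (fun ε _ => hFp a y ε) univ_nonempty
    have h6 : ∀ a, 0 < avg (F a y) := fun a => div_pos (h4 a) (by positivity)
    rw [avg_pi_prod (fun a => F a y), Real.log_prod fun a _ => (h6 a).ne']
    refine sum_congr rfl fun a _ => ?_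
    rw [avg, Real.log_div (h4 a).ne' (by positivity)]
    simp [sub_eq_add_neg]
  rw [UpB1_FF_spin]
  simp only [h1, h3]
  rw [msgs, funext (T_pi_sum hp _ (fun p : J × Fin K => i p.1 (l p.1))
    (fun a y => Real.log (∑ ε, F a y ε) + -Real.log 2) ?_), Casc.av_sum]
  · refine sum_congr rfl fun a _ => ?_
    rw [funext (Casc.T_add_const _ hp _ _), Casc.av_add, Casc.av_const, sub_eq_add_neg]
    congr 1
    exact (UpB1_fac_msgs r M (e := Prod.map (Subtype.val : {k // i k (l k) = a} → J)
      (id : Fin K → Fin K)) (Subtype.val_injective.prodMap Function.injective_id)).avT fun w =>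
        Real.log (∑ ε : Bool, Real.exp (h a * sg ε) * ∏ k : {k // i k (l k) = a},
          cl (θ (t k)) (Function.update (fun j => g (w (k, j))) (l k) (sg ε)))
  · intro a x y hxy
    have h5 : ∀ k : {k // i k (l k) = a}, (fun j => g (x (k, j))) = fun j => g (y (k, j)) :=
      fun k => funext fun j => by rw [hxy (k, j) k.2]
    simp only [hF, h5]

theorem UJ_eq (hm : ∀ q, 0 < m q) (hg : Cube g) {n : ℕ} (a : ℝ) (t : Fin n → Θ)
    (l : Fin n → Fin K) : UJ θ m g a (fun k => (t k, l k)) =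
      TT r m (fun w => g fun d => fl M (w d)) (UU (fun k => θ (t k)) a l) := by
  rw [real_up hm g fun w => by
    rw [UU_eq]
    exact sum_pos (fun ε _ => mul_pos (Real.exp_pos _) (prod_pos fun k _ =>
      UpB1_cl_pos _ (UpB1_cube_upd (fun j => hg _) _ _))) univ_nonempty, UJ]
  simp only [UU_eq]

theorem V1_eq (hm : ∀ q, 0 < m q) (hg : Cube g) {n : ℕ} (t : Fin n → Θ) :
    ∑ k, V1 θ m g (t k) = TT r m (fun w => g fun d => fl M (w d)) (VV fun k => θ (t k)) := by
  have hp := UpB1_mpos hm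
  rw [real_up hm g fun w => by
    rw [VV_eq]
    exact prod_pos fun k _ => UpB1_cl_pos _ fun j => hg _]
  have h1 : ∀ w : Fin n × Fin K → Ms r M, Real.log (VV (fun k => θ (t k)) fun j => g (w j)) =
      ∑ k, Real.log (cl (θ (t k)) fun j => g (w (k, j))) := fun w => by
    rw [VV_eq, Real.log_prod fun k _ => (UpB1_cl_pos _ fun j => hg _).ne']
  simp only [h1]
  rw [msgs, funext (T_pi_sum hp _ (Prod.fst : Fin n × Fin K → Fin n)
    (fun k w => Real.log (cl (θ (t k)) fun j => g (w (k, j)))) ?_), Casc.av_sum]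
  · refine sum_congr rfl fun k _ => Eq.symm ?_
    exact (UpB1_fac_msgs r M (e := fun j : Fin K => (k, j))
      (Prod.mk_right_injective k)).avT fun w => Real.log (cl (θ (t k)) fun j => g (w j))
  · intro k x y hxy
    have h5 : (fun j => g (x (k, j))) = fun j => g (y (k, j)) :=
      funext fun j => by rw [hxy (k, j) rfl]
    simp only [h5]

end

end Vale.Agent.P168
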