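import Vale.Agent.P168.UpA
import Vale.Agent.P168.UpB1
import Vale.Agent.P168.Pois
import Vale.Agent.P168.PFl

/-! The upper bound for step function messages. -/

namespace Vale.Agent.P168

open Finset

section Multi
variable {X J J' : Type} [Fintype J] [Fintype J']

theorem upb2_equiv {it : J → X} {it' : J' → X}
    (h : ∑ k, ({it k} : Multiset X) = ∑ k, ({it' k} : Multiset X)) :
    ∃ e : J ≃ J', ∀ k, it' (e k) = it k := by
  classical
  have h1 : ∀ x, Fintype.card {k // it k = x} = Fintype.card {k // it' k = x} := fun x => by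
    have h2 := congrArg (Multiset.count x) h
    simp only [Multiset.count_sum', Multiset.count_singleton] at h2
    rw [Fintype.card_subtype, Fintype.card_subtype, card_filter, card_filter]
    simpa only [eq_comm] using h2
  exact ⟨Equiv.ofFiberEquiv fun x => Fintype.equivOfCardEq (h1 x),
    fun k => Equiv.ofFiberEquiv_map _ k⟩

theorem upb2_get (η : Multiset X) : ∑ k, ({η.toList.get k} : Multiset X) = η := by
  have h : ∑ k, ({η.toList.get k} : Multiset X) = (univ.val.map η.toList.get) := by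
    rw [← Multiset.sum_map_singleton (univ.val.map η.toList.get), Multiset.map_map]
    rfl
  rw [h, Fin.univ_val_map, List.ofFn_get, Multiset.coe_toList]

theorem upb2_option (it : J → X) (a : X) :
    ∑ k : Option J, ({k.elim a it} : Multiset X) = ∑ k, ({it k} : Multiset X) + {a} := by
  rw [Fintype.sum_option, add_comm]
  rfl

end Multi

section Gen
variable {S : Type} [AddCommMonoid S] {𝒜 : Set S} {c : ℝ} {Φ : S → ℝ} {ι : Type}

theorem upb2_lip_sum (hΦ : Lip 𝒜 c Φ) {s : ι → S} (hs : ∀ i, s i ∈ 𝒜) (η : S) (T : Finset ι) :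
    |Φ (η + ∑ k ∈ T, s k) - Φ η| ≤ c * T.card := by
  classical
  induction T using Finset.induction_on with
  | empty => simp
  | insert a T ha ih =>
    rw [sum_insert ha, card_insert_of_notMem ha, add_comm (s a), ← add_assoc]
    have h1 := hΦ _ (hs a) (η + ∑ k ∈ T, s k)
    have h2 := abs_sub_le (Φ (η + ∑ k ∈ T, s k + s a)) (Φ (η + ∑ k ∈ T, s k)) (Φ η)
    push_cast
    linarith

theorem upb2_gr (hc : 0 ≤ c) (hΦ : Lip 𝒜 c Φ) {s : ι → S} (hs : ∀ i, s i ∈ 𝒜) (η : S) :
    Gr (|Φ η| + c) fun _ cc => Φ (η + ∑ k, s (cc k)) := fun M cc => by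
  have h1 := upb2_lip_sum hΦ (s := fun k => s (cc k)) (fun k => hs _) η univ
  rw [card_univ, Fintype.card_fin] at h1
  have h2 := abs_sub_le (Φ (η + ∑ k, s (cc k))) (Φ η) 0
  have h3 : 0 ≤ |Φ η| * M := by positivity
  simp only [sub_zero] at h2
  nlinarith

theorem upb2_gr_mono {C C' : ℝ} {G : (M : ℕ) → (Fin M → ι) → ℝ} (h : Gr C G) (hC : C ≤ C') :
    Gr C' G := fun M cc => (h M cc).trans (mul_le_mul_of_nonneg_right hC (by positivity))

theorem upb2_gr_nonneg {C : ℝ} {G : (M : ℕ) → (Fin M → ι) → ℝ} (h : Gr C G) : 0 ≤ C := by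
  have := (abs_nonneg _).trans (h 0 Fin.elim0)
  simpa using this

theorem upb2_gr_avg {I : Type} [Fintype I] {C : ℝ} {G : (M : ℕ) → (Fin M → ι × I) → ℝ}
    (h : Gr C G) : Gr C fun M cc => avg fun idx : Fin M → I => G M fun k => (cc k, idx k) :=
  fun M _ => abs_avg_le_of (mul_nonneg (upb2_gr_nonneg h) (by positivity)) fun _ => h M _

theorem upb2_gr_add {C : ℝ} {G : (M : ℕ) → (Fin M → ι) → ℝ} (h : Gr C G) (b : ℝ) :
    Gr (C + |b|) fun M cc => G M cc + b := fun M cc => by
  have h1 := h M cc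
  have h2 := abs_add_le (G M cc) b
  have h3 : 0 ≤ |b| * M := by positivity
  nlinarith

variable [Fintype ι]

theorem upb2_PF_sum {p : ι → ℝ} {a : ℝ} (hp : Prob p) (ha : 0 ≤ a) {κ : Type} [Fintype κ]
    (w : κ → ℝ) {F : κ → (M : ℕ) → (Fin M → ι) → ℝ} (hF : ∀ i, ∃ C, Gr C (F i)) :
    PF p a (fun M c => ∑ i, w i * F i M c) = ∑ i, w i * PF p a (F i) := by
  choose C hC using hF
  exact PF_sum hp ha univ w (C := ∑ i, C i) fun i _ => upb2_gr_mono (hC i)
    (single_le_sum (f := C) (fun j _ => upb2_gr_nonneg (hC j)) (mem_univ i))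

theorem upb2_gr_single (φ : ι → ℝ) :
    Gr (∑ x, |φ x|) fun _ c => ∑ k, φ (c k) := fun M c => by
  have h1 : ∀ x, |φ x| ≤ ∑ x, |φ x| := fun x =>
    single_le_sum (f := fun x => |φ x|) (fun _ _ => abs_nonneg _) (mem_univ x)
  have h2 : |∑ k, φ (c k)| ≤ ∑ _k : Fin M, ∑ x, |φ x| :=
    (abs_sum_le_sum_abs _ _).trans (sum_le_sum fun k _ => h1 _)
  rw [sum_const, card_univ, Fintype.card_fin, nsmul_eq_mul] at h2
  have h3 : 0 ≤ ∑ x, |φ x| := sum_nonneg fun _ _ => abs_nonneg _
  nlinarith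

theorem upb2_marg {J : Type} [Fintype J] [DecidableEq J] {p : ι → ℝ} (hp : ∑ x, p x = 1)
    (φ : ι → ℝ) (a : J) : ∑ h : J → ι, (∏ i, p (h i)) * φ (h a) = ∑ x, p x * φ x := by
  have h1 := Fintype.prod_sum (fun (i : J) (x : ι) => p x * if i = a then φ x else 1)
  have h2 : ∀ i : J, (∑ x, p x * if i = a then φ x else 1) =
      if i = a then ∑ x, p x * φ x else 1 := fun i => by
    split_ifs
    · rfl
    · simpa using hp
  simp only [h2, prod_ite_eq', mem_univ, if_true, prod_mul_distrib] at h1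
  rw [h1]

theorem upb2_unif {I : Type} [Fintype I] (p : ι → ℝ) (φ : ι × I → ℝ) :
    ∑ x : ι × I, p x.1 * (Fintype.card I : ℝ)⁻¹ * φ x = ∑ t, p t * avg fun i => φ (t, i) := by
  rw [Fintype.sum_prod_type]
  refine sum_congr rfl fun t _ => ?_
  rw [avg, div_eq_mul_inv, sum_mul, mul_sum]
  exact sum_congr rfl fun i _ => by ring

theorem upb2_site {J I : Type} [Fintype J] [DecidableEq J] [Fintype I] [DecidableEq I] (l : J)
    (a : I) : avg (fun i : J → I => if i l = a then (1 : ℝ) else 0) = (Fintype.card I : ℝ)⁻¹ := by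
  have : Nonempty I := ⟨a⟩
  have h1 := avg_pi_prod (fun (j : J) (x : I) => if j = l then (if x = a then (1 : ℝ) else 0) else 1)
  have h2 : ∀ j : J, avg (fun x : I => if j = l then (if x = a then (1 : ℝ) else 0) else 1) =
      if j = l then (Fintype.card I : ℝ)⁻¹ else 1 := fun j => by
    split_ifs
    · simp [avg]
    · exact avg_const 1
  simp only [h2, prod_ite_eq', mem_univ, if_true] at h1
  exact h1

/-- thinning of a Poisson family -/
theorem upb2_thin {J I : Type} [Fintype J] [DecidableEq J] [Fintype I] [DecidableEq I]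
    {p : ι → ℝ} (hp : Prob p) {A : ℝ} (hA : 0 ≤ A) (hΦ : Lip 𝒜 c Φ) (h0 : 0 ∈ 𝒜) {s : ι → S}
    (hs : ∀ i, s i ∈ 𝒜) (l : ι → J) (a : I) :
    PF (fun x : ι × (J → I) => p x.1 * (Fintype.card (J → I) : ℝ)⁻¹) (A * Fintype.card I)
      (fun _ cc => Φ (∑ k, if (cc k).2 (l (cc k).1) = a then s (cc k).1 else 0)) =
      PF p A fun _ cc => Φ (∑ k, s (cc k)) := by
  have : Nonempty I := ⟨a⟩
  have hq := hp.unif (J → I)
  set q : ι × (J → I) → ℝ := fun x => p x.1 * (Fintype.card (J → I) : ℝ)⁻¹ with hqd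
  set s' : ι × (J → I) → S := fun x => if x.2 (l x.1) = a then s x.1 else 0 with hs'
  have hA' : 0 ≤ A * Fintype.card I := by positivity
  have h1 := pois_fam hq.2 (A * Fintype.card I) s' Φ 0
  have h2 := pois_fam hp.2 A s Φ 0
  simp only [zero_add] at h1 h2
  rw [← h1, ← h2]
  have hs'' : ∀ x, s' x ∈ 𝒜 := fun x => by
    simp only [hs']
    split_ifs
    · exact hs _
    · exact h0
  set w1 : ι × (J → I) → ℝ := fun x =>
    if x.2 (l x.1) = a then A * Fintype.card I * q x else 0 with hw1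
  set w2 : ι × (J → I) → ℝ := fun x =>
    if x.2 (l x.1) = a then 0 else A * Fintype.card I * q x with hw2
  have h3 : (fun x => A * Fintype.card I * q x) = fun x => w1 x + w2 x := by
    funext x
    simp only [hw1, hw2]
    split_ifs <;> simp
  have hj1 : Jmp 𝒜 (fam w1 s') := jmp_fam (fun x => by
    simp only [hw1]
    split_ifs
    · exact mul_nonneg hA' (hq.1 x)
    · exact le_rfl) fun x _ => hs'' x
  have hj2 : Jmp 𝒜 (fam w2 s') := jmp_fam (fun x => by
    simp only [hw2]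
    split_ifs
    · exact le_rfl
    · exact mul_nonneg hA' (hq.1 x)) fun x _ => hs'' x
  have h4 : Pois (fam w2 s') Φ = Φ := by
    funext η
    refine pois_inv (fun y hy x => ?_) η
    obtain ⟨i, hi, rfl⟩ := mem_support_fam hy
    have h5 : ¬ i.2 (l i.1) = a := fun h => hi (by simp only [hw2, if_pos h])
    simp only [hs', if_neg h5, add_zero]
  have h5 : fam w1 s' = fam (fun i => A * p i) s := by
    refine fam_ext fun φ => ?_
    have h6 : ∀ x : ι × (J → I), w1 x * φ (s' x) = p x.1 * (Fintype.card (J → I) : ℝ)⁻¹ *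
        (A * Fintype.card I * φ (s x.1) * if x.2 (l x.1) = a then 1 else 0) := fun x => by
      simp only [hw1, hs', hqd]
      split_ifs
      · ring
      · ring
    simp only [h6]
    rw [upb2_unif]
    refine sum_congr rfl fun t _ => ?_
    have h7 : (Fintype.card I : ℝ) ≠ 0 := by exact_mod_cast Fintype.card_ne_zero
    simp only []
    rw [avg_const_mul, upb2_site]
    field_simp
  rw [h3, fam_add, pois_add hj1 hj2 hΦ, h4, h5]

end Gen

section Model
variable {K N r M : ℕ} {Θ : Type} (θ : Θ → (Fin K → Bool) → ℝ) (m : Fin r → ℝ) (g : Ms r M → ℝ)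

/-- the free energy as a function of the multiset of items -/
noncomputable def upb2F (h : Fin N → ℝ) (η : Multiset (Item K Θ N)) : ℝ :=
  FF θ m g h η.toList.get

/-- the value `T U` as a function of the multiset of clauses -/
noncomputable def upb2U (b : ℝ) (η : Multiset (Θ × Fin K)) : ℝ := UJ θ m g b η.toList.get

variable {θ m g} {J : Type} [Fintype J] [DecidableEq J]

theorem upb2F_sum (h : Fin N → ℝ) (it : J → Item K Θ N) :
    upb2F θ m g h (∑ k, {it k}) = FF θ m g h it := by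
  obtain ⟨e, he⟩ := upb2_equiv (upb2_get (∑ k, ({it k} : Multiset _)))
  rw [upb2F, ← FF_equiv e it]
  exact congrArg _ (funext fun k => (he k).symm)

theorem upb2U_sum (b : ℝ) (it : J → Θ × Fin K) :
    upb2U θ m g b (∑ k, {it k}) = UJ θ m g b it := by
  obtain ⟨e, he⟩ := upb2_equiv (upb2_get (∑ k, ({it k} : Multiset _)))
  rw [upb2U, ← UJ_equiv e b it]
  exact congrArg _ (funext fun k => (he k).symm)

theorem upb2F_add (h : Fin N → ℝ) (η : Multiset (Item K Θ N)) (a : Item K Θ N) :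
    upb2F θ m g h (η + {a}) = FF θ m g h fun k : Option _ => k.elim a η.toList.get := by
  rw [← upb2F_sum, upb2_option, upb2_get]

theorem upb2U_add (b : ℝ) (η : Multiset (Θ × Fin K)) (a : Θ × Fin K) :
    upb2U θ m g b (η + {a}) = UJ θ m g b fun k : Option _ => k.elim a η.toList.get := by
  rw [← upb2U_sum, upb2_option, upb2_get]

theorem upb2F_lip (hm : ∀ q, 0 < m q) (hg : Cube g) {c : ℝ} (hc : ∀ t σ, |θ t σ| ≤ c)
    (h : Fin N → ℝ) : Lip (Set.range fun a => {a}) c (upb2F θ m g h) := by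
  rintro _ ⟨a, rfl⟩ η
  rw [upb2F_add]
  exact FF_lip hm hg hc _ a

theorem upb2U_lip (hm : ∀ q, 0 < m q) (hg : Cube g) {c : ℝ} (hc0 : 0 ≤ c)
    (hc : ∀ t σ, |θ t σ| ≤ c) (b : ℝ) :
    Lip (insert 0 (Set.range fun a => {a})) c (upb2U θ m g b) := by
  rintro _ (rfl | ⟨a, rfl⟩) η
  · simpa using hc0
  · rw [upb2U_add]
    exact UJ_lip hm hg hc b _ a

theorem upb2F_false (hm : ∀ q, 0 < m q) (h : Fin N → ℝ) (η : Multiset (Item K Θ N)) {ι : Type}
    (x : ι → Θ × (Fin K → Fin N)) (T : Finset ι) :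
    upb2F θ m g h (η + ∑ k ∈ T, {(fun _ => false, x k)}) =
      ∑ k ∈ T, V1 θ m g (x k).1 + upb2F θ m g h η := by
  classical
  induction T using Finset.induction_on with
  | empty => simp
  | insert a T ha ih =>
    rw [sum_insert ha, sum_insert ha, add_comm ({_} : Multiset _), ← add_assoc, upb2F_add,
      add_assoc (V1 θ m g (x a).1), ← ih, add_comm (V1 θ m g (x a).1)]
    exact FF_false hm _ _ _

theorem upb2F_single (hm : ∀ q, 0 < m q) (hg : Cube g) (h : Fin N → ℝ)
    (x : J → (Θ × Fin K) × (Fin K → Fin N)) :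
    upb2F θ m g h (∑ k, {(fun j => decide (j = (x k).1.2), (x k).1.1, (x k).2)}) =
      ∑ a, 1 * (upb2U θ m g (h a) (∑ k, if (x k).2 (x k).1.2 = a then {(x k).1} else 0) +
        -Real.log 2) := by
  rw [upb2F_sum, FF_single hm hg]
  refine sum_congr rfl fun a _ => ?_
  rw [← upb2U_sum, one_mul, sub_eq_add_neg, ← sum_filter,
    sum_subtype (filter (fun k => (x k).2 (x k).1.2 = a) univ)
      (p := fun k => (x k).2 (x k).1.2 = a) (by simp)]

variable [Fintype Θ] {p : Θ → ℝ}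

theorem upb2_LL (hm : ∀ q, 0 < m q) (hp : Prob p) [NeZero N] (h : Fin N → ℝ) (A : ℝ)
    (mask : Fin K → Bool) (η : Multiset (Item K Θ N)) :
    ∑ x : Θ × (Fin K → Fin N), A * (p x.1 * (Fintype.card (Fin K → Fin N) : ℝ)⁻¹) *
      upb2F θ m g h (η + {(mask, x)}) = A * (upb2F θ m g h η +
        SS ((sysU _ K N r M).tilt (mext m) (r + 1) (hamU θ g h η.toList.get)) (msg r M) (mext m)
          (r + 1) (fun ω i => sg (ω.1 i)) g p θ mask) := by
  simp only [mul_assoc A, ← mul_sum]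
  congr 1
  rw [upb2_unif, SS, ← one_mul (upb2F θ m g h η), ← hp.2, sum_mul, ← sum_add_distrib]
  refine sum_congr rfl fun t _ => ?_
  rw [← mul_add, ← avg_const (X := Fin K → Fin N) (upb2F θ m g h η), ← avg_add]
  congr 2
  funext i
  rw [upb2F_add, FF_option hm]
  rfl

/-- the inequality for a fixed field -/
theorem upb2_main {lam : ℝ} {j₀ : Fin K} {a b : Θ → ℝ} {f : Θ → Fin K → Bool → ℝ} (hK : Even K)
    (hp : Prob p) (hl : 0 < lam) (hP : PTF p θ j₀ a b f) (hm1 : StrictMono m)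
    (hm2 : ∀ q, 0 < m q ∧ m q < 1) (hg : Cube g) [NeZero N] {c : ℝ} (hc0 : 0 ≤ c)
    (hc : ∀ t σ, |θ t σ| ≤ c) (h : Fin N → ℝ) :
    PF p (lam * N) (fun _ cc => logZ N (fun k => θ (cc k)) h) +
      N * ((K - 1) * lam * ∑ t, p t * V1 θ m g t) ≤
      ∑ a, PF p (K * lam) fun n cc => avg fun l : Fin n → Fin K =>
        TT r m (fun w => g fun d => fl M (w d)) (UU (fun k => θ (cc k)) (h a) l) := by
  have : Nonempty (Fin K) := ⟨j₀⟩
  have hm : ∀ q, 0 < m q := fun q => (hm2 q).1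
  have hK1 : (1 : ℝ) ≤ K := by exact_mod_cast j₀.pos
  have hK0 : (K : ℝ) ≠ 0 := by positivity
  have hq := hp.unif (Fin K → Fin N)
  have hq1 := hp.unif (Fin K)
  have hq2 := hq1.unif (Fin K → Fin N)
  have hΦ := upb2F_lip (θ := θ) hm hg hc h
  have hA1 : 0 ≤ lam * N := by positivity
  have hA2 : 0 ≤ (K - 1) * lam * N := by
    have : (0 : ℝ) ≤ K - 1 := by linarith
    positivity
  have hA3 : 0 ≤ K * lam := by positivity
  have hA4 : 0 ≤ K * lam * Fintype.card (Fin N) := by positivity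
  set s1 : (Fin K → Bool) → Θ × (Fin K → Fin N) → Multiset (Item K Θ N) :=
    fun mask x => {(mask, x)} with hs1
  set s2 : (Θ × Fin K) × (Fin K → Fin N) → Multiset (Item K Θ N) :=
    fun x => {(fun j => decide (j = x.1.2), x.1.1, x.2)} with hs2
  have hj1 := jmp_fam (𝒜 := Set.range fun a => {a}) (s := s1 fun _ => true)
    (fun x => mul_nonneg hA1 (hq.1 x)) fun x _ => ⟨_, rfl⟩
  have hj2 := jmp_fam (𝒜 := Set.range fun a => {a}) (s := s1 fun _ => false)
    (fun x => mul_nonneg hA2 (hq.1 x)) fun x _ => ⟨_, rfl⟩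
  have hj3 := jmp_fam (𝒜 := Set.range fun a => {a}) (s := s2)
    (fun x => mul_nonneg hA4 (hq2.1 x)) fun x _ => ⟨_, rfl⟩
  have key := pois_le_of_LL (hj1.add hj2) hj3 hΦ (by
    rw [mass_add, mass_fam, mass_fam, mass_fam, ← mul_sum, ← mul_sum, ← mul_sum, hq.2, hq2.2,
      Fintype.card_fin]
    ring) (fun η => by
    rw [LL_add, LinearMap.add_apply, Pi.add_apply, LL_fam, LL_fam, LL_fam]
    have h1 : ∑ x : (Θ × Fin K) × (Fin K → Fin N), K * lam * Fintype.card (Fin N) *
        (p x.1.1 * (Fintype.card (Fin K) : ℝ)⁻¹ * (Fintype.card (Fin K → Fin N) : ℝ)⁻¹) *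
          upb2F θ m g h (η + s2 x) = ∑ l : Fin K, ∑ x : Θ × (Fin K → Fin N),
            lam * N * (p x.1 * (Fintype.card (Fin K → Fin N) : ℝ)⁻¹) *
              upb2F θ m g h (η + {(fun j => decide (j = l), x)}) := by
      simp only [Fintype.sum_prod_type]
      rw [sum_comm]
      refine sum_congr rfl fun l _ => sum_congr rfl fun t _ => sum_congr rfl fun i _ => ?_
      simp only [Fintype.card_fin, hs2]
      field_simp
    rw [h1]
    simp only [hs1, upb2_LL hm hp]
    have h2 := upA (D := (sysU _ K N r M).tilt (mext m) (r + 1) (hamU θ g h η.toList.get))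
      (Mc := msg r M) (s := fun ω i => sg (ω.1 i)) hK hp hP (lv_mext hm1 hm2)
      (Casc.Top.tilt (top_prod (top_lev le_rfl _ _) (top_pi fun _ => top_msg r M (Nat.le_succ r))) _)
      (top_msg r M (Nat.le_succ r)) (fun ω => cube_sg _) hg
    rw [← mul_sum, sum_add_distrib, sum_const, card_univ, Fintype.card_fin, nsmul_eq_mul]
    nlinarith [mul_le_mul_of_nonneg_left h2 hA1]) 0
  have hL : Pois (fam (fun x : Θ × (Fin K → Fin N) => (K - 1) * lam * N *
      (p x.1 * (Fintype.card (Fin K → Fin N) : ℝ)⁻¹)) (s1 fun _ => false)) (upb2F θ m g h) =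
      fun η => upb2F θ m g h η + N * ((K - 1) * lam * ∑ t, p t * V1 θ m g t) := by
    funext η
    rw [pois_fam hq.2]
    simp only [hs1, upb2F_false hm]
    rw [PF_add_const hq hA2 (upb2_gr_single fun x : Θ × (Fin K → Fin N) => V1 θ m g x.1),
      PF_single hq _ fun x : Θ × (Fin K → Fin N) => V1 θ m g x.1, upb2_unif]
    simp only [avg_const]
    ring
  rw [pois_add hj1 hj2 hΦ, hL, pois_add_const hj1 hΦ, pois_fam hq.2, pois_fam hq2.2] at key
  have hT : (fun (n : ℕ) (cc : Fin n → Θ × (Fin K → Fin N)) =>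
      Real.log (∑ σ, Real.exp (ham (fun k => θ (cc k).1) (fun k => (cc k).2) h σ))) =
      fun _ cc => upb2F θ m g h (0 + ∑ k, s1 (fun _ => true) (cc k)) + N * Real.log 2 := by
    funext n cc
    simp only [hs1, zero_add]
    rw [upb2F_sum, FF_true hm]
    ring
  have hT2 : PF p (lam * N) (fun _ cc => logZ N (fun k => θ (cc k)) h) =
      PF (fun x : Θ × (Fin K → Fin N) => p x.1 * (Fintype.card (Fin K → Fin N) : ℝ)⁻¹) (lam * N)
        (fun _ cc => upb2F θ m g h (0 + ∑ k, s1 (fun _ => true) (cc k))) + N * Real.log 2 := by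
    rw [← PF_add_const hq hA1 (upb2_gr hc0 hΦ (fun x => ⟨_, rfl⟩) 0), ← hT, PF_unif]
    rfl
  have hΨ := fun a => upb2U_lip (θ := θ) hm hg hc0 hc (h a)
  have hG : ∀ a : Fin N, Gr (|upb2U θ m g (h a) 0| + c)
      fun _ (cc : _ → (Θ × Fin K) × (Fin K → Fin N)) =>
      upb2U θ m g (h a) (∑ k, if (cc k).2 (cc k).1.2 = a then {(cc k).1} else 0) := fun a => by
    have h1 := upb2_gr hc0 (hΨ a) (s := fun x : (Θ × Fin K) × (Fin K → Fin N) =>
      if x.2 x.1.2 = a then {x.1} else 0) (fun x => by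
        split_ifs
        · exact Or.inr ⟨_, rfl⟩
        · exact Or.inl rfl) 0
    simpa only [zero_add] using h1
  simp only [hs2, zero_add, upb2F_single hm hg] at key
  rw [upb2_PF_sum hq2 hA4 _ fun a => ⟨_, upb2_gr_add (hG a) _⟩] at key
  have hR : ∀ a : Fin N, 1 * PF (fun x : (Θ × Fin K) × (Fin K → Fin N) =>
      p x.1.1 * (Fintype.card (Fin K) : ℝ)⁻¹ * (Fintype.card (Fin K → Fin N) : ℝ)⁻¹)
      (K * lam * Fintype.card (Fin N)) (fun _ cc =>
        upb2U θ m g (h a) (∑ k, if (cc k).2 (cc k).1.2 = a then {(cc k).1} else 0) +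
          -Real.log 2) = (PF p (K * lam) fun n cc => avg fun l : Fin n → Fin K =>
        TT r m (fun w => g fun d => fl M (w d)) (UU (fun k => θ (cc k)) (h a) l)) +
          -Real.log 2 := fun a => by
    rw [one_mul, PF_add_const hq2 hA4 (hG a),
      upb2_thin hq1 hA3 (hΨ a) (Or.inl rfl) (s := fun y => {y}) (fun y => Or.inr ⟨_, rfl⟩)
        Prod.snd a, PF_unif]
    simp only [upb2U_sum, UJ_eq hm hg]
  simp only [hR] at key
  rw [sum_add_distrib, sum_const, card_univ, Fintype.card_fin, nsmul_eq_mul] at key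
  simp only [zero_add] at hT2
  rw [hT2]
  linarith

end Model

theorem upStep : UpStep := by
  intro K Θ Hh _ _ p θ ph hv lam j₀ a b f hK hp hph hl hP r m M g hm1 hm2 hg N hN
  have : NeZero N := ⟨by omega⟩
  have : Nonempty (Fin K) := ⟨j₀⟩
  have hm : ∀ q, 0 < m q := fun q => (hm2 q).1
  have hN0 : (0 : ℝ) < N := by exact_mod_cast hN
  obtain ⟨c, hc0, hc⟩ : ∃ c, 0 ≤ c ∧ ∀ t σ, |θ t σ| ≤ c :=
    ⟨∑ x : Θ × (Fin K → Bool), |θ x.1 x.2|, sum_nonneg fun _ _ => abs_nonneg _, fun t σ =>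
      single_le_sum (f := fun x : Θ × (Fin K → Bool) => |θ x.1 x.2|) (fun _ _ => abs_nonneg _)
        (mem_univ (t, σ))⟩
  have hG1 : ∀ h : Fin N → ℝ, ∃ C, Gr C fun _ (cc : _ → Θ) => logZ N (fun k => θ (cc k)) h :=
    fun h => by
      have h1 := upb2_gr_avg (upb2_gr_add (upb2_gr hc0 (upb2F_lip (θ := θ) hm hg hc h)
        (s := fun x : Θ × (Fin K → Fin N) => {(fun _ => true, x)}) (fun x => ⟨_, rfl⟩) 0)
        (N * Real.log 2))
      simp only [zero_add, upb2F_sum, FF_true hm, sub_add_cancel] at h1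
      exact ⟨_, h1⟩
  have hG2 : ∀ b : ℝ, ∃ C, Gr C fun n (cc : _ → Θ) => avg fun l : Fin n → Fin K =>
      TT r m (fun w => g fun d => fl M (w d)) (UU (fun k => θ (cc k)) b l) := fun b => by
    have h1 := upb2_gr_avg (upb2_gr hc0 (upb2U_lip (θ := θ) hm hg hc0 hc b)
      (s := fun x : Θ × Fin K => {x}) (fun x => Or.inr ⟨_, rfl⟩) 0)
    simp only [zero_add, upb2U_sum, UJ_eq hm hg] at h1
    exact ⟨_, h1⟩
  unfold pressF trialF
  rw [upb2_PF_sum hp (by positivity) _ fun h => hG1 _,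
    upb2_PF_sum hp (by positivity) _ fun h => hG2 _]
  simp only [← V1_eq hm hg]
  rw [PF_single hp]
  have h1 := sum_le_sum fun (h : Fin N → Hh) (_ : h ∈ univ) => mul_le_mul_of_nonneg_left
    (upb2_main hK hp hl hP hm1 hm2 hg hc0 hc fun i => hv (h i)) ((hph.pi (Fin N)).1 h)
  simp only [mul_add, sum_add_distrib, ← sum_mul, (hph.pi (Fin N)).2, mul_sum univ
    (fun a : Fin N => _)] at h1
  rw [sum_comm] at h1
  simp only [upb2_marg hph.2 fun x => PF p (K * lam) fun n cc => avg fun l : Fin n → Fin K =>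
      TT r m (fun w => g fun d => fl M (w d)) (UU (fun k => θ (cc k)) (hv x) l)] at h1
  rw [sum_const, card_univ, Fintype.card_fin, nsmul_eq_mul] at h1
  rw [one_div, inv_mul_le_iff₀ hN0]
  linarith

end Vale.Agent.P168
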