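import Vale.Agent.P168.Step
import Vale.Agent.P168.PFl

/-! The upper bound for finite models. -/

namespace Vale.Agent.P168

open Finset

theorem upperF (h : UpStep) : UpperF := by
  intro K Θ Hh _ _ p θ ph hv lam j₀ a b f hK hp hph hl hPT r m x hx N hN
  refine le_of_forall_pos_le_add fun ε hε => ?_
  have hK1 : (1 : ℝ) ≤ K := by exact_mod_cast j₀.pos
  obtain ⟨c, hc0, hc1, hc2⟩ : ∃ c : ℝ, 0 ≤ c ∧ (∀ t σ, |θ t σ| ≤ c) ∧ ∀ t, |hv t| ≤ c :=
    ⟨‖θ‖ + ‖hv‖, by positivity, fun t σ => le_add_of_le_of_nonneg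
      ((norm_le_pi_norm (θ t) σ).trans (norm_le_pi_norm θ t)) (norm_nonneg _),
      fun t => le_add_of_nonneg_of_le (norm_nonneg _) (norm_le_pi_norm hv t)⟩
  have hε4 : 0 < ε / 4 := by positivity
  obtain ⟨M₁, h1⟩ := PF_trunc (a := K * lam) (by positivity) (c + 1) hε4
  obtain ⟨M₂, h2⟩ := PF_trunc (a := (K - 1) * lam) (mul_nonneg (by linarith) hl.le) (c + 1) hε4
  obtain ⟨E, hE⟩ : ∃ E : ℝ, E = Real.exp (2 * ((c + 1) * ((M₁ + M₂ : ℕ) + 1)) * (r + 1)) *
    (((M₁ + M₂ : ℕ) : ℝ) * K) := ⟨_, rfl⟩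
  have hE0 : 0 ≤ E := by rw [hE]; positivity
  obtain ⟨M, g, hg, hd⟩ := step_approx hx.2.2.1 hx.2.2.2 (δ := ε / 4 / (E + 1)) (by positivity)
  have hx' : Adm r m fun w => g fun d => fl M (w d) :=
    ⟨hx.1, hx.2.1, (measurable_of_finite g).comp
      (measurable_pi_lambda _ fun d => (measurable_fl M).comp (measurable_pi_apply d)),
      fun _ => hg _⟩
  have key : ∀ n ≤ M₁ + M₂, ∀ Y : (Fin n × Fin K → ℝ) → ℝ, MA Y → Bd ((c + 1) * (n + 1)) Y →
      |TT r m x Y - TT r m (fun w => g fun d => fl M (w d)) Y| ≤ ε / 4 := by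
    intro n hn Y hY hY'
    have hn' : (n : ℝ) ≤ (M₁ + M₂ : ℕ) := by exact_mod_cast hn
    refine (TT_L1 hx hx' hY hY').trans ((mul_le_mul (?_ : _ ≤ E + 1) hd
      (MeasureTheory.integral_nonneg fun _ => abs_nonneg _) (by positivity)).trans_eq ?_)
    · rw [hE, Fintype.card_prod, Fintype.card_fin, Fintype.card_fin, Nat.cast_mul]
      refine le_trans ?_ (le_add_of_nonneg_right zero_le_one)
      gcongr
    · field_simp
  have gU : ∀ y, Adm r m y → Gr (c + 1) fun (n : ℕ) (t : Fin n → Θ) => ∑ h, ph h *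
      avg fun l : Fin n → Fin K => TT r m y (UU (fun k => θ (t k)) (hv h) l) :=
    fun y hy n t => hph.abs_le fun h => abs_avg_le_of (by positivity) fun l =>
      TT_bd hy (UU_ma _ _ l) (UU_bd (fun k => hc1 (t k)) (hc2 h) l)
  have gV : ∀ y, Adm r m y → Gr (c + 1) fun (n : ℕ) (t : Fin n → Θ) =>
      TT r m y (VV fun k => θ (t k)) :=
    fun y hy n t => TT_bd hy (VV_ma _) (VV_bd hc0 fun k => hc1 (t k))
  have k1 := h1 Θ p _ _ _ hp (gU _ hx') (gU _ hx) hε4.le fun n hn t => by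
    have := hph.abs_le fun h => abs_avg_le_of hε4.le fun l : Fin n → Fin K =>
      key n (by omega) _ (UU_ma (fun k => θ (t k)) (hv h) l) (UU_bd (fun k => hc1 (t k)) (hc2 h) l)
    simp only [avg_sub, mul_sub, sum_sub_distrib] at this
    linarith [(abs_le.1 this).1]
  have k2 := h2 Θ p _ _ _ hp (gV _ hx) (gV _ hx') hε4.le fun n hn t => by
    have := key n (by omega) _ (VV_ma fun k => θ (t k)) (VV_bd hc0 fun k => hc1 (t k))
    linarith [(abs_le.1 this).2]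
  have k3 := h K Θ Hh p θ ph hv lam j₀ a b f hK hp hph hl hPT r m M g hx.1 hx.2.1 hg N hN
  unfold trialF at k3 ⊢
  linarith

end Vale.Agent.P168
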