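import Vale.Agent.P168.Core
import Vale.Agent.P168.Ass
import Vale.Agent.P168.UpB2
import Vale.Agent.P168.UpC
import Vale.Agent.P168.RedA
import Vale.Agent.P168.Disc

/-! Assembly for general models. -/

namespace Vale.Agent.P168

open Finset MeasureTheory ProbabilityTheory Filter Topology

variable {K : ℕ} {Ω : Type*} [MeasurableSpace Ω] {P : Measure Ω} [IsProbabilityMeasure P]
  {θ : Ω → (Fin K → Bool) → ℝ} {μ : Measure ℝ} [IsProbabilityMeasure μ] {lam : ℝ}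

theorem lower (hK : 1 ≤ K) (hθ : Measurable θ) (hi : Integrable (fun ω => ‖θ ω‖) P)
    (hμ : Integrable id μ) (hl : 0 < lam) {ε : ℝ} (hε : 0 < ε) :
    ∀ᶠ N in atTop, ∃ r m x, Adm r m x ∧ trial P θ μ lam r m x ≤ pressure P θ μ lam N + ε := by
  have hi' : Integrable θ P := (integrable_norm_iff hθ.aestronglyMeasurable).1 hi
  set δ : ℝ := ε / (2 * ((2 * K + 1) * lam + 2)) with hδ
  have hδ0 : 0 < δ := by positivity
  obtain ⟨Θ, _, q, θ', hq, h1⟩ := disc hi' hδ0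
  obtain ⟨Hh, _, s, hv, hs, h2⟩ := disc hμ hδ0
  simp only [id, Real.norm_eq_abs] at h2
  filter_upwards [lowerF core K Θ Hh _ θ' _ hv lam hK (prob_law P hq) (prob_law μ hs) hl (ε / 2)
    (by positivity), eventually_ge_atTop 1] with N ⟨r, m, x, hA, h3⟩ hN
  refine ⟨r, m, x, hA, ?_⟩
  have h4 := (abs_le.1 (pressure_close (θ' := θ') (hv := hv) hθ hi hμ hl.le hq hs hN)).1
  have h5 := (abs_le.1 (trial_close (θ' := θ') (hv := hv) hK hθ hi hμ hl.le hq hs hA)).2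
  have h6 : δ * (2 * ((2 * K + 1) * lam + 2)) = ε := div_mul_cancel₀ _ (by positivity)
  have h7 := mul_le_mul_of_nonneg_left h1 hl.le
  have h8 := mul_le_mul_of_nonneg_left h1 (show 0 ≤ 2 * K * lam by positivity)
  nlinarith

theorem discPT_ae (hθ : Measurable θ) (hi : Integrable (fun ω => ‖θ ω‖) P)
    (j₀ : Fin K) {a b : Ω → ℝ} {f : Ω → Fin K → Bool → ℝ}
    (he : ∀ᵐ ω ∂P, (∀ σ, Real.exp (θ ω σ) = a ω * (1 + b ω * ∏ j, f ω j (σ j))) ∧
      0 < a ω ∧ |b ω| < 1 ∧ ∀ j s, |f ω j s| ≤ 1) (hbm : Measurable b)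
    (hfm : Measurable f) (h1 : iIndepFun (fun j ω => f ω j) P)
    (h2 : ∀ j j', IdentDistrib (fun ω => f ω j) (fun ω => f ω j') P P) (h3 : IndepFun b f P)
    (h4 : ∀ n, 1 ≤ n → 0 ≤ ∫ ω, (-b ω) ^ n ∂P) {δ : ℝ} (hδ : 0 < δ) :
    ∃ (Θ : Type) (_ : Fintype Θ) (q : Ω → Θ) (θ' : Θ → (Fin K → Bool) → ℝ) (a' b' : Θ → ℝ)
      (f' : Θ → Fin K → Bool → ℝ), (∀ t, MeasurableSet (q ⁻¹' {t})) ∧
      PTF (fun t => P.real (q ⁻¹' {t})) θ' j₀ a' b' f' ∧ ∫ ω, ‖θ ω - θ' (q ω)‖ ∂P ≤ δ := by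
  classical
  obtain ⟨N, hN, hNm, hN0⟩ := exists_measurable_superset_of_null he
  have hG : ∀ ω, ω ∉ N → (∀ σ, Real.exp (θ ω σ) = a ω * (1 + b ω * ∏ j, f ω j (σ j))) ∧
      0 < a ω ∧ |b ω| < 1 ∧ ∀ j s, |f ω j s| ≤ 1 := fun ω h => by
    by_contra h'
    exact h (hN h')
  have hae : ∀ {E : Type} [Zero E] (g : Ω → E), g =ᵐ[P] Nᶜ.indicator g := fun g => by
    filter_upwards [compl_mem_ae_iff.2 hN0] with ω h
    rw [Set.indicator_of_mem h]
  have hfj : ∀ j, (fun ω => f ω j) =ᵐ[P] fun ω => Nᶜ.indicator f ω j := fun j => by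
    filter_upwards [hae f] with ω h
    rw [← h]
  obtain ⟨Θ, _, q, θ', a', b', f', hq, hP, h5⟩ := discPT (P := P) (θ := Nᶜ.indicator θ)
    (hθ.indicator hNm.compl) (hi.congr ((hae θ).fun_comp norm)) j₀
    (a := fun ω => if ω ∈ N then 1 else a ω) (b := Nᶜ.indicator b) (f := Nᶜ.indicator f)
    (fun ω σ => by
      by_cases h : ω ∈ N
      · simp [h]
      · simp [h, (hG ω h).1 σ])
    (fun ω => by
      by_cases h : ω ∈ N
      · simp [h]
      · simp [h, (hG ω h).2.2.1])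
    (fun ω j s => by
      by_cases h : ω ∈ N
      · simp [h]
      · simp [h, (hG ω h).2.2.2 j s])
    (hbm.indicator hNm.compl) (hfm.indicator hNm.compl) (h1.congr hfj)
    (fun j j' => ((IdentDistrib.of_ae_eq (h2 j j').aemeasurable_fst (hfj j)).symm.trans
      (h2 j j')).trans (IdentDistrib.of_ae_eq (h2 j j').aemeasurable_snd (hfj j')))
    (h3.congr (hae b) (hae f))
    (fun n hn => (h4 n hn).trans_eq (integral_congr_ae ((hae b).fun_comp fun t => (-t) ^ n))) hδ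
  refine ⟨Θ, inferInstance, q, θ', a', b', f', hq, hP, le_of_eq_of_le (integral_congr_ae ?_) h5⟩
  filter_upwards [hae θ] with ω h
  rw [← h]

theorem upper (hK : Even K) (j₀ : Fin K) (hθ : Measurable θ) (hi : Integrable (fun ω => ‖θ ω‖) P)
    (hμ : Integrable id μ) (hl : 0 < lam) {a b : Ω → ℝ} {f : Ω → Fin K → Bool → ℝ}
    (he : ∀ᵐ ω ∂P, (∀ σ, Real.exp (θ ω σ) = a ω * (1 + b ω * ∏ j, f ω j (σ j))) ∧
      0 < a ω ∧ |b ω| < 1 ∧ ∀ j s, |f ω j s| ≤ 1) (hbm : Measurable b)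
    (hfm : Measurable f) (h1 : iIndepFun (fun j ω => f ω j) P)
    (h2 : ∀ j j', IdentDistrib (fun ω => f ω j) (fun ω => f ω j') P P) (h3 : IndepFun b f P)
    (h4 : ∀ n, 1 ≤ n → 0 ≤ ∫ ω, (-b ω) ^ n ∂P) {r : ℕ} {m : Fin r → ℝ}
    {x : (Fin (r + 1) → unitInterval) → ℝ} (hA : Adm r m x) {N : ℕ} (hN : 1 ≤ N) :
    pressure P θ μ lam N ≤ trial P θ μ lam r m x := by
  refine le_of_forall_pos_le_add fun ε hε => ?_
  have hK1 : 1 ≤ K := j₀.pos
  set δ : ℝ := ε / ((2 * K + 1) * lam + 2) with hδ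
  have hδ0 : 0 < δ := by positivity
  obtain ⟨Θ, _, q, θ', a', b', f', hq, hP, h5⟩ := discPT_ae hθ hi j₀ he hbm hfm h1 h2 h3 h4 hδ0
  obtain ⟨Hh, _, s, hv, hs, h6⟩ := disc hμ hδ0
  simp only [id, Real.norm_eq_abs] at h6
  have h7 := upperF upStep K Θ Hh _ θ' _ hv lam j₀ a' b' f' hK (prob_law P hq) (prob_law μ hs) hl
    hP r m x hA N hN
  have h8 := (abs_le.1 (pressure_close (θ' := θ') (hv := hv) hθ hi hμ hl.le hq hs hN)).2
  have h9 := (abs_le.1 (trial_close (θ' := θ') (hv := hv) hK1 hθ hi hμ hl.le hq hs hA)).1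
  have h10 : δ * ((2 * K + 1) * lam + 2) = ε := div_mul_cancel₀ _ (by positivity)
  have h11 := mul_le_mul_of_nonneg_left h5 hl.le
  have h12 := mul_le_mul_of_nonneg_left h5 (show 0 ≤ 2 * K * lam by positivity)
  nlinarith

theorem adm_zero (r : ℕ) : Adm r (fun p => ((p : ℕ) + 1 : ℝ) / (r + 1)) fun _ => 0 := by
  refine ⟨fun p q h => ?_, fun p => ⟨by positivity, ?_⟩, measurable_const, fun _ => by simp⟩
  · have : ((p : ℕ) : ℝ) < (q : ℕ) := by exact_mod_cast h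
    exact div_lt_div_of_pos_right (by linarith) (by positivity)
  · have : ((p : ℕ) : ℝ) < r := by exact_mod_cast p.2
    rw [div_lt_one (by positivity)]
    linarith

omit [IsProbabilityMeasure P] [IsProbabilityMeasure μ] in
theorem tendsto_of
    (hlo : ∀ ε > 0, ∀ᶠ N in atTop, ∃ r m x, Adm r m x ∧
      trial P θ μ lam r m x ≤ pressure P θ μ lam N + ε)
    (hup : ∀ r m x, Adm r m x → ∀ N, 1 ≤ N → pressure P θ μ lam N ≤ trial P θ μ lam r m x) :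
    Tendsto (pressure P θ μ lam) atTop (𝓝 (⨅ r, Phi P θ μ lam r)) := by
  have h1 : ∀ N, 1 ≤ N → ∀ r, pressure P θ μ lam N ≤ Phi P θ μ lam r := fun N hN r =>
    le_csInf ⟨_, _, _, adm_zero r, rfl⟩ (by
      rintro _ ⟨m, x, hA, rfl⟩
      exact hup r m x hA N hN)
  have h2 : ∀ r m x, Adm r m x → (⨅ r, Phi P θ μ lam r) ≤ trial P θ μ lam r m x := by
    intro r m x hA
    refine (ciInf_le ⟨pressure P θ μ lam 1, ?_⟩ r).trans (csInf_le ⟨pressure P θ μ lam 1, ?_⟩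
      ⟨m, x, hA, rfl⟩)
    · rintro _ ⟨r', rfl⟩
      exact h1 1 le_rfl r'
    · rintro _ ⟨m', x', hA', rfl⟩
      exact hup r m' x' hA' 1 le_rfl
  rw [Metric.tendsto_atTop']
  intro ε hε
  obtain ⟨N₀, hN₀⟩ := eventually_atTop.1 (hlo (ε / 2) (by positivity))
  refine ⟨N₀, fun N hN => ?_⟩
  obtain ⟨r, m, x, hA, h3⟩ := hN₀ N hN.le
  have h4 := h2 r m x hA
  have h5 : pressure P θ μ lam N ≤ ⨅ r, Phi P θ μ lam r := le_ciInf (h1 N (by omega))
  rw [Real.dist_eq, abs_lt]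
  constructor <;> linarith

end Vale.Agent.P168
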