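import Vale.Agent.P168.Casc2

/-! Pinning by exchangeability. -/

namespace Vale.Agent.P168

open Finset

namespace PinAux

variable {Ξ : Type} {t : ℕ}

/-- Observables. -/
abbrev Ob (Ξ : Type) (t : ℕ) : Type := Ξ → Ξ → (Fin t → Ξ) → ℝ

/-- Exchangeable positive functionals. -/
structure Exch (E : Ob Ξ t →ₗ[ℝ] ℝ) : Prop where
  pos : ∀ F : Ob Ξ t, (∀ x x' y, 0 ≤ F x x' y) → 0 ≤ E F
  one : E (fun _ _ _ => 1) ≤ 4
  sw : ∀ F : Ob Ξ t, E F = E fun x x' y => F x' x y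
  ex : ∀ (s : Fin t) (F : Ob Ξ t), E F = E fun x x' y => F x (y s) (Function.update y s x')

/-- Empirical mean. -/
noncomputable def yb (w : Ξ → ℝ) (y : Fin t → Ξ) : ℝ := avg fun s => w (y s)

/-- Bounded differences. -/
def BD (φ : (Fin t → Ξ) → ℝ) (δ : ℝ) : Prop := ∀ y s x, |φ (Function.update y s x) - φ y| ≤ δ

variable {E : Ob Ξ t →ₗ[ℝ] ℝ}

theorem Exch.mono (h : Exch E) {F G : Ob Ξ t} (hFG : ∀ x x' y, F x x' y ≤ G x x' y) :
    E F ≤ E G := by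
  have := h.pos (G - F) fun x x' y => sub_nonneg.2 (hFG x x' y)
  rw [map_sub] at this
  linarith

theorem E_mul (E : Ob Ξ t →ₗ[ℝ] ℝ) (a : ℝ) (F : Ob Ξ t) :
    E (fun x x' y => a * F x x' y) = a * E F := map_smul E a F

theorem Exch.close (h : Exch E) {F G : Ob Ξ t} {δ : ℝ} (hδ : 0 ≤ δ)
    (hFG : ∀ x x' y, |F x x' y - G x x' y| ≤ δ) : |E F - E G| ≤ 4 * δ := by
  have h1 := E_mul E δ fun _ _ _ => 1
  have h2 := mul_le_mul_of_nonneg_left h.one hδ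
  have h3 : E (F - G) ≤ E fun _ _ _ => δ * 1 :=
    h.mono fun x x' y => by simpa using (abs_le.1 (hFG x x' y)).2
  have h4 : E (G - F) ≤ E fun _ _ _ => δ * 1 :=
    h.mono fun x x' y => by have := (abs_le.1 (hFG x x' y)).1; simp only [Pi.sub_apply]; linarith
  rw [map_sub] at h3 h4
  rw [abs_le]
  constructor <;> linarith

theorem abs_yb {w : Ξ → ℝ} {b : ℝ} (hb : 0 ≤ b) (hw : ∀ x, |w x| ≤ b) (y : Fin t → Ξ) :
    |yb w y| ≤ b := abs_avg_le_of hb fun _ => hw _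

theorem bd_yb {w : Ξ → ℝ} {b : ℝ} (hw : ∀ x, |w x| ≤ b) :
    BD (t := t) (yb w) (2 * b * (t : ℝ)⁻¹) := by
  intro y s x
  have h1 : ∑ s', (w (Function.update y s x s') - w (y s')) = w x - w (y s) := by
    rw [Finset.sum_eq_single s (fun s' _ h => by rw [Function.update_of_ne h, sub_self])
      (fun h => absurd (mem_univ s) h), Function.update_self]
  have h2 : |w x - w (y s)| ≤ 2 * b := (abs_sub _ _).trans (by linarith [hw x, hw (y s)])
  rw [yb, yb, avg, avg, ← sub_div, ← sum_sub_distrib, h1, Fintype.card_fin, abs_div,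
    Nat.abs_cast, div_eq_mul_inv]
  exact mul_le_mul_of_nonneg_right h2 (by positivity)

theorem BD.mul {φ ψ : (Fin t → Ξ) → ℝ} {a b δ δ' : ℝ} (hφ : BD φ δ) (hψ : BD ψ δ')
    (ha : ∀ y, |φ y| ≤ a) (hb : ∀ y, |ψ y| ≤ b) : BD (fun y => φ y * ψ y) (a * δ' + b * δ) := by
  intro y s x
  have e : φ (Function.update y s x) * ψ (Function.update y s x) - φ y * ψ y =
      φ (Function.update y s x) * (ψ (Function.update y s x) - ψ y) +
        ψ y * (φ (Function.update y s x) - φ y) := by ring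
  rw [e]
  refine (abs_add_le _ _).trans (add_le_add ?_ ?_) <;> rw [abs_mul]
  · exact mul_le_mul (ha _) (hψ y s x) (abs_nonneg _) ((abs_nonneg _).trans (ha y))
  · exact mul_le_mul (hb _) (hφ y s x) (abs_nonneg _) ((abs_nonneg _).trans (hb y))

theorem Exch.ex1 (h : Exch E) (ht : 0 < t) {w : Ξ → ℝ} {G : Ξ → (Fin t → Ξ) → ℝ} {b δ : ℝ}
    (hb : 0 ≤ b) (hδ : 0 ≤ δ) (hw : ∀ x, |w x| ≤ b) (hG : ∀ x, BD (G x) δ) :
    |E (fun x x' y => w x' * G x y) - E fun x _ y => yb w y * G x y| ≤ 4 * (b * δ) := by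
  have : Nonempty (Fin t) := ⟨⟨0, ht⟩⟩
  have h1 : (E fun x _ y => yb w y * G x y) = avg fun s => E fun x _ y => w (y s) * G x y := by
    have e : (fun x _ y => yb w y * G x y : Ob Ξ t) = (Fintype.card (Fin t) : ℝ)⁻¹ •
        ∑ s : Fin t, (fun x _ y => w (y s) * G x y : Ob Ξ t) := by
      funext x x' y
      simp only [yb, avg, Pi.smul_apply, Finset.sum_apply, smul_eq_mul, ← Finset.sum_mul]
      ring
    rw [e, map_smul, map_sum, avg, smul_eq_mul, div_eq_inv_mul]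
  rw [h1, ← avg_const (X := Fin t) (E fun x x' y => w x' * G x y), ← avg_sub]
  refine abs_avg_le_of (by positivity) fun s => ?_
  rw [h.ex s]
  refine h.close (by positivity) fun x x' y => ?_
  rw [← mul_sub, abs_mul]
  exact mul_le_mul (hw _) (hG x y s x') (abs_nonneg _) hb

theorem Exch.ex2 (h : Exch E) (ht : 0 < t) {v w : Ξ → ℝ} {φ : (Fin t → Ξ) → ℝ} {b M δ : ℝ}
    (hb : 0 ≤ b) (hM : 0 ≤ M) (hδ : 0 ≤ δ) (hv : ∀ x, |v x| ≤ b) (hw : ∀ x, |w x| ≤ b)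
    (hφ : ∀ y, |φ y| ≤ M) (hd : BD φ δ) :
    |E (fun x x' y => v x * w x' * φ y) - E fun _ _ y => yb v y * yb w y * φ y| ≤
      8 * b ^ 2 * (δ + M * (t : ℝ)⁻¹) := by
  have h1 := h.ex1 ht (G := fun x y => v x * φ y) (δ := b * δ) hb (by positivity) hw
    fun x y s x' => by
      rw [← mul_sub, abs_mul]
      exact mul_le_mul (hv _) (hd y s x') (abs_nonneg _) hb
  have h2 := h.ex1 ht (G := fun _ y => yb w y * φ y) hb (by positivity) hv
    fun _ => (bd_yb hw).mul hd (abs_yb hb hw) hφ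
  have e1 : (fun x x' y => v x * w x' * φ y : Ob Ξ t) = fun x x' y => w x' * (v x * φ y) := by
    funext x x' y; ring
  have e2 : (fun _ _ y => yb v y * yb w y * φ y : Ob Ξ t) =
      fun _ _ y => yb v y * (yb w y * φ y) := by
    funext x x' y; ring
  have e3 : (E fun x _ y => yb w y * (v x * φ y)) = E fun _ x' y => v x' * (yb w y * φ y) := by
    rw [h.sw]
    congr 1
    funext x x' y; ring
  rw [e3] at h1
  rw [e1, e2]
  refine (abs_sub_le _ _ _).trans ((add_le_add h1 h2).trans (le_of_eq ?_))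
  ring

theorem Exch.quad (h : Exch E) (ht : 0 < t) {v u : Ξ → ℝ} {φ : (Fin t → Ξ) → ℝ} {b M : ℝ}
    (hb : 0 ≤ b) (hM : 1 ≤ M) (hv : ∀ x, |v x| ≤ b) (hu : ∀ x, |u x| ≤ b)
    (hφ : ∀ y, |φ y| ≤ M) (hd : BD φ (M * (t : ℝ)⁻¹)) :
    |E (fun x x' _ => v x * v x' * 1) - 2 * E (fun x x' y => v x * u x' * φ y) +
      E (fun x x' y => u x * u x' * (φ y * φ y)) - E fun _ _ y => (yb v y - yb u y * φ y) ^ 2| ≤
      64 * b ^ 2 * M ^ 2 * (t : ℝ)⁻¹ := by
  have hM0 : 0 ≤ M := by linarith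
  have h1 := h.ex2 ht (φ := fun _ => 1) (M := 1) (δ := 0) hb zero_le_one le_rfl hv hv
    (fun _ => by simp) (fun _ _ _ => by simp)
  have h2 := h.ex2 ht hb hM0 (by positivity) hv hu hφ hd
  have h3 := h.ex2 ht (M := M * M) hb (by positivity) (by positivity) hu hu
    (fun y => by rw [abs_mul]; exact mul_le_mul (hφ y) (hφ y) (abs_nonneg _) hM0)
    (hd.mul hd hφ hφ)
  have e : (E fun _ _ y => (yb v y - yb u y * φ y) ^ 2) =
      E (fun _ _ y => yb v y * yb v y * 1) - 2 * E (fun _ _ y => yb v y * yb u y * φ y) +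
        E fun _ _ y => yb u y * yb u y * (φ y * φ y) := by
    rw [← E_mul, ← map_sub, ← map_add]
    congr 1
    funext x x' y
    simp only [Pi.add_apply, Pi.sub_apply]
    ring
  have a1 : b ^ 2 * (t : ℝ)⁻¹ * 1 ≤ b ^ 2 * (t : ℝ)⁻¹ * M ^ 2 :=
    mul_le_mul_of_nonneg_left (by nlinarith) (by positivity)
  have a2 : b ^ 2 * (t : ℝ)⁻¹ * M ≤ b ^ 2 * (t : ℝ)⁻¹ * M ^ 2 :=
    mul_le_mul_of_nonneg_left (by nlinarith) (by positivity)
  rw [e, abs_le] at *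
  constructor <;> nlinarith [h1.1, h1.2, h2.1, h2.2, h3.1, h3.2]

theorem Exch.tail (h : Exch E) (ht : 0 < t) {u : Ξ → ℝ} {b : ℝ} (hb : 0 ≤ b)
    (hu : ∀ x, |u x| ≤ b) (hl : ∀ ψ : (Fin t → Ξ) → ℝ, (∀ y, 0 ≤ ψ y) →
      (E fun _ _ y => ψ y) ≤ 16 * E fun _ x' y => u x' * ψ y) :
    (E fun _ _ y => max (1 - 32 * yb u y) 0) ≤ 8192 * b ^ 2 * (t : ℝ)⁻¹ := by
  have h1 := h.ex1 ht (G := fun _ y => max (1 - 32 * yb u y) 0) (δ := 32 * (2 * b * (t : ℝ)⁻¹))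
    hb (by positivity) hu fun _ y s x => (abs_max_sub_max_le_abs _ _ _).trans (by
      have := abs_le.1 (bd_yb hu y s x)
      rw [abs_le]
      constructor <;> linarith [this.1, this.2])
  have h2 := hl (fun y => max (1 - 32 * yb u y) 0) fun y => le_max_right _ _
  have h3 : (E fun _ _ y => yb u y * max (1 - 32 * yb u y) 0) ≤
      E fun _ _ y => (1 / 32) * max (1 - 32 * yb u y) 0 := h.mono fun _ _ y => by
    rcases le_total (1 - 32 * yb u y) 0 with h4 | h4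
    · rw [max_eq_right h4]; simp
    · exact mul_le_mul_of_nonneg_right (by linarith) (le_max_right _ _)
  rw [E_mul] at h3
  have h4 := (abs_le.1 h1).2
  nlinarith

theorem Exch.upper (h : Exch E) (ht : 0 < t) {v u : Ξ → ℝ} {b : ℝ} (hb : 1 ≤ b)
    (hv : ∀ x, |v x| ≤ b) (hu : ∀ x, |u x| ≤ b) (hu0 : ∀ x, 0 ≤ u x)
    (hl : ∀ ψ : (Fin t → Ξ) → ℝ, (∀ y, 0 ≤ ψ y) →
      (E fun _ _ y => ψ y) ≤ 16 * E fun _ x' y => u x' * ψ y) :
    ∃ φ : (Fin t → Ξ) → ℝ, E (fun x x' _ => v x * v x' * 1) -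
      2 * E (fun x x' y => v x * u x' * φ y) + E (fun x x' y => u x * u x' * (φ y * φ y)) ≤
      (64 * b ^ 2 * (4096 * b ^ 2) ^ 2 + b ^ 2 * (8192 * b ^ 2)) * (t : ℝ)⁻¹ := by
  have hb0 : 0 ≤ b := by linarith
  have hτ : (0 : ℝ) ≤ (t : ℝ)⁻¹ := by positivity
  let ρ : (Fin t → Ξ) → ℝ := fun y => (max (yb u y) (1 / 32))⁻¹
  have hm : ∀ y : Fin t → Ξ, 1 / 32 ≤ max (yb u y) (1 / 32) := fun y => le_max_right _ _
  have hρ0 : ∀ y, 0 ≤ ρ y := fun y => inv_nonneg.2 (by linarith [hm y])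
  have hρ : ∀ y, ρ y ≤ 32 := fun y =>
    (inv_anti₀ (by norm_num) (hm y)).trans (by norm_num)
  have hρ' : ∀ y, |ρ y| ≤ 32 := fun y => by rw [abs_of_nonneg (hρ0 y)]; exact hρ y
  have hρd : BD ρ (1024 * (2 * b * (t : ℝ)⁻¹)) := by
    intro y s x
    have a1 := hm y
    have a2 := hm (Function.update y s x)
    have a3 := (abs_max_sub_max_le_abs _ _ (1 / 32)).trans (bd_yb hu y s x)
    have e : ρ (Function.update y s x) - ρ y = -(ρ (Function.update y s x) * ρ y *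
        (max (yb u (Function.update y s x)) (1 / 32) - max (yb u y) (1 / 32))) := by
      simp only [ρ]
      field_simp
      ring
    rw [e, abs_neg, abs_mul, abs_mul]
    refine mul_le_mul ?_ a3 (abs_nonneg _) (by norm_num)
    exact (mul_le_mul (hρ' _) (hρ' _) (abs_nonneg _) (by norm_num)).trans (by norm_num)
  refine ⟨fun y => yb v y * ρ y, ?_⟩
  have h1 := h.quad ht (φ := fun y => yb v y * ρ y) (M := 4096 * b ^ 2) hb0 (by nlinarith) hv hu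
    (fun y => by
      rw [abs_mul]
      exact (mul_le_mul (abs_yb hb0 hv y) (hρ' y) (abs_nonneg _) hb0).trans (by nlinarith))
    (fun y s x => (((bd_yb hv).mul hρd (abs_yb hb0 hv) hρ') y s x).trans (by
      have : b * (t : ℝ)⁻¹ * 1 ≤ b * (t : ℝ)⁻¹ * b := mul_le_mul_of_nonneg_left hb (by positivity)
      have : 0 ≤ b * (t : ℝ)⁻¹ := by positivity
      nlinarith))
  have h2 := h.tail ht hb0 hu hl
  have h3 : (E fun _ _ y => (yb v y - yb u y * (yb v y * ρ y)) ^ 2) ≤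
      E fun _ _ y => b ^ 2 * max (1 - 32 * yb u y) 0 := h.mono fun _ _ y => by
    have a1 : yb v y ^ 2 ≤ b ^ 2 := sq_le_sq' (abs_le.1 (abs_yb hb0 hv y)).1
      (abs_le.1 (abs_yb hb0 hv y)).2
    have a2 : 0 ≤ yb u y := avg_nonneg fun _ => hu0 _
    rcases le_total (yb u y) (1 / 32) with h4 | h4
    · have e : ρ y = 32 := by simp only [ρ]; rw [max_eq_right h4]; norm_num
      rw [e, max_eq_left (by linarith), show yb v y - yb u y * (yb v y * 32) =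
        yb v y * (1 - 32 * yb u y) by ring, mul_pow]
      exact mul_le_mul a1 (by nlinarith) (sq_nonneg _) (sq_nonneg _)
    · have e : yb u y * ρ y = 1 := by
        simp only [ρ]; rw [max_eq_left h4]; exact mul_inv_cancel₀ (by linarith)
      rw [show yb v y - yb u y * (yb v y * ρ y) = yb v y * (1 - yb u y * ρ y) by ring, e]
      simp only [sub_self, mul_zero, ne_eq, OfNat.ofNat_ne_zero, not_false_eq_true, zero_pow]
      positivity
  rw [E_mul] at h3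
  have h4 := (abs_le.1 h1).2
  have h5 := mul_le_mul_of_nonneg_left h2 (sq_nonneg b)
  nlinarith

/-- The functional. -/
noncomputable def fn [Fintype Ξ] {Ω : Type} [Fintype Ω] (P : Ω → ℝ) (y : Ω → Fin t → Ξ)
    (Γ : Ξ → Ξ → Ω → ℝ) : Ob Ξ t →ₗ[ℝ] ℝ where
  toFun F := avg fun x => avg fun x' => ∑ ω, P ω * Γ x x' ω * F x x' (y ω)
  map_add' F G := by simp only [Pi.add_apply, mul_add, sum_add_distrib, avg_add]
  map_smul' a F := by
    simp only [Pi.smul_apply, smul_eq_mul, RingHom.id_apply, ← avg_const_mul, mul_sum]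
    congr 1; funext x; congr 1; funext x'
    exact sum_congr rfl fun _ _ => by ring

theorem fn_apply [Fintype Ξ] {Ω : Type} [Fintype Ω] (P : Ω → ℝ) (y : Ω → Fin t → Ξ)
    (Γ : Ξ → Ξ → Ω → ℝ) (F : Ob Ξ t) :
    fn P y Γ F = avg fun x => avg fun x' => ∑ ω, P ω * Γ x x' ω * F x x' (y ω) := rfl

theorem fn_eq [Fintype Ξ] {Ω : Type} [Fintype Ω] (P : Ω → ℝ) (y : Ω → Fin t → Ξ)
    (Γ : Ξ → Ξ → Ω → ℝ) (F : Ob Ξ t) :
    fn P y Γ F = (∑ x, ∑ x', ∑ ω, P ω * Γ x x' ω * F x x' (y ω)) / Fintype.card Ξ /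
      Fintype.card Ξ := by
  rw [fn_apply, avg, sum_div _ _ (Fintype.card Ξ : ℝ), sum_div _ _ (Fintype.card Ξ : ℝ),
    sum_div _ _ (Fintype.card Ξ : ℝ)]
  rfl

end PinAux

open PinAux

theorem pin {p₀ : ℝ} (hp₀ : 0 < p₀) (c : ℝ) {ε : ℝ} (hε : 0 < ε) : ∃ t₀ : ℕ, ∀ t, t₀ ≤ t →
    ∀ (Ω Ξ : Type) [Fintype Ω] [Fintype Ξ] [DecidableEq Ξ] (P : Ω → ℝ) (y : Ω → Fin t → Ξ)
      (Γ : Ξ → Ξ → Ω → ℝ) (Ξ₀ : Finset Ξ) (o : Ξ) (v : Ξ → ℝ), Prob P → o ∈ Ξ₀ →
      p₀ * Fintype.card Ξ ≤ Ξ₀.card → (∀ x, |v x| ≤ c) →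
      (∀ x x' ω, 1 / 4 ≤ Γ x x' ω ∧ Γ x x' ω ≤ 4) →
      (∀ x, ∀ o' ∈ Ξ₀, ∀ ω, Γ x o' ω = Γ x o ω) → (∀ o' ∈ Ξ₀, ∀ ω, Γ o' o ω = 1) →
      (∀ F : Ξ → Ξ → (Fin t → Ξ) → ℝ, ∑ x, ∑ x', ∑ ω, P ω * Γ x x' ω * F x x' (y ω) =
        ∑ x, ∑ x', ∑ ω, P ω * Γ x x' ω * F x' x (y ω)) →
      (∀ (s : Fin t) (F : Ξ → Ξ → (Fin t → Ξ) → ℝ),
        ∑ x, ∑ x', ∑ ω, P ω * Γ x x' ω * F x x' (y ω) =
        ∑ x, ∑ x', ∑ ω, P ω * Γ x x' ω * F x (y ω s) (Function.update (y ω) s x')) →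
      (avg fun x => v x * ∑ ω, P ω * Γ x o ω) ^ 2 - ε ≤
          (avg fun x => avg fun x' => v x * v x' * ∑ ω, P ω * Γ x x' ω) ∧
        (avg fun x => avg fun x' => v x * v x' * ∑ ω, P ω * Γ x x' ω) ≤
          ∑ ω, P ω * (avg fun x => v x * Γ x o ω) ^ 2 + ε := by
  obtain ⟨b, hb, hcb, hpb⟩ : ∃ b : ℝ, 1 ≤ b ∧ c ≤ b ∧ p₀⁻¹ ≤ b :=
    ⟨max 1 (max c p₀⁻¹), le_max_left _ _, le_max_of_le_right (le_max_left _ _),
      le_max_of_le_right (le_max_right _ _)⟩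
  obtain ⟨K, hK⟩ : ∃ K : ℝ, K = 64 * b ^ 2 * (4096 * b ^ 2) ^ 2 + b ^ 2 * (8192 * b ^ 2) := ⟨_, rfl⟩
  refine ⟨⌈K / ε⌉₊ + 1, ?_⟩
  intro t ht Ω Ξ _ _ _ P y Γ Ξ₀ o v hP ho hc hv hΓ hΓ1 hΓ2 hsw hex
  have ht0 : 0 < t := by omega
  have hb0 : 0 ≤ b := by linarith
  have hKt : K * (t : ℝ)⁻¹ ≤ ε := by
    have h1 : K / ε ≤ t := (Nat.le_ceil _).trans (Nat.cast_le.2 (by omega))
    rw [div_le_iff₀ hε] at h1
    rw [← div_eq_mul_inv, div_le_iff₀ (by positivity)]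
    linarith
  have : Nonempty Ξ := ⟨o⟩
  have hN : (0 : ℝ) < Fintype.card Ξ := Nat.cast_pos.2 Fintype.card_pos
  have hN0 : (0 : ℝ) < Ξ₀.card := Nat.cast_pos.2 (card_pos.2 ⟨o, ho⟩)
  have hΓ0 : ∀ x x' ω, 0 ≤ P ω * Γ x x' ω := fun x x' ω =>
    mul_nonneg (hP.1 ω) (by linarith [(hΓ x x' ω).1])
  have hE : Exch (fn P y Γ) := by
    refine ⟨fun F hF => avg_nonneg fun x => avg_nonneg fun x' => sum_nonneg fun ω _ =>
      mul_nonneg (hΓ0 x x' ω) (hF _ _ _), ?_, fun F => ?_, fun s F => ?_⟩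
    · rw [fn_apply, ← avg_const (X := Ξ) 4]
      refine avg_mono fun x => ?_
      rw [← avg_const (X := Ξ) 4]
      refine avg_mono fun x' => ?_
      refine le_trans (b := ∑ ω, P ω * 4) (sum_le_sum fun ω _ => ?_) ?_
      · rw [mul_one]; exact mul_le_mul_of_nonneg_left (hΓ x x' ω).2 (hP.1 ω)
      · rw [← sum_mul, hP.2, one_mul]
    · rw [fn_eq, fn_eq, hsw F]
    · rw [fn_eq, fn_eq, hex s F]
  obtain ⟨u, hud⟩ : ∃ u : Ξ → ℝ,
      ∀ x, u x = if x ∈ Ξ₀ then (Fintype.card Ξ : ℝ) / Ξ₀.card else 0 := ⟨_, fun _ => rfl⟩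
  have hu0 : ∀ x, 0 ≤ u x := fun x => by
    rw [hud]
    split_ifs
    · exact div_nonneg hN.le hN0.le
    · exact le_rfl
  have hu : ∀ x, |u x| ≤ b := fun x => by
    rw [abs_of_nonneg (hu0 x), hud]
    split_ifs
    · refine le_trans ?_ hpb
      rw [div_le_iff₀ hN0, inv_mul_eq_div, le_div_iff₀ hp₀]
      linarith
    · exact hb0
  have hv' : ∀ x, |v x| ≤ b := fun x => (hv x).trans hcb
  have hav : ∀ (g : Ξ → ℝ) (a : ℝ), (∀ x ∈ Ξ₀, g x = a) → avg (fun x => u x * g x) = a := by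
    intro g a hg
    have : ∀ x, u x * g x = if x ∈ Ξ₀ then Fintype.card Ξ / Ξ₀.card * a else 0 := fun x => by
      rw [hud]
      split_ifs with h
      · rw [hg x h]
      · rw [zero_mul]
    rw [avg, sum_congr rfl fun x _ => this x, sum_ite_mem, univ_inter, sum_const, nsmul_eq_mul,
      ← mul_assoc, mul_div_cancel₀ _ hN0.ne', mul_div_cancel_left₀ _ hN.ne']
  have f1 : ∀ (w : Ξ → ℝ) (φ : (Fin t → Ξ) → ℝ), fn P y Γ (fun x x' y => w x * u x' * φ y) =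
      ∑ ω, P ω * (avg fun x => w x * Γ x o ω) * φ (y ω) := by
    intro w φ
    rw [sum_congr rfl fun ω _ => by rw [← avg_const_mul, ← avg_mul_const], ← avg_sum, fn_apply]
    congr 1
    funext x
    rw [← hav (fun x' => ∑ ω, P ω * (w x * Γ x x' ω) * φ (y ω)) _
      fun x' hx' => sum_congr rfl fun ω _ => by rw [hΓ1 x x' hx']]
    congr 1
    funext x'
    rw [mul_sum]
    exact sum_congr rfl fun ω _ => by ring
  have f2 : ∀ φ : (Fin t → Ξ) → ℝ, fn P y Γ (fun x x' y => u x * u x' * φ y) =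
      ∑ ω, P ω * φ (y ω) := by
    intro φ
    rw [f1]
    exact sum_congr rfl fun ω _ => by rw [hav _ 1 fun x hx => hΓ2 x hx ω, mul_one]
  have f0 : fn P y Γ (fun x x' _ => v x * v x' * 1) =
      avg fun x => avg fun x' => v x * v x' * ∑ ω, P ω * Γ x x' ω := by
    rw [fn_apply]
    congr 1; funext x; congr 1; funext x'
    rw [mul_sum]
    exact sum_congr rfl fun ω _ => by ring
  rw [← f0]
  constructor
  · have e : (avg fun x => v x * ∑ ω, P ω * Γ x o ω) =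
        ∑ ω, P ω * avg fun x => v x * Γ x o ω := by
      simp only [← avg_const_mul, ← avg_sum, mul_sum]
      congr 1; funext x
      exact sum_congr rfl fun ω _ => by ring
    rw [e]
    generalize hl : (∑ ω, P ω * avg fun x => v x * Γ x o ω) = l
    have hlb : |l| ≤ 4096 * b ^ 2 := by
      rw [← hl, ← one_mul (4096 * b ^ 2), ← hP.2, sum_mul]
      refine (abs_sum_le_sum_abs _ _).trans (sum_le_sum fun ω _ => ?_)
      rw [abs_mul, abs_of_nonneg (hP.1 ω)]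
      refine mul_le_mul_of_nonneg_left (abs_avg_le_of (by positivity) fun x => ?_) (hP.1 ω)
      rw [abs_mul, abs_of_nonneg (show 0 ≤ Γ x o ω by linarith [(hΓ x o ω).1])]
      exact (mul_le_mul (hv' x) (hΓ x o ω).2 (by linarith [(hΓ x o ω).1]) hb0).trans (by nlinarith)
    have h1 := hE.quad ht0 (φ := fun _ => l) hb0 (by nlinarith) hv' hu (fun _ => hlb)
      (fun _ _ _ => by rw [sub_self, abs_zero]; positivity)
    have h2 := hE.pos (fun _ _ y => (yb v y - yb u y * l) ^ 2) fun _ _ _ => sq_nonneg _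
    rw [f1, f2, ← sum_mul, ← sum_mul, hl, hP.2] at h1
    have h3 := (abs_le.1 h1).1
    have h4 : 0 ≤ b ^ 2 * (8192 * b ^ 2) * (t : ℝ)⁻¹ := by positivity
    rw [hK] at hKt
    nlinarith
  · obtain ⟨φ, hφ⟩ := hE.upper ht0 hb hv' hu hu0 fun ψ hψ => by
      have a1 : fn P y Γ (fun _ _ y => ψ y) ≤ 4 * ∑ ω, P ω * ψ (y ω) := by
        rw [fn_apply, ← avg_const (X := Ξ) (4 * _)]
        refine avg_mono fun x => ?_
        rw [← avg_const (X := Ξ) (4 * _)]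
        refine avg_mono fun x' => ?_
        rw [mul_sum]
        refine sum_le_sum fun ω _ => ?_
        have := mul_le_mul_of_nonneg_left (hΓ x x' ω).2 (mul_nonneg (hP.1 ω) (hψ (y ω)))
        linarith
      have a2 := f1 (fun _ => 1) ψ
      simp only [one_mul] at a2
      rw [a2, mul_sum]
      refine a1.trans ?_
      rw [mul_sum]
      refine sum_le_sum fun ω _ => ?_
      have a3 : 1 / 4 ≤ avg fun x => Γ x o ω := by
        rw [← avg_const (X := Ξ) (1 / 4)]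
        exact avg_mono fun x => (hΓ x o ω).1
      have := mul_le_mul_of_nonneg_left a3 (mul_nonneg (hP.1 ω) (hψ (y ω)))
      linarith
    rw [f1, f2, ← hK] at hφ
    have h1 : 0 ≤ ∑ ω, P ω * ((avg fun x => v x * Γ x o ω) - φ (y ω)) ^ 2 :=
      sum_nonneg fun ω _ => mul_nonneg (hP.1 ω) (sq_nonneg _)
    have h2 : ∑ ω, P ω * ((avg fun x => v x * Γ x o ω) - φ (y ω)) ^ 2 =
        ∑ ω, P ω * (avg fun x => v x * Γ x o ω) ^ 2 -
          2 * ∑ ω, P ω * (avg fun x => v x * Γ x o ω) * φ (y ω) +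
          ∑ ω, P ω * (φ (y ω) * φ (y ω)) := by
      rw [mul_sum, ← sum_sub_distrib, ← sum_add_distrib]
      exact sum_congr rfl fun ω _ => by ring
    linarith

end Vale.Agent.P168
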