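import Vale.Agent.P168.Casc3

/-! Step function messages as cascades. -/

namespace Vale.Agent.P168

open Finset MeasureTheory

theorem measurable_fl (M : ℕ) : Measurable (fl M) :=
  (measurable_of_countable fun n : ℕ =>
    (⟨min n M, Nat.lt_succ_of_le (min_le_right _ _)⟩ : Fin (M + 1))).comp
      (measurable_subtype_coe.mul_const ((M : ℝ) + 1)).nat_floor

theorem realU_bd (M : ℕ) (u : unitInterval) :
    ((fl M u : ℕ) : ℝ) ≤ (u : ℝ) * (M + 1) ∧ (u : ℝ) * (M + 1) ≤ ((fl M u : ℕ) : ℝ) + 1 := by
  have h0 : (0 : ℝ) < M + 1 := by positivity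
  have h1 : ((fl M u : ℕ) : ℝ) = min (⌊(u : ℝ) * (M + 1)⌋₊ : ℝ) M := Nat.cast_min _ _
  rw [h1]
  refine ⟨(min_le_left _ _).trans (Nat.floor_le (mul_nonneg u.2.1 h0.le)), ?_⟩
  rw [← min_add_add_right]
  exact le_min (Nat.lt_floor_add_one _).le (mul_le_of_le_one_left h0.le u.2.2)

theorem volume_fl (M : ℕ) (a : Fin (M + 1)) :
    (volume : Measure unitInterval).real {u | fl M u = a} = 1 / (M + 1) := by
  have h0 : (0 : ℝ) < M + 1 := by positivity
  have h1 : ((a : ℕ) : ℝ) ≤ M := by exact_mod_cast Nat.le_of_lt_succ a.2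
  have h2 : (0 : ℝ) ≤ (a : ℕ) := Nat.cast_nonneg _
  let x : unitInterval := ⟨(a : ℕ) / (M + 1), by positivity, (div_le_one h0).2 (by linarith)⟩
  let y : unitInterval := ⟨((a : ℕ) + 1) / (M + 1), by positivity, (div_le_one h0).2 (by linarith)⟩
  have h3 : (y : ℝ) - x = 1 / (M + 1) := by
    show ((a : ℕ) + 1) / ((M : ℝ) + 1) - (a : ℕ) / (M + 1) = _
    ring
  have h4 : volume {u | fl M u = a} = ENNReal.ofReal (1 / (M + 1)) := by
    refine le_antisymm ?_ ?_
    · rw [← h3, ← unitInterval.volume_Icc]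
      refine measure_mono fun u hu => ?_
      have h5 := realU_bd M u
      rw [show fl M u = a from hu] at h5
      exact ⟨(div_le_iff₀ h0).2 h5.1, (le_div_iff₀ h0).2 h5.2⟩
    · rw [← h3, ← unitInterval.volume_Ico]
      refine measure_mono fun u hu => Fin.ext ?_
      have h5 : ⌊(u : ℝ) * (M + 1)⌋₊ = a := (Nat.floor_eq_iff (mul_nonneg u.2.1 h0.le)).2
        ⟨(div_le_iff₀ h0).1 hu.1, (lt_div_iff₀ h0).1 hu.2⟩
      show min ⌊(u : ℝ) * (M + 1)⌋₊ M = a
      rw [h5, min_eq_left (Nat.le_of_lt_succ a.2)]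
  rw [measureReal_def, h4, ENNReal.toReal_ofReal (by positivity)]

theorem abs_fl_sub_le (M : ℕ) (u : unitInterval) :
    |((fl M u : ℕ) : ℝ) / (M + 1) - u| ≤ 1 / (M + 1) := by
  have h0 : (0 : ℝ) < M + 1 := by positivity
  have h1 := realU_bd M u
  rw [div_sub' h0.ne', abs_div, abs_of_pos h0]
  refine div_le_div_of_nonneg_right (abs_le.2 ⟨?_, ?_⟩) h0.le <;> linarith [h1.1, h1.2]

theorem top_msg (r M : ℕ) {R : ℕ} (h : r ≤ R) : (msg r M).Top R :=
  fun _ _ hr => funext fun e => hr e ((Nat.le_of_lt_succ e.2).trans h)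

section
variable {J : Type} [Fintype J] [DecidableEq J] {r M : ℕ}

theorem realU_int (G : (J → Fin (M + 1)) → ℝ) :
    ∫ u : J → unitInterval, G (fun j => fl M (u j)) = avg G := by
  have h1 : Measurable fun (u : J → unitInterval) j => fl M (u j) :=
    measurable_pi_lambda _ fun j => (measurable_fl M).comp (measurable_pi_apply j)
  rw [← integral_map h1.aemeasurable (measurable_of_countable G).aestronglyMeasurable,
    integral_fintype Integrable.of_finite, avg, sum_div]
  refine sum_congr rfl fun c _ => ?_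
  have h2 : (fun (u : J → unitInterval) j => fl M (u j)) ⁻¹' {c} =
      Set.univ.pi fun j => {u | fl M u = c j} := by
    ext u
    simp [funext_iff]
  rw [map_measureReal_apply h1 (measurableSet_singleton c), h2, measureReal_def, volume_pi_pi,
    ENNReal.toReal_prod]
  simp only [← measureReal_def, volume_fl]
  simp [div_eq_inv_mul]

/-- resampling the level `n` -/
def realU_up (n : ℕ) (c : J → Fin (M + 1)) (b : J → Ms r M) : J → Ms r M :=
  fun j e => if e.val = n then c j else b j e

theorem realU_sw {n : ℕ} (hn : n ≤ r) (k F : (J → Ms r M) → ℝ)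
    (hk : ∀ c b, k (realU_up n c b) = k b) :
    ∑ b, k b * F b = ∑ b, k b * avg fun c => F (realU_up n c b) := by
  have h1 : Function.Involutive fun x : (J → Ms r M) × (J → Fin (M + 1)) =>
      (realU_up n x.2 x.1, fun j => x.1 j ⟨n, Nat.lt_succ_of_le hn⟩) := fun x => by
    refine Prod.ext (funext fun j => funext fun e => ?_) (funext fun j => if_pos rfl)
    by_cases h : e.val = n
    · exact (if_pos h).trans (congrArg _ (Fin.ext h.symm))
    · exact (if_neg h).trans (if_neg h)
  have h2 := h1.bijective.sum_comp fun x => k x.1 * F x.1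
  simp only [hk, Fintype.sum_prod_type, sum_const, nsmul_eq_mul, card_univ, ← mul_sum] at h2
  simp only [avg, ← mul_div_assoc, ← sum_div]
  rw [h2, mul_div_cancel_left₀]
  exact_mod_cast Fintype.card_ne_zero

theorem realU_E {d : ℕ} (hd : d < r) {F : (J → Ms r M) → ℝ} (hF : (msgs J r M).Meas (d + 1) F)
    (a : J → Ms r M) : (msgs J r M).E d F a =
      ∫ u : J → unitInterval, F (realU_up (d + 1) (fun j => fl M (u j)) a) := by
  have h0 : (msgs J r M).E d F a =
      (msgs J r M).E d (fun b => avg fun c => F (realU_up (d + 1) c b)) a := by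
    refine realU_sw hd _ F fun c b => ?_
    have h1 : ∀ j (e : Fin (r + 1)), e.val ≤ d → realU_up (d + 1) c b j e = b j e :=
      fun j e he => if_neg (by omega)
    by_cases h : (msgs J r M).rel d a b
    · rw [Casc.ker_of_rel _ h, Casc.ker_of_rel _ fun j e he => (h j e he).trans (h1 j e he).symm]
      rfl
    · rw [Casc.ker_of_not _ h,
        Casc.ker_of_not _ fun h' => h fun j e he => (h' j e he).trans (h1 j e he)]
  rw [realU_int fun c => F (realU_up (d + 1) c a), h0,
    ← (msgs J r M).E_const d (avg fun c => F (realU_up (d + 1) c a)) a]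
  refine (msgs J r M).E_congr fun b hb => ?_
  refine congrArg avg (funext fun c => hF _ _ fun j e (he : e.val ≤ d + 1) => ?_)
  by_cases h : e.val = d + 1
  · exact (if_pos h).trans (if_pos h).symm
  · exact (if_neg h).trans ((hb j e (show e.val ≤ d by omega)).symm.trans (if_neg h).symm)

theorem realU_av {F : (J → Ms r M) → ℝ} (hF : (msgs J r M).Meas 0 F) (a : J → Ms r M) :
    (msgs J r M).av F = ∫ u : J → unitInterval, F (realU_up 0 (fun j => fl M (u j)) a) := by
  have h1 : ∀ b, (avg fun c => F (realU_up 0 c b)) = avg fun c => F (realU_up 0 c a) := fun b =>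
    congrArg avg (funext fun c => hF _ _ fun j e (he : e.val ≤ 0) =>
      (if_pos (Nat.le_zero.1 he)).trans (if_pos (Nat.le_zero.1 he)).symm)
  rw [realU_int fun c => F (realU_up 0 c a), ← (msgs J r M).av_const (avg _), Casc.av, Casc.av,
    realU_sw r.zero_le (msgs J r M).μ F fun _ _ => rfl]
  simp only [h1]

/-- resampling the levels `d + 1, ..., d + k` -/
noncomputable def realU_walk : (k : ℕ) → ℕ → (J → Ms r M) → (Fin k → J → unitInterval) → J → Ms r M
  | 0, _, a, _ => a
  | k + 1, d, a, w =>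
    realU_walk k (d + 1) (realU_up (d + 1) (fun j => fl M (w 0 j)) a) (Fin.tail w)

omit [Fintype J] [DecidableEq J] in
theorem realU_walk_le (j : J) (e : Fin (r + 1)) : ∀ (k d : ℕ) (a : J → Ms r M)
    (w : Fin k → J → unitInterval), e.val ≤ d → realU_walk k d a w j e = a j e
  | 0, _, _, _, _ => rfl
  | k + 1, d, _, _, h => (realU_walk_le j e k (d + 1) _ _ (by omega)).trans (if_neg (by omega))

omit [Fintype J] [DecidableEq J] in
theorem realU_walk_eq (j : J) (e : Fin (r + 1)) : ∀ (k d : ℕ) (a : J → Ms r M)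
    (w : Fin k → J → unitInterval) (p : Fin k), e.val = d + p + 1 →
      realU_walk k d a w j e = fl M (w p j)
  | 0, _, _, _, p, _ => p.elim0
  | k + 1, d, a, w, p, h => by
    rcases Fin.eq_zero_or_eq_succ p with rfl | ⟨p, rfl⟩
    · exact (realU_walk_le j e k (d + 1) _ _ h.le).trans (if_pos h)
    · exact realU_walk_eq j e k (d + 1) _ _ p (by rw [h, Fin.val_succ]; omega)

theorem realU_T {m : ℕ → ℝ} (hm : ∀ d, 0 < m (d + 1)) (A : (J → Ms r M) → ℝ) :
    ∀ (k d : ℕ) (n : Fin k → ℝ) (a : J → Ms r M), d + k = r → (∀ p, n p = m (d + p + 1)) →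
      Trec k n (fun w => Real.exp (A (realU_walk k d a w))) =
        Real.exp ((msgs J r M).T m (r + 1) d A a)
  | 0, d, n, a, h, _ => by
    have h1 : (msgs J r M).Top d := top_pi fun _ => top_msg r M h.ge
    rw [(msgs J r M).T_of_meas hm (h1.meas A)]
    rfl
  | k + 1, d, n, a, h, hn => by
    have h1 : n 0 = m (d + 1) := hn 0
    have h2 := (msgs J r M).exp_T hm (show d < r + 1 by omega) A a
    rw [realU_E (by omega) fun x y hr => by
      rw [(msgs J r M).T_meas m (show d + 1 < r + 1 by omega) A x y hr]] at h2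
    have h3 : ∀ u : J → unitInterval, Trec k (Fin.tail n)
        (fun w => Real.exp (A (realU_walk (k + 1) d a (Fin.cons u w)))) ^ m (d + 1) =
        Real.exp (m (d + 1) * (msgs J r M).T m (r + 1) (d + 1) A
          (realU_up (d + 1) (fun j => fl M (u j)) a)) := fun u => by
      rw [mul_comm, Real.exp_mul, ← realU_T hm A k (d + 1) (Fin.tail n) _ (by omega) fun p => by
        rw [Fin.tail, hn, Fin.val_succ]
        congr 1
        omega]
      rfl
    rw [Trec, h1]
    simp only [h3]
    rw [← h2, ← Real.exp_mul, mul_comm, ← mul_assoc, one_div_mul_cancel (hm d).ne', one_mul]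

end

theorem real_up {J : Type} [Fintype J] [DecidableEq J] {r M : ℕ} {m : Fin r → ℝ}
    (hm : ∀ q, 0 < m q) (g : Ms r M → ℝ) {Y : (J → ℝ) → ℝ}
    (hY : ∀ w : J → Ms r M, 0 < Y fun j => g (w j)) :
    TT r m (fun w => g fun d => fl M (w d)) Y = (msgs J r M).av ((msgs J r M).T (mext m) (r + 1) 0
      fun w => Real.log (Y fun j => g (w j))) := by
  have hp : ∀ d, 0 < mext m (d + 1) := fun d => by
    simp only [mext]
    split_ifs
    · exact hm _
    · exact one_pos
  rw [realU_av ((msgs J r M).T_meas _ r.succ_pos _) fun _ _ => 0, TT]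
  refine congrArg _ (funext fun u => ?_)
  rw [← Real.log_exp (Casc.T _ _ _ _ _ _),
    ← realU_T hp _ r 0 m _ (zero_add r) fun p => by simp [mext]]
  refine congrArg _ (congrArg _ (funext fun w => ?_))
  rw [Real.exp_log (hY _)]
  refine congrArg Y (funext fun j => congrArg g (funext fun e => ?_))
  rcases Fin.eq_zero_or_eq_succ e with rfl | ⟨p, rfl⟩
  · exact ((realU_walk_le j 0 r 0 _ w le_rfl).trans (if_pos rfl)).symm
  · exact (realU_walk_eq j p.succ r 0 _ w p (by simp)).symm

end Vale.Agent.P168
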