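import Vale.Agent.P168.Casc3

/-! Averages over shapes and over replicas. -/

namespace Vale.Agent.P168

open Finset

section
variable {m : ℕ → ℝ} {R n : ℕ} {Ψ Ψ' : (ℕ → ℕ × ℕ) → ℝ}

theorem Lv.sum_eq (hm : Lv m R) : ∑ e ∈ range R, (m (e + 1) - m e) = 1 := by
  rw [sum_range_sub, hm.top, hm.zero, sub_zero]

theorem Avg_add (Ψ Ψ' : (ℕ → ℕ × ℕ) → ℝ) :
    Avg m R n (fun z => Ψ z + Ψ' z) = Avg m R n Ψ + Avg m R n Ψ' := by
  induction n generalizing Ψ Ψ' with
  | zero => rfl
  | succ n ih => simp only [Avg, mul_add, sum_add_distrib, ih]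

theorem Avg_sub (Ψ Ψ' : (ℕ → ℕ × ℕ) → ℝ) :
    Avg m R n (fun z => Ψ z - Ψ' z) = Avg m R n Ψ - Avg m R n Ψ' := by
  induction n generalizing Ψ Ψ' with
  | zero => rfl
  | succ n ih => simp only [Avg, mul_sub, sum_sub_distrib, ih]

theorem Avg_const_mul (c : ℝ) (Ψ : (ℕ → ℕ × ℕ) → ℝ) :
    Avg m R n (fun z => c * Ψ z) = c * Avg m R n Ψ := by
  induction n generalizing Ψ with
  | zero => rfl
  | succ n ih => simp only [Avg, mul_left_comm _ c, ← mul_sum, ih]

theorem Avg_sum {ι : Type*} (s : Finset ι) (Ψ : ι → (ℕ → ℕ × ℕ) → ℝ) :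
    Avg m R n (fun z => ∑ i ∈ s, Ψ i z) = ∑ i ∈ s, Avg m R n (Ψ i) := by
  classical
  induction s using Finset.induction_on with
  | empty => simpa using Avg_const_mul (m := m) (R := R) (n := n) 0 fun _ => 0
  | insert i s hi ih => simp only [sum_insert hi, Avg_add, ih]

theorem Avg_avg {ι : Type*} [Fintype ι] (Ψ : ι → (ℕ → ℕ × ℕ) → ℝ) :
    Avg m R n (fun z => avg fun i => Ψ i z) = avg fun i => Avg m R n (Ψ i) := by
  simp only [avg, div_eq_inv_mul, Avg_const_mul, Avg_sum]

theorem Avg_E {Ω : Type} [Fintype Ω] (C : Casc Ω) (d : ℕ) (Ψ : Ω → (ℕ → ℕ × ℕ) → ℝ) (ω : Ω) :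
    Avg m R n (fun z => C.E d (fun x => Ψ x z) ω) = C.E d (fun x => Avg m R n (Ψ x)) ω := by
  simp only [Casc.E, Avg_sum, Avg_const_mul]

theorem Avg_av {Ω : Type} [Fintype Ω] (C : Casc Ω) (Ψ : Ω → (ℕ → ℕ × ℕ) → ℝ) :
    Avg m R n (fun z => C.av fun x => Ψ x z) = C.av fun x => Avg m R n (Ψ x) := by
  simp only [Casc.av, div_eq_inv_mul, Avg_sum, Avg_const_mul]

theorem Avg_const (hm : Lv m R) (c : ℝ) : Avg m R n (fun _ => c) = c := by
  induction n with
  | zero => rfl
  | succ n ih =>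
    have h : ∑ _p ∈ range (n + 1), ∑ e ∈ range R, (m (e + 1) - m e) / (n + 1) * c = c := by
      rw [← sum_mul, ← sum_div, hm.sum_eq, sum_const, card_range, nsmul_eq_mul]
      push_cast
      field_simp
    simp only [Avg, h, ih]

theorem rep_valid {z : ℕ → ℕ × ℕ} (hz : Valid R n z) {p e : ℕ} (hp : p ∈ range (n + 1))
    (he : e ∈ range R) : Valid R (n + 1) (Function.update z n (p, e)) := by
  intro l hl
  rw [mem_range] at hp he
  rcases eq_or_ne l n with rfl | h
  · rw [Function.update_self]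
    exact ⟨by omega, he⟩
  · rw [Function.update_of_ne h]
    exact hz l (by omega)

theorem Avg_mono (hm : Lv m R) (h : ∀ z, Valid R n z → Ψ z ≤ Ψ' z) :
    Avg m R n Ψ ≤ Avg m R n Ψ' := by
  induction n generalizing Ψ Ψ' with
  | zero => exact h _ fun l hl => absurd hl (Nat.not_lt_zero l)
  | succ n ih =>
    refine ih fun z hz => sum_le_sum fun p hp => sum_le_sum fun e he => ?_
    exact mul_le_mul_of_nonneg_left (h _ (rep_valid hz hp he))
      (div_nonneg (sub_nonneg.2 (hm.mono e (mem_range.1 he))) (by positivity))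

theorem Avg_congr (h : ∀ z, Valid R n z → Ψ z = Ψ' z) : Avg m R n Ψ = Avg m R n Ψ' := by
  induction n generalizing Ψ Ψ' with
  | zero => exact h _ fun l hl => absurd hl (Nat.not_lt_zero l)
  | succ n ih =>
    refine ih fun z hz => sum_congr rfl fun p hp => sum_congr rfl fun e he => ?_
    rw [h _ (rep_valid hz hp he)]

theorem abs_Avg_le (hm : Lv m R) (Ψ : (ℕ → ℕ × ℕ) → ℝ) :
    |Avg m R n Ψ| ≤ Avg m R n fun z => |Ψ z| := by
  refine abs_le.2 ⟨?_, Avg_mono hm fun z _ => le_abs_self _⟩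
  have h := Avg_mono (n := n) (Ψ := fun z => -1 * |Ψ z|) (Ψ' := Ψ) hm fun z _ => by
    rw [neg_one_mul]
    exact neg_abs_le _
  rwa [Avg_const_mul, neg_one_mul] at h

/-- resampling the depth of one replica -/
theorem Avg_coord (hm : Lv m R) {q : ℕ} (hq : q < n) (Ψ : (ℕ → ℕ × ℕ) → ℝ) :
    Avg m R n Ψ = Avg m R n fun z =>
      ∑ e ∈ range R, (m (e + 1) - m e) * Ψ (Function.update z q ((z q).1, e)) := by
  induction n generalizing Ψ with
  | zero => exact absurd hq (Nat.not_lt_zero q)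
  | succ n ih =>
    rcases eq_or_ne q n with rfl | h
    · simp only [Avg, Function.update_self, Function.update_idem]
      congr 1
      funext z
      refine sum_congr rfl fun p _ => ?_
      rw [← sum_mul, ← sum_div, hm.sum_eq, mul_sum]
      exact sum_congr rfl fun e _ => by ring
    · simp only [Avg]
      rw [ih (by omega)]
      congr 1
      funext z
      simp only [Function.update_of_ne h, mul_sum]
      rw [sum_comm]
      refine sum_congr rfl fun p _ => ?_
      rw [sum_comm]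
      refine sum_congr rfl fun e _ => sum_congr rfl fun e' _ => ?_
      rw [Function.update_comm h, mul_left_comm]

end

theorem dep_ext {d₀ l : ℕ} {z z' : ℕ → ℕ × ℕ} (h : ∀ k < l, z k = z' k) :
    dep d₀ z l = dep d₀ z' l := by
  induction l using Nat.strong_induction_on with
  | _ l ih =>
    cases l with
    | zero => rw [dep, dep]
    | succ l =>
      rw [dep, dep, ← h l (Nat.lt_succ_self l), ih _ (by omega) fun k hk => h k (by omega)]

theorem le_dep (d₀ : ℕ) (z : ℕ → ℕ × ℕ) (l : ℕ) : d₀ ≤ dep d₀ z l := by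
  induction l using Nat.strong_induction_on with
  | _ l ih =>
    cases l with
    | zero => rw [dep]
    | succ l =>
      rw [dep]
      exact (ih _ (by omega)).trans (le_max_right _ _)

namespace Casc

variable {Ω : Type} [Fintype Ω] (C : Casc Ω) (d₀ : ℕ) (z : ℕ → ℕ × ℕ) (n : ℕ)

theorem ES_ext {z z' : ℕ → ℕ × ℕ} {n : ℕ} (h : ∀ k < n, z k = z' k) :
    C.ES d₀ z n = C.ES d₀ z' n := by
  induction n with
  | zero => rfl
  | succ n ih =>
    funext F
    rw [ES, ES, ih fun k hk => h k (by omega), dep_ext h, h n (Nat.lt_succ_self n)]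

theorem ES_add (F G : (ℕ → Ω) → ℝ) (ω : Ω) :
    C.ES d₀ z n (fun w => F w + G w) ω = C.ES d₀ z n F ω + C.ES d₀ z n G ω := by
  induction n generalizing F G with
  | zero => exact C.E_add _ _ _ _
  | succ n ih => simp only [ES, E_add, ih]

theorem ES_sub (F G : (ℕ → Ω) → ℝ) (ω : Ω) :
    C.ES d₀ z n (fun w => F w - G w) ω = C.ES d₀ z n F ω - C.ES d₀ z n G ω := by
  induction n generalizing F G with
  | zero => exact C.E_sub _ _ _ _
  | succ n ih => simp only [ES, E_sub, ih]

theorem ES_const_mul (c : ℝ) (F : (ℕ → Ω) → ℝ) (ω : Ω) :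
    C.ES d₀ z n (fun w => c * F w) ω = c * C.ES d₀ z n F ω := by
  induction n generalizing F with
  | zero => exact C.E_const_mul _ _ _ _
  | succ n ih => simp only [ES, E_const_mul, ih]

theorem ES_sum {ι : Type*} (s : Finset ι) (F : ι → (ℕ → Ω) → ℝ) (ω : Ω) :
    C.ES d₀ z n (fun w => ∑ i ∈ s, F i w) ω = ∑ i ∈ s, C.ES d₀ z n (F i) ω := by
  induction n generalizing F with
  | zero => exact C.E_sum _ _ _ _
  | succ n ih => simp only [ES, E_sum, ih]

theorem ES_avg {ι : Type*} [Fintype ι] (F : ι → (ℕ → Ω) → ℝ) (ω : Ω) :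
    C.ES d₀ z n (fun w => avg fun i => F i w) ω = avg fun i => C.ES d₀ z n (F i) ω := by
  simp only [avg, div_eq_inv_mul, ES_const_mul, ES_sum]

theorem ES_const (c : ℝ) (ω : Ω) : C.ES d₀ z n (fun _ => c) ω = c := by
  induction n with
  | zero => exact C.E_const _ _ _
  | succ n ih => simp only [ES, E_const, ih]

theorem ES_mono {F G : (ℕ → Ω) → ℝ} (h : ∀ w, F w ≤ G w) (ω : Ω) :
    C.ES d₀ z n F ω ≤ C.ES d₀ z n G ω := by
  induction n generalizing F G with
  | zero => exact C.E_mono (fun _ => h _) ω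
  | succ n ih => exact ih fun w => C.E_mono (fun _ => h _) _

theorem abs_ES_le (F : (ℕ → Ω) → ℝ) (ω : Ω) :
    |C.ES d₀ z n F ω| ≤ C.ES d₀ z n (fun w => |F w|) ω := by
  refine abs_le.2 ⟨?_, C.ES_mono d₀ z n (fun w => le_abs_self _) ω⟩
  have h := C.ES_mono d₀ z n (F := fun w => -1 * |F w|) (G := F) (fun w => by
    rw [neg_one_mul]
    exact neg_abs_le _) ω
  rwa [ES_const_mul, neg_one_mul] at h

theorem abs_ES_le_of {F : (ℕ → Ω) → ℝ} {c : ℝ} (h : ∀ w, |F w| ≤ c) (ω : Ω) :
    |C.ES d₀ z n F ω| ≤ c :=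
  (C.abs_ES_le d₀ z n F ω).trans ((C.ES_mono d₀ z n h ω).trans_eq (C.ES_const d₀ z n c ω))

end Casc

section
variable {Ω Ω' : Type} [Fintype Ω] [Fintype Ω'] (d₀ : ℕ) (z : ℕ → ℕ × ℕ) (n : ℕ)

theorem ES_prod (C : Casc Ω) (D : Casc Ω') (F : (ℕ → Ω) → ℝ) (G : (ℕ → Ω') → ℝ) (ω : Ω × Ω') :
    (C.prod D).ES d₀ z n (fun w => F (fun l => (w l).1) * G fun l => (w l).2) ω =
      C.ES d₀ z n F ω.1 * D.ES d₀ z n G ω.2 := by
  induction n generalizing F G with
  | zero => simp only [Casc.ES, E_prod, Casc.E_const_mul, Casc.E_mul_const]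
  | succ n ih =>
    rw [Casc.ES, Casc.ES, Casc.ES, ← ih]
    congr 1
    funext w
    have h1 : ∀ x : Ω × Ω', (fun l => (Function.update w (n + 1) x l).1) =
        Function.update (fun l => (w l).1) (n + 1) x.1 := fun x =>
      funext fun l => Function.apply_update (fun _ => Prod.fst) w (n + 1) x l
    have h2 : ∀ x : Ω × Ω', (fun l => (Function.update w (n + 1) x l).2) =
        Function.update (fun l => (w l).2) (n + 1) x.2 := fun x =>
      funext fun l => Function.apply_update (fun _ => Prod.snd) w (n + 1) x l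
    simp only [h1, h2, E_prod, Casc.E_const_mul, Casc.E_mul_const]

theorem ES_pi {J : Type} [Fintype J] [DecidableEq J] (C : J → Casc Ω) (F : J → (ℕ → Ω) → ℝ)
    (ω : J → Ω) : (Casc.pi C).ES d₀ z n (fun w => ∏ j, F j fun l => w l j) ω =
      ∏ j, (C j).ES d₀ z n (F j) (ω j) := by
  induction n generalizing F with
  | zero => exact E_pi_prod C d₀ (fun j x => F j fun _ => x) ω
  | succ n ih =>
    simp only [Casc.ES]
    rw [← ih]
    congr 1
    funext w
    have h1 : ∀ (x : J → Ω) j, (fun l => Function.update w (n + 1) x l j) =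
        Function.update (fun l => w l j) (n + 1) (x j) := fun x j =>
      funext fun l => Function.apply_update (fun _ y => y j) w (n + 1) x l
    simp only [h1]
    exact E_pi_prod C _ (fun j x => F j (Function.update (fun l => w l j) (n + 1) x)) _

end

end Vale.Agent.P168
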