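import Vale.Agent.P168.Link
import Vale.Agent.P168.Pin

/-! Pinning for the perturbed system. -/

namespace Vale.Agent.P168

open Finset

theorem sp_pull {Ω : Type} [Fintype Ω] (P : Casc Ω) {m : ℕ → ℝ} (hm : ∀ d, 0 < m (d + 1)) {R j : ℕ}
    (hj : j < R) (hP : P.Top R) (B A : Ω → ℝ) {G : Ω → ℝ} (hG : P.Meas (j + 1) G) (ω : Ω) :
    (P.tilt m R B).E j (fun x => G x * Real.exp (m (j + 1) * (P.tilt m R B).T m R (j + 1) A x)) ω =
      Real.exp (-(m (j + 1) * P.T m R j B ω)) * P.E j (fun x => G x *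
        Real.exp (m (j + 1) * P.T m R (j + 1) (fun y => B y + A y) x)) ω := by
  have h1 := (P.tilt m R B).T_meas' m (R := R) (d := j + 1) hj ((hP.tilt B).meas A)
  rw [P.E_tilt_succ hm hj (hP.meas B) (fun a b h => by rw [hG a b h, h1 a b h]),
    ← P.E_meas_mul (φ := fun x => Real.exp (-(m (j + 1) * P.T m R j B x)))
      (fun a b h => by beta_reduce; rw [P.T_meas m hj B a b h])]
  refine congrArg (fun f => P.E j f ω) (funext fun x => ?_)
  rw [P.T_add hm (hP.meas B) (hP.meas A), mul_sub, mul_add, Real.exp_add, sub_eq_add_neg,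
    Real.exp_add]
  ring

theorem sp_sym {Ω : Type} [Fintype Ω] (P : Casc Ω) {m : ℕ → ℝ} (hm : ∀ d, 0 < m (d + 1)) {R j : ℕ}
    (hj : j < R) (hP : P.Top R) (B A : Ω → ℝ) (σ : Ω ≃ Ω) (hμ : ∀ x, P.μ x = P.μ (σ x))
    (hr : ∀ d a b, P.rel d a b ↔ P.rel d (σ a) (σ b))
    (hA : ∀ x, B (σ x) + A (σ x) = B x + A x) {G : Ω → ℝ} (hG : P.Meas (j + 1) G) {ω : Ω}
    (hω : P.rel j ω (σ ω)) :
    (P.tilt m R B).E j (fun x => G x * Real.exp (m (j + 1) * (P.tilt m R B).T m R (j + 1) A x)) ω =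
    (P.tilt m R B).E j
      (fun x => G (σ x) * Real.exp (m (j + 1) * (P.tilt m R B).T m R (j + 1) A x)) ω := by
  have hF : Fac P P σ := fac_equiv σ one_pos (fun x => by rw [one_mul, ← hμ]) hr
  rw [sp_pull P hm hj hP B A hG, sp_pull P hm hj hP B A (G := fun x => G (σ x))
    (fun a b h => hG _ _ ((hr _ a b).1 h)), P.E_meas j _ _ _ hω, ← hF.E]
  refine congrArg (fun f => _ * P.E j f ω) (funext fun x => ?_)
  rw [← hF.T]
  simp only [hA]

theorem sp_prod {J X M : Type} [Fintype J] [DecidableEq J] [CommMonoid M] (g : J → X → M)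
    (w : J → X) (c : J) (a : X) :
    (∏ i, g i (Function.update w c a i)) * g c (w c) = (∏ i, g i (w i)) * g c a := by
  rw [Fintype.prod_eq_mul_prod_compl c, Fintype.prod_eq_mul_prod_compl c fun i => g i (w i),
    Function.update_self, prod_congr rfl fun i hi => by
      rw [Function.update_of_ne (by simpa using hi)]]
  ac_rfl

theorem sp_sum {J X : Type} [Fintype J] [DecidableEq J] (g : J → X → ℝ) (w : J → X) (c : J)
    (a : X) : (∑ i, g i (Function.update w c a i)) + g c (w c) = (∑ i, g i (w i)) + g c a :=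
  sp_prod (M := Multiplicative ℝ) g w c a

theorem sp_forall {J X : Type} [DecidableEq J] (r : J → X → X → Prop) (a b : J → X) (c : J)
    (u u' : X) : ((∀ i, r i (a i) (b i)) ∧ r c u u') ↔
      (∀ i, r i (Function.update a c u i) (Function.update b c u' i)) ∧ r c (a c) (b c) := by
  refine ⟨fun h => ⟨fun i => ?_, h.1 c⟩, fun h => ⟨fun i => ?_, ?_⟩⟩
  · by_cases hi : i = c
    · rw [hi, Function.update_self, Function.update_self]
      exact h.2
    · rw [Function.update_of_ne hi, Function.update_of_ne hi]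
      exact h.1 i
  · by_cases hi : i = c
    · rw [hi]
      exact h.2
    · have h1 := h.1 i
      rwa [Function.update_of_ne hi, Function.update_of_ne hi] at h1
  · have h1 := h.1 c
    rwa [Function.update_self, Function.update_self] at h1

/-- exchange of a coordinate of the system with the second test field -/
def spSwap {S J X : Type} [DecidableEq J] (c : J) : (S × (J → X)) × X × X ≃ (S × (J → X)) × X × X :=
  Function.Involutive.toPerm
    (fun x => ((x.1.1, Function.update x.1.2 c x.2.2), x.2.1, x.1.2 c)) fun x => by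
      simp only [Function.update_idem, Function.update_eq_self, Function.update_self]

theorem sp_avg {Ξ Ω : Type} [Fintype Ξ] [Fintype Ω] (o : Ξ) (C : Casc Ω) (j : ℕ) (ω : Ω)
    {Γ F F' : Ξ → Ξ → Ω → ℝ}
    (h : (avg fun x => avg fun x' => C.E j (fun y => F x x' y * Γ x x' y) ω) =
      avg fun x => avg fun x' => C.E j (fun y => F' x x' y * Γ x x' y) ω) :
    ∑ x, ∑ x', ∑ y, C.ker j ω y * Γ x x' y * F x x' y =
      ∑ x, ∑ x', ∑ y, C.ker j ω y * Γ x x' y * F' x x' y := by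
  have h0 : (Fintype.card Ξ : ℝ) ≠ 0 := Nat.cast_ne_zero.2 (Fintype.card_pos_iff.2 ⟨o⟩).ne'
  simp only [avg, ← sum_div, div_left_inj' h0, Casc.E] at h
  simpa only [mul_assoc, mul_comm (Γ _ _ _)] using h

section
variable {L Sg I : Type} [Fintype L] [DecidableEq L] [Fintype Sg] [Fintype I] {R t : ℕ} {θ : ℝ}

theorem sp_main (h0 : 0 ≤ θ) (h1 : θ * Fintype.card L ≤ 1 / 2) (ev : Sg → I → Bool) (H : Sg → ℝ)
    {j : ℕ} (hj : j < R) (o : I × Sp L R) (ω : Om Sg I L R t)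
    (σ : Om Sg I L R t × Fl I L R × Fl I L R ≃ Om Sg I L R t × Fl I L R × Fl I L R)
    (hμ : ∀ x, ((sys Sg I L R t).prod ((fld I L R j).prod (fld I L R j))).μ x =
      ((sys Sg I L R t).prod ((fld I L R j).prod (fld I L R j))).μ (σ x))
    (hr : ∀ d a b, ((sys Sg I L R t).prod ((fld I L R j).prod (fld I L R j))).rel d a b ↔
      ((sys Sg I L R t).prod ((fld I L R j).prod (fld I L R j))).rel d (σ a) (σ b))
    (hA : ∀ x, hamS θ ev H (σ x).1 + (Real.log (Wf θ j (ev (σ x).1.1) (σ x).2.1) +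
        Real.log (Wf θ j (ev (σ x).1.1) (σ x).2.2)) =
      hamS θ ev H x.1 + (Real.log (Wf θ j (ev x.1.1) x.2.1) + Real.log (Wf θ j (ev x.1.1) x.2.2)))
    (hω : ∀ x, (sys Sg I L R t).rel j x.1 (σ x).1)
    (F F' : I × Sp L R → I × Sp L R → (Fin t → I × Sp L R) → ℝ)
    (hF : ∀ x, F (σ x).2.1.1 (σ x).2.2.1 (fun s => ((σ x).1.2 (⟨j, hj⟩, s)).1) =
      F' x.2.1.1 x.2.2.1 fun s => (x.1.2 (⟨j, hj⟩, s)).1) :
    ∑ x, ∑ x', ∑ y, (tsys L R t θ ev H).ker j ω y * Gam2 θ ev H (j + 1) x x' y *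
        F x x' (fun s => (y.2 (⟨j, hj⟩, s)).1) =
      ∑ x, ∑ x', ∑ y, (tsys L R t θ ev H).ker j ω y * Gam2 θ ev H (j + 1) x x' y *
        F' x x' (fun s => (y.2 (⟨j, hj⟩, s)).1) := by
  refine sp_avg o _ j ω ?_
  have e1 := link (tsys L R t θ ev H) (fun x => ev x.1) h0 h1 hj
    (fun x x' y => F x x' fun s => (y.2 (⟨j, hj⟩, s)).1)
    (ω, (o, fun _ _ => true), (o, fun _ _ => true))
  have e2 := link (tsys L R t θ ev H) (fun x => ev x.1) h0 h1 hj
    (fun x x' y => F' x x' fun s => (y.2 (⟨j, hj⟩, s)).1)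
    (ω, (o, fun _ _ => true), (o, fun _ _ => true))
  refine e1.symm.trans (Eq.trans ?_ e2)
  rw [tsys, ← tilt_prod]
  refine (@sp_sym _ (_) _ _ (lv_mm (R := R) (by omega)).pos _ _ hj
    (top_prod top_sys (top_prod (top_fld hj) (top_fld hj))) _ _ σ hμ hr hA _ (fun a b h => ?_) _
    ⟨hω _, fld_rel le_rfl _ _, fld_rel le_rfl _ _⟩).trans ?_
  · have k1 : a.2.1.1 = b.2.1.1 := h.2.1.1 le_rfl
    have k2 : a.2.2.1 = b.2.2.1 := h.2.2.1 le_rfl
    have k3 : (fun s => (a.1.2 (⟨j, hj⟩, s)).1) = fun s => (b.1.2 (⟨j, hj⟩, s)).1 :=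
      funext fun s => (h.1.2 (⟨j, hj⟩, s)).1 le_rfl
    rw [k1, k2, k3]
  · simp only [hF]

end

theorem sysPin (L : Type) [Fintype L] [DecidableEq L] (c : ℝ) {ε : ℝ} (hε : 0 < ε) :
    ∃ t : ℕ, ∀ (R : ℕ) (θ : ℝ), 0 ≤ θ → θ * Fintype.card L ≤ 1 / 2 →
      ∀ (Sg I : Type) [Fintype Sg] [Fintype I] (ev : Sg → I → Bool) (H : Sg → ℝ) (j : ℕ)
        (v : I × Sp L R → ℝ) (o : I × Sp L R) (ω : Om Sg I L R t), j < R → (∀ x, |v x| ≤ c) →
        o.2.2.2 = ∅ →
        (avg fun x => v x * G2 θ ev H j x o ω) ^ 2 - ε ≤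
            (avg fun x => avg fun x' => v x * v x' * G2 θ ev H j x x' ω) ∧
          (avg fun x => avg fun x' => v x * v x' * G2 θ ev H j x x' ω) ≤
            (tsys L R t θ ev H).E j
              (fun y => (avg fun x => v x * Gam2 θ ev H (j + 1) x o y) ^ 2) ω + ε := by
  classical
  obtain ⟨t, ht⟩ := pin (p₀ := (1 / 2) ^ Fintype.card L) (by positivity) c hε
  refine ⟨t, fun R θ h0 h1 Sg I _ _ ev H j v o ω hj hv ho => ?_⟩
  have hG : ∀ x x', G2 θ ev H j x x' ω =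
      ∑ y, (tsys L R t θ ev H).ker j ω y * Gam2 θ ev H (j + 1) x x' y := fun x x' =>
    congrFun ((tsys L R t θ ev H).GG_lt hj _) ω
  have hmem : ∀ x : I × Sp L R, x ∈ (univ ×ˢ univ ×ˢ univ ×ˢ {∅} : Finset (I × Sp L R)) ↔
      x.2.2.2 = ∅ := fun x => by
    simp only [mem_product, mem_univ, true_and, mem_singleton]
  simp only [hG]
  refine ht t le_rfl (Om Sg I L R t) (I × Sp L R) ((tsys L R t θ ev H).ker j ω)
    (fun y s => (y.2 (⟨j, hj⟩, s)).1) (Gam2 θ ev H (j + 1)) (univ ×ˢ univ ×ˢ univ ×ˢ {∅}) o v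
    ⟨Casc.ker_nonneg _ _ _, Casc.ker_sum _ _ _⟩ ((hmem o).2 ho) (le_of_eq ?_) hv
    (fun x x' y => Gm_mem (tsys L R t θ ev H) (fun x => ev x.1) (by omega) h0 h1 hj x x' y)
    (fun x o' ho' y => Gm_triv (tsys L R t θ ev H) (fun x => ev x.1) hj x ho ((hmem _).1 ho') y)
    (fun o' ho' y => Gm_one (tsys L R t θ ev H) (fun x => ev x.1) hj ho ((hmem _).1 ho') y)
    (fun F => ?_) fun s F => ?_
  · simp only [card_product, card_univ, card_singleton, Fintype.card_prod,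
      Fintype.card_finset (α := L), Nat.cast_mul, Nat.cast_pow, Nat.cast_ofNat, Nat.cast_one]
    rw [one_div, inv_pow]
    field_simp
  · refine sp_main h0 h1 ev H hj o ω ((Equiv.refl _).prodCongr (Equiv.prodComm _ _))
      (fun x => congrArg (_ * ·) (mul_comm _ _)) (fun d a b => and_congr_right' and_comm)
      (fun x => congrArg (_ + ·) (add_comm _ _)) (fun x => Setoid.refl' _ _) F
      (fun x x' y => F x' x y) fun x => rfl
  · refine sp_main h0 h1 ev H hj o ω (spSwap (⟨j, hj⟩, s)) (fun x => ?_) (fun d a b => ?_)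
      (fun x => ?_) (fun x => ⟨Setoid.refl' _ _, fun i => ?_⟩) F
      (fun x x' y => F x (y s) (Function.update y s x')) fun x => ?_
    · have e := sp_prod (fun (i : Fin R × Fin t) a => (fld I L R i.1).μ a) x.1.2 (⟨j, hj⟩, s) x.2.2
      change 1 * (∏ i : Fin R × Fin t, (fld I L R i.1).μ (x.1.2 i)) *
          ((fld I L R j).μ x.2.1 * (fld I L R j).μ x.2.2) =
        1 * (∏ i : Fin R × Fin t, (fld I L R i.1).μ (Function.update x.1.2 (⟨j, hj⟩, s) x.2.2 i)) *
          ((fld I L R j).μ x.2.1 * (fld I L R j).μ (x.1.2 (⟨j, hj⟩, s)))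
      linear_combination -(fld I L R j).μ x.2.1 * e
    · have e := sp_forall (fun (i : Fin R × Fin t) u u' => (fld I L R i.1).rel d u u') a.1.2 b.1.2
        (⟨j, hj⟩, s) a.2.2 b.2.2
      exact ⟨fun h => ⟨⟨h.1.1, (e.1 ⟨h.1.2, h.2.2⟩).1⟩, h.2.1, (e.1 ⟨h.1.2, h.2.2⟩).2⟩,
        fun h => ⟨⟨h.1.1, (e.2 ⟨h.1.2, h.2.2⟩).1⟩, h.2.1, (e.2 ⟨h.1.2, h.2.2⟩).2⟩⟩
    · have e := sp_sum (fun (i : Fin R × Fin t) a => Real.log (Wf θ i.1 (ev x.1.1) a)) x.1.2
        (⟨j, hj⟩, s) x.2.2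
      change H x.1.1 + (∑ i : Fin R × Fin t,
          Real.log (Wf θ i.1 (ev x.1.1) (Function.update x.1.2 (⟨j, hj⟩, s) x.2.2 i))) +
          (Real.log (Wf θ j (ev x.1.1) x.2.1) +
            Real.log (Wf θ j (ev x.1.1) (x.1.2 (⟨j, hj⟩, s)))) =
        H x.1.1 + (∑ i : Fin R × Fin t, Real.log (Wf θ i.1 (ev x.1.1) (x.1.2 i))) + _
      linear_combination e
    · change (fld I L R i.1).rel j (x.1.2 i) (Function.update x.1.2 (⟨j, hj⟩, s) x.2.2 i)
      by_cases hi : i = (⟨j, hj⟩, s)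
      · exact fld_rel (by rw [hi]) _ _
      · rw [Function.update_of_ne hi]
    · refine congrArg (F _ _) (funext fun s' => ?_)
      change (Function.update x.1.2 (⟨j, hj⟩, s) x.2.2 (⟨j, hj⟩, s')).1 = _
      by_cases hs : s' = s
      · rw [hs, Function.update_self, Function.update_self]
      · rw [Function.update_of_ne hs, Function.update_of_ne fun h => hs (congrArg Prod.snd h)]

end Vale.Agent.P168
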