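import Vale.Agent.P168.Rep

/-! Replica expansion of `T log (1 + u)`. -/

namespace Vale.Agent.P168

open Finset

namespace TaylorAux

variable {Ω : Type} [Fintype Ω] (C : Casc Ω) {m : ℕ → ℝ} {R : ℕ}

theorem hd_E (d : ℕ) {G : ℝ → Ω → ℝ} {G' : Ω → ℝ} {t₀ : ℝ}
    (h : ∀ x, HasDerivAt (fun t => G t x) (G' x) t₀) (ω : Ω) :
    HasDerivAt (fun t => C.E d (G t) ω) (C.E d G' ω) t₀ := by
  unfold Casc.E
  exact HasDerivAt.fun_sum fun x _ => (h x).const_mul _

theorem hd_T (hm : Lv m R) (hC : C.Top R) {A : ℝ → Ω → ℝ} {v : Ω → ℝ} {t₀ : ℝ}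
    (hA : ∀ x, HasDerivAt (fun t => A t x) (v x) t₀) :
    ∀ d ≤ R, ∀ ω, HasDerivAt (fun t => C.T m R d (A t) ω)
      ((C.tilt m R (A t₀)).E d v ω) t₀ := by
  refine down_ind (fun ω => ?_) fun d hd ih ω => ?_
  · simp only [Casc.T_top]
    rw [(C.tilt m R (A t₀)).E_of_meas ((hC.tilt (A t₀)).meas v)]
    exact hA ω
  · have hp := hm.pos d
    have h1 : ∀ x, HasDerivAt (fun t => Real.exp (m (d + 1) * C.T m R (d + 1) (A t) x))
        (Real.exp (m (d + 1) * C.T m R (d + 1) (A t₀) x) *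
          (m (d + 1) * (C.tilt m R (A t₀)).E (d + 1) v x)) t₀ := fun x =>
      ((ih x).const_mul _).exp
    have h2 := hd_E C d h1 ω
    have h3 := (h2.log (C.E_pos (fun _ => Real.exp_pos _) ω).ne').const_mul (m (d + 1))⁻¹
    have e1 : (fun t => C.T m R d (A t) ω) = fun t => (m (d + 1))⁻¹ * Real.log
        (C.E d (fun x => Real.exp (m (d + 1) * C.T m R (d + 1) (A t) x)) ω) :=
      funext fun t => C.T_lt m hd _ _
    rw [e1]
    refine h3.congr_deriv ?_
    rw [← C.exp_T hm.pos hd, ← (C.tilt m R (A t₀)).E_E (Nat.le_succ d) v,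
      C.E_tilt_succ hm.pos hd (hC.meas _) ((C.tilt m R (A t₀)).E_meas (d + 1) v)]
    have e2 : C.E d (fun x => Real.exp (m (d + 1) * (C.T m R (d + 1) (A t₀) x -
          C.T m R d (A t₀) x)) * (C.tilt m R (A t₀)).E (d + 1) v x) ω =
        C.E d (fun x => ((m (d + 1))⁻¹ * (Real.exp (m (d + 1) * C.T m R d (A t₀) ω))⁻¹) *
          (Real.exp (m (d + 1) * C.T m R (d + 1) (A t₀) x) *
          (m (d + 1) * (C.tilt m R (A t₀)).E (d + 1) v x))) ω := by
      refine C.E_congr fun x hx => ?_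
      rw [← C.T_meas m hd (A t₀) ω x hx, mul_sub, Real.exp_sub]
      field_simp
    rw [e2, C.E_const_mul]
    ring

/-- the logarithmic derivative of the density -/
noncomputable def lam (D : Casc Ω) (m : ℕ → ℝ) (R : ℕ) (v : Ω → ℝ) (d : ℕ) (b : Ω) : ℝ :=
  v b - ∑ e ∈ range R, (m (e + 1) - m e) * D.E (max e d) v b

theorem abel (hm : Lv m R) (x : ℕ → ℝ) {d : ℕ} (hd : d < R) :
    ∑ e ∈ range R, (m (e + 1) - m e) * x (max e (d + 1)) =
      ∑ e ∈ range R, (m (e + 1) - m e) * x (max e d) + m (d + 1) * (x (d + 1) - x d) := by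
  rw [← sum_range_add_sum_Ico _ (Nat.succ_le_of_lt hd),
    ← sum_range_add_sum_Ico _ (Nat.succ_le_of_lt hd)]
  have h1 : ∀ k, ∑ e ∈ range (d + 1), (m (e + 1) - m e) * x k = m (d + 1) * x k := fun k => by
    rw [← sum_mul, sum_range_sub, hm.zero, sub_zero]
  have h2 : ∑ e ∈ range (d + 1), (m (e + 1) - m e) * x (max e (d + 1)) = m (d + 1) * x (d + 1) := by
    rw [← h1]
    exact sum_congr rfl fun e he => by rw [max_eq_right (mem_range.1 he).le]
  have h3 : ∑ e ∈ range (d + 1), (m (e + 1) - m e) * x (max e d) = m (d + 1) * x d := by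
    rw [← h1]
    exact sum_congr rfl fun e he => by rw [max_eq_right (Nat.le_of_lt_succ (mem_range.1 he))]
  have h4 : ∑ e ∈ Ico (d + 1) R, (m (e + 1) - m e) * x (max e (d + 1)) =
      ∑ e ∈ Ico (d + 1) R, (m (e + 1) - m e) * x (max e d) :=
    sum_congr rfl fun e he => by
      rw [max_eq_left (mem_Ico.1 he).1, max_eq_left (Nat.le_of_succ_le (mem_Ico.1 he).1)]
  simp only [Nat.succ_eq_add_one]
  rw [h2, h3, h4]
  ring

theorem hd_rho (hm : Lv m R) (hC : C.Top R) {A : ℝ → Ω → ℝ} {v : Ω → ℝ} {t₀ : ℝ}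
    (hA : ∀ x, HasDerivAt (fun t => A t x) (v x) t₀) (b : Ω) :
    ∀ d ≤ R, HasDerivAt (fun t => C.rho m R d (A t) b)
      (C.rho m R d (A t₀) b * lam (C.tilt m R (A t₀)) m R v d b) t₀ := by
  refine down_ind ?_ fun d hd ih => ?_
  · simp only [C.rho_ge le_rfl]
    have e : lam (C.tilt m R (A t₀)) m R v R b = 0 := by
      unfold lam
      have : ∑ e ∈ range R, (m (e + 1) - m e) * (C.tilt m R (A t₀)).E (max e R) v b =
          ∑ e ∈ range R, (m (e + 1) - m e) * v b := sum_congr rfl fun e he => by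
        rw [max_eq_right (mem_range.1 he).le,
          (C.tilt m R (A t₀)).E_of_meas ((hC.tilt (A t₀)).meas v)]
      rw [this, ← sum_mul, hm.sum_eq, one_mul, sub_self]
    rw [e, mul_zero]
    exact hasDerivAt_const _ _
  · simp only [C.rho_succ hd]
    have h1 := (((hd_T C hm hC hA (d + 1) hd b).fun_sub (hd_T C hm hC hA d hd.le b)).const_mul
      (m (d + 1))).exp.fun_mul ih
    refine h1.congr_deriv ?_
    unfold lam
    rw [abel hm (fun k => (C.tilt m R (A t₀)).E k v b) hd]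
    ring

theorem hd_Et (hm : Lv m R) (hC : C.Top R) {A : ℝ → Ω → ℝ} {v : Ω → ℝ} {t₀ : ℝ}
    (hA : ∀ x, HasDerivAt (fun t => A t x) (v x) t₀) {d : ℕ} (hd : d ≤ R)
    {F : ℝ → Ω → ℝ} {F' : Ω → ℝ} (hF : ∀ x, HasDerivAt (fun t => F t x) (F' x) t₀) (ω : Ω) :
    HasDerivAt (fun t => (C.tilt m R (A t)).E d (F t) ω)
      ((C.tilt m R (A t₀)).E d
        (fun x => F' x + F t₀ x * lam (C.tilt m R (A t₀)) m R v d x) ω) t₀ := by
  simp only [C.E_tilt hm.pos (hC.meas _)]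
  refine hd_E C d (fun x => ?_) ω
  refine ((hd_rho C hm hC hA x d hd).fun_mul (hF x)).congr_deriv ?_
  ring

theorem hd_ES (hm : Lv m R) (hC : C.Top R) {A : ℝ → Ω → ℝ} {v : Ω → ℝ} {t₀ : ℝ}
    (hA : ∀ x, HasDerivAt (fun t => A t x) (v x) t₀) (d₀ : ℕ) (z : ℕ → ℕ × ℕ) (ω : Ω) (n : ℕ) :
    (∀ l ≤ n, dep d₀ z l ≤ R) → ∀ (F : ℝ → (ℕ → Ω) → ℝ) (F' : (ℕ → Ω) → ℝ),
      (∀ w, HasDerivAt (fun t => F t w) (F' w) t₀) →
      HasDerivAt (fun t => (C.tilt m R (A t)).ES d₀ z n (F t) ω)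
        ((C.tilt m R (A t₀)).ES d₀ z n (fun w => F' w + F t₀ w *
          ∑ l ∈ range (n + 1), lam (C.tilt m R (A t₀)) m R v (dep d₀ z l) (w l)) ω) t₀ := by
  induction n with
  | zero =>
    intro hz F F' hF
    have h0 : d₀ ≤ R := by simpa [dep] using hz 0 le_rfl
    simp only [Casc.ES, zero_add, range_one, sum_singleton, dep]
    exact hd_Et C hm hC hA h0 (fun x => hF fun _ => x) ω
  | succ n ih =>
    intro hz F F' hF
    simp only [Casc.ES]
    have h1 := ih (fun l hl => hz l (Nat.le_succ_of_le hl))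
      (fun t w => (C.tilt m R (A t)).E (dep d₀ z (n + 1))
        (fun ω' => F t (Function.update w (n + 1) ω')) (w (min (z n).1 n))) _
      fun w => hd_Et C hm hC hA (hz (n + 1) le_rfl)
        (fun x => hF (Function.update w (n + 1) x)) (w (min (z n).1 n))
    refine h1.congr_deriv ?_
    congr 1
    funext w
    rw [← Casc.E_mul_const, ← Casc.E_add]
    congr 1
    funext x
    rw [sum_range_succ _ (n + 1), Function.update_self]
    have : ∑ l ∈ range (n + 1), lam (C.tilt m R (A t₀)) m R v (dep d₀ z l)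
        (Function.update w (n + 1) x l) =
        ∑ l ∈ range (n + 1), lam (C.tilt m R (A t₀)) m R v (dep d₀ z l) (w l) :=
      sum_congr rfl fun l hl => by rw [Function.update_of_ne (mem_range.1 hl).ne]
    rw [this]
    ring

theorem valid_update {n : ℕ} {z : ℕ → ℕ × ℕ} (hz : Valid R n z) {p e : ℕ} (hp : p < n + 1)
    (he : e < R) : Valid R (n + 1) (Function.update z n (p, e)) := by
  intro l hl
  rcases (Nat.le_of_lt_succ hl).eq_or_lt with rfl | h
  · rw [Function.update_self]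
    exact ⟨Nat.le_of_lt_succ hp, he⟩
  · rw [Function.update_of_ne h.ne]
    exact hz l h

theorem hd_Avg (m : ℕ → ℝ) (R : ℕ) {t₀ : ℝ} (n : ℕ) :
    ∀ (Ψ : ℝ → (ℕ → ℕ × ℕ) → ℝ) (Ψ' : (ℕ → ℕ × ℕ) → ℝ),
      (∀ z, Valid R n z → HasDerivAt (fun t => Ψ t z) (Ψ' z) t₀) →
      HasDerivAt (fun t => Avg m R n (Ψ t)) (Avg m R n Ψ') t₀ := by
  induction n with
  | zero =>
    intro Ψ Ψ' h
    exact h _ fun l hl => absurd hl (Nat.not_lt_zero l)
  | succ n ih =>
    intro Ψ Ψ' h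
    simp only [Avg]
    refine ih _ _ fun z hz => ?_
    refine HasDerivAt.fun_sum fun p hp => HasDerivAt.fun_sum fun e he => ?_
    exact (h _ (valid_update hz (mem_range.1 hp) (mem_range.1 he))).const_mul _

theorem dep_le {n d₀ : ℕ} {z : ℕ → ℕ × ℕ} (hz : Valid R n z) (hd : d₀ ≤ R) :
    ∀ l ≤ n, dep d₀ z l ≤ R := by
  intro l
  induction l using Nat.strong_induction_on with
  | _ l ih =>
    intro hl
    cases l with
    | zero => rwa [dep]
    | succ l =>
      rw [dep]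
      exact max_le (hz l hl).2.le (ih _ (by omega) (by omega))

omit [Fintype Ω] in
theorem hd_prod {v : ℝ → Ω → ℝ} {t₀ : ℝ}
    (hv : ∀ x, HasDerivAt (fun t => v t x) (-v t₀ x ^ 2) t₀) (w : ℕ → Ω) (k : ℕ) :
    HasDerivAt (fun t => ∏ l ∈ range k, v t (w l))
      (-(∏ l ∈ range k, v t₀ (w l)) * ∑ l ∈ range k, v t₀ (w l)) t₀ := by
  induction k with
  | zero => simpa using hasDerivAt_const t₀ (1 : ℝ)
  | succ k ih =>
    simp only [prod_range_succ, sum_range_succ]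
    refine (ih.fun_mul (hv (w k))).congr_deriv ?_
    ring

theorem ES_update (D : Casc Ω) (d₀ : ℕ) (z : ℕ → ℕ × ℕ) {n p : ℕ} (hp : p < n + 1) (e : ℕ)
    (v : Ω → ℝ) (ω : Ω) :
    D.ES d₀ (Function.update z n (p, e)) (n + 1) (fun w => ∏ l ∈ range (n + 1 + 1), v (w l)) ω =
      D.ES d₀ z n (fun w => (∏ l ∈ range (n + 1), v (w l)) *
        D.E (max e (dep d₀ z p)) v (w p)) ω := by
  have hp' : p ≤ n := Nat.le_of_lt_succ hp
  have h1 : dep d₀ (Function.update z n (p, e)) (n + 1) = max e (dep d₀ z p) := by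
    rw [dep, Function.update_self, min_eq_left hp']
    congr 1
    exact dep_ext fun k hk => Function.update_of_ne (by omega) _ _
  rw [Casc.ES, h1, Function.update_self, min_eq_left hp',
    D.ES_ext d₀ (z := Function.update z n (p, e)) (z' := z)
      fun k hk => Function.update_of_ne hk.ne _ _]
  congr 1
  funext w
  rw [← Casc.E_const_mul]
  congr 1
  funext x
  rw [prod_range_succ _ (n + 1), Function.update_self]
  congr 1
  exact prod_congr rfl fun l hl => by rw [Function.update_of_ne (mem_range.1 hl).ne]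

theorem hd_NN (hm : Lv m R) (hC : C.Top R) {A v : ℝ → Ω → ℝ} {t₀ : ℝ}
    (hA : ∀ x, HasDerivAt (fun t => A t x) (v t₀ x) t₀)
    (hv : ∀ x, HasDerivAt (fun t => v t x) (-v t₀ x ^ 2) t₀) {d₀ : ℕ} (hd : d₀ ≤ R) (n : ℕ)
    (ω : Ω) : HasDerivAt (fun t => (C.tilt m R (A t)).NN m R d₀ n (v t) ω)
      (-(n + 1) * (C.tilt m R (A t₀)).NN m R d₀ (n + 1) (v t₀) ω) t₀ := by
  unfold Casc.NN
  have h1 := hd_Avg m R n _ _ fun z hz =>
    hd_ES C hm hC hA d₀ z ω n (dep_le hz hd) (fun t w => ∏ l ∈ range (n + 1), v t (w l)) _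
      fun w => hd_prod hv w (n + 1)
  refine h1.congr_deriv ?_
  rw [Avg, ← Avg_const_mul]
  congr 1
  funext z
  set D := C.tilt m R (A t₀)
  have e1 : (fun w : ℕ → Ω => -(∏ l ∈ range (n + 1), v t₀ (w l)) *
      ∑ l ∈ range (n + 1), v t₀ (w l) + (∏ l ∈ range (n + 1), v t₀ (w l)) *
        ∑ l ∈ range (n + 1), lam D m R (v t₀) (dep d₀ z l) (w l)) =
      fun w => ∑ p ∈ range (n + 1), ∑ e ∈ range R, -(m (e + 1) - m e) *
        ((∏ l ∈ range (n + 1), v t₀ (w l)) * D.E (max e (dep d₀ z p)) (v t₀) (w p)) := by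
    funext w
    unfold lam
    have e2 : ∀ a b c : ℝ, -a * b + a * (b - c) = -a * c := fun a b c => by ring
    rw [sum_sub_distrib, e2, mul_sum]
    refine sum_congr rfl fun p _ => ?_
    rw [mul_sum]
    exact sum_congr rfl fun e _ => by ring
  rw [e1, D.ES_sum, mul_sum]
  refine sum_congr rfl fun p hp => ?_
  rw [D.ES_sum, mul_sum]
  refine sum_congr rfl fun e _ => ?_
  rw [D.ES_const_mul, ES_update D d₀ z (mem_range.1 hp)]
  have : (n : ℝ) + 1 ≠ 0 := by positivity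
  field_simp

end TaylorAux

open TaylorAux in
theorem taylor {Ω : Type} [Fintype Ω] (C : Casc Ω) {m : ℕ → ℝ} {R d₀ : ℕ} (hm : Lv m R)
    (hC : C.Top R) (hd : d₀ ≤ R) {u : Ω → ℝ} {γ : ℝ} (hγ : γ < 1) (hu : ∀ ω, |u ω| ≤ γ)
    (n₀ : ℕ) (ω : Ω) :
    |C.T m R d₀ (fun x => Real.log (1 + u x)) ω -
      ∑ n ∈ range n₀, (-1) ^ n / (n + 1) * C.NN m R d₀ n u ω| ≤ γ ^ n₀ / (1 - γ) := by
  have hγ0 : 0 ≤ γ := (abs_nonneg _).trans (hu ω)
  set A : ℝ → Ω → ℝ := fun t x => Real.log (1 + t * u x) with hAdef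
  set v : ℝ → Ω → ℝ := fun t x => u x / (1 + t * u x) with hvdef
  set N : ℕ → ℝ → ℝ := fun n t => (C.tilt m R (A t)).NN m R d₀ n (v t) ω with hN
  have hlow : ∀ t ∈ Set.Icc (0 : ℝ) 1, ∀ x, 1 - t * γ ≤ 1 + t * u x := fun t ht x => by
    have := mul_le_mul_of_nonneg_left (abs_le.1 (hu x)).1 ht.1
    linarith
  have hlow' : ∀ t ∈ Set.Icc (0 : ℝ) 1, 1 - γ ≤ 1 - t * γ := fun t ht => by
    have := mul_le_mul_of_nonneg_right ht.2 hγ0
    linarith
  have hpos : ∀ t ∈ Set.Icc (0 : ℝ) 1, ∀ x, 0 < 1 + t * u x := fun t ht x => by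
    have := hlow t ht x
    have := hlow' t ht
    linarith
  have hlin : ∀ t x, HasDerivAt (fun t => 1 + t * u x) (u x) t := fun t x => by
    simpa using ((hasDerivAt_id t).mul_const (u x)).const_add 1
  have hA : ∀ t ∈ Set.Icc (0 : ℝ) 1, ∀ x, HasDerivAt (fun t => A t x) (v t x) t :=
    fun t ht x => (hlin t x).log (hpos t ht x).ne'
  have hv : ∀ t ∈ Set.Icc (0 : ℝ) 1, ∀ x, HasDerivAt (fun t => v t x) (-v t x ^ 2) t := by
    intro t ht x
    refine ((hasDerivAt_const t (u x)).fun_div (hlin t x) (hpos t ht x).ne').congr_deriv ?_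
    have := (hpos t ht x).ne'
    simp only [hvdef]
    field_simp
    ring
  have hψ : ∀ t ∈ Set.Icc (0 : ℝ) 1, ∀ k : ℕ, HasDerivAt (fun t => C.T m R d₀ (A t) ω +
      ∑ n ∈ range k, (-1) ^ n / (n + 1) * ((1 - t) ^ (n + 1) * N n t))
      ((-1) ^ k * ((1 - t) ^ k * N k t)) t := by
    intro t ht k
    induction k with
    | zero =>
      simp only [range_zero, sum_empty, add_zero, pow_zero, one_mul]
      refine (hd_T C hm hC (hA t ht) d₀ hd ω).congr_deriv ?_
      simp only [hN, Casc.NN, Avg, Casc.ES, zero_add, range_one, prod_singleton]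
    | succ k ih =>
      simp only [sum_range_succ, ← add_assoc]
      have h1 : HasDerivAt (fun t : ℝ => (1 - t) ^ (k + 1)) (-((k + 1) * (1 - t) ^ k)) t := by
        simpa using ((hasDerivAt_id t).const_sub 1).fun_pow (k + 1)
      refine (ih.fun_add ((h1.fun_mul (hd_NN C hm hC (hA t ht) (hv t ht) hd k ω)).const_mul
        ((-1) ^ k / ((k : ℝ) + 1)))).congr_deriv ?_
      have : (k : ℝ) + 1 ≠ 0 := by positivity
      simp only [hN]
      field_simp
      ring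
  have hb : ∀ t ∈ Set.Icc (0 : ℝ) 1,
      ‖(-1) ^ n₀ * ((1 - t) ^ n₀ * N n₀ t)‖ ≤ γ ^ n₀ / (1 - γ) := by
    intro t ht
    have h1 : 0 < 1 - γ := by linarith
    have h2 : 0 < 1 - t * γ := h1.trans_le (hlow' t ht)
    have h3 : 0 ≤ γ / (1 - t * γ) := by positivity
    have h4 : ∀ x, |v t x| ≤ γ / (1 - t * γ) := fun x => by
      simp only [hvdef]
      rw [abs_div, abs_of_pos (hpos t ht x)]
      exact div_le_div₀ hγ0 (hu x) h2 (hlow t ht x)
    have h5 : |N n₀ t| ≤ (γ / (1 - t * γ)) ^ (n₀ + 1) := by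
      refine (abs_Avg_le hm _).trans ?_
      rw [← Avg_const (n := n₀) hm ((γ / (1 - t * γ)) ^ (n₀ + 1))]
      refine Avg_mono hm fun z _ => Casc.abs_ES_le_of _ _ _ _ (fun w => ?_) _
      rw [abs_prod]
      refine (prod_le_prod (fun _ _ => abs_nonneg _) fun l _ => h4 (w l)).trans_eq ?_
      rw [prod_const, card_range]
    have h6 : 0 ≤ 1 - t := by linarith [ht.2]
    have h7 : (1 - t) * (γ / (1 - t * γ)) ≤ γ := by
      rw [← mul_div_assoc, div_le_iff₀ h2]
      have := mul_le_mul_of_nonneg_left hγ.le ht.1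
      nlinarith
    have h8 : γ / (1 - t * γ) ≤ 1 / (1 - γ) := div_le_div₀ zero_le_one hγ.le h1 (hlow' t ht)
    rw [Real.norm_eq_abs, abs_mul, abs_mul, abs_pow, abs_neg, abs_one, one_pow, one_mul,
      abs_of_nonneg (pow_nonneg h6 _)]
    calc (1 - t) ^ n₀ * |N n₀ t| ≤ (1 - t) ^ n₀ * (γ / (1 - t * γ)) ^ (n₀ + 1) :=
          mul_le_mul_of_nonneg_left h5 (pow_nonneg h6 _)
      _ = ((1 - t) * (γ / (1 - t * γ))) ^ n₀ * (γ / (1 - t * γ)) := by rw [mul_pow]; ring
      _ ≤ γ ^ n₀ * (1 / (1 - γ)) :=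
          mul_le_mul (pow_le_pow_left₀ (mul_nonneg h6 h3) h7 _) h8 h3 (pow_nonneg hγ0 _)
      _ = γ ^ n₀ / (1 - γ) := by ring
  have key := norm_image_sub_le_of_norm_deriv_le_segment_01'
    (fun t ht => (hψ t ht n₀).hasDerivWithinAt) fun t ht => hb t (Set.Ico_subset_Icc_self ht)
  have e0 : A 0 = fun _ => 0 := by funext x; simp [hAdef]
  have e1 : A 1 = fun x => Real.log (1 + u x) := by funext x; simp [hAdef]
  have e2 : v 0 = u := by funext x; simp [hvdef]
  simp only [hN, e0, e1, e2, C.tilt_zero hm.pos, C.T_const hm.pos, sub_self, sub_zero, one_pow,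
    one_mul, zero_add, ne_eq, Nat.add_eq_zero_iff, one_ne_zero, and_false, not_false_eq_true,
    zero_pow, zero_mul, mul_zero, sum_const_zero, add_zero, Real.norm_eq_abs] at key
  exact key

end Vale.Agent.P168
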