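import Vale.Agent.P168.Taylor
import Vale.Agent.P168.Cl

/-! The sign of the interpolation increment. -/

namespace Vale.Agent.P168

open Finset

/-- mean of `φ` under a spin with magnetization `x` -/
noncomputable def upF (φ : Bool → ℝ) (x : ℝ) : ℝ := ∑ s : Bool, φ s * ((1 + x * sg s) / 2)

theorem upA_F {φ : Bool → ℝ} {x : ℝ} (h : ∀ s, |φ s| ≤ 1) (hx : |x| ≤ 1) : |upF φ x| ≤ 1 := by
  have h1 := abs_le.1 (h true)
  have h2 := abs_le.1 (h false)
  have h3 := abs_le.1 hx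
  simp only [upF, Fintype.sum_bool, sg, if_true, Bool.false_eq_true, if_false]
  rw [abs_le]
  constructor <;> nlinarith [h1.1, h1.2, h2.1, h2.2, h3.1, h3.2]

theorem upA_conv {K : ℕ} (hK : Even K) (h1 : 1 ≤ K) (A B : ℝ) :
    K * (A * B ^ (K - 1)) ≤ A ^ K + (K - 1) * B ^ K := by
  obtain ⟨k, rfl⟩ : ∃ k, K = k + 1 := ⟨K - 1, by omega⟩
  have hk : k ≠ 0 := by
    rintro rfl
    simp at hK
  rw [Nat.add_sub_cancel]
  by_cases hB : B = 0
  · rw [hB, zero_pow hk, zero_pow (Nat.succ_ne_zero k)]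
    simpa using hK.pow_nonneg A
  obtain ⟨x, rfl⟩ : ∃ x, A = x * B := ⟨A / B, by field_simp⟩
  have h2 : 1 + ((k + 1 : ℕ) : ℝ) * (x - 1) ≤ x ^ (k + 1) := by
    by_cases hx : -1 ≤ x
    · exact one_add_mul_sub_le_pow hx _
    · have h3 := hK.pow_nonneg x
      have h4 : (0 : ℝ) ≤ k := Nat.cast_nonneg k
      push_cast
      nlinarith [not_le.mp hx]
  have h3 := mul_le_mul_of_nonneg_right h2 (hK.pow_nonneg B)
  rw [mul_pow]
  calc ((k + 1 : ℕ) : ℝ) * (x * B * B ^ k)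
      = (1 + ((k + 1 : ℕ) : ℝ) * (x - 1)) * B ^ (k + 1) + (((k + 1 : ℕ) : ℝ) - 1) * B ^ (k + 1) := by
        ring
    _ ≤ _ := by linarith

section
variable {K : ℕ} {Θ Ω X I : Type} [Fintype Θ] [Fintype Ω] [Fintype X] [Fintype I]
  (D : Casc Ω) (Mc : Casc X) (s : Ω → I → ℝ) (g : X → ℝ)

/-- the perturbation of the clause weight -/
noncomputable def upU (b : ℝ) (f : Fin K → Bool → ℝ) (mask : Fin K → Bool) (idx : Fin K → I)
    (ω : Ω × (Fin K → X)) : ℝ :=
  b * ∏ j, upF (f j) (if mask j then s ω.1 (idx j) else g (ω.2 j))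

/-- multi-overlap of the system -/
noncomputable def upAl (n : ℕ) (φ : Bool → ℝ) (w : ℕ → Ω) : ℝ :=
  avg fun i => ∏ l ∈ range (n + 1), upF φ (s (w l) i)

/-- multi-overlap of the messages -/
noncomputable def upBe (n : ℕ) (z : ℕ → ℕ × ℕ) (φ : Bool → ℝ) : ℝ :=
  Mc.av (Mc.ES 0 z n fun w => ∏ l ∈ range (n + 1), upF φ (g (w l)))

theorem upA_one [Nonempty X] [Nonempty I] (b : ℝ) (f : Fin K → Bool → ℝ) (mask : Fin K → Bool)
    (n : ℕ) (z : ℕ → ℕ × ℕ) :
    (avg fun idx : Fin K → I => (D.prod (Casc.pi fun _ : Fin K => Mc)).av fun ω =>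
      (D.prod (Casc.pi fun _ : Fin K => Mc)).ES 0 z n
        (fun w => ∏ l ∈ range (n + 1), upU s g b f mask idx (w l)) ω) =
    D.av (D.ES 0 z n fun w => b ^ (n + 1) *
      ∏ j, if mask j then upAl s n (f j) w else upBe Mc g n z (f j)) := by
  have e1 : ∀ (idx : Fin K → I) (w : ℕ → Ω × (Fin K → X)),
      ∏ l ∈ range (n + 1), upU s g b f mask idx (w l) =
      (fun w₁ : ℕ → Ω => b ^ (n + 1) * ∏ j, if mask j then
          ∏ l ∈ range (n + 1), upF (f j) (s (w₁ l) (idx j)) else 1) (fun l => (w l).1) *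
        (fun w₂ : ℕ → Fin K → X => ∏ j, (fun w₃ : ℕ → X => if mask j then 1 else
          ∏ l ∈ range (n + 1), upF (f j) (g (w₃ l))) fun l => w₂ l j) fun l => (w l).2 := by
    intro idx w
    simp only [upU]
    rw [prod_mul_distrib, prod_const, card_range, prod_comm, mul_assoc, ← prod_mul_distrib]
    congr 1
    refine prod_congr rfl fun j _ => ?_
    cases mask j <;> simp
  have e2 : ∀ j, Mc.av (Mc.ES 0 z n fun w₃ => if mask j then 1 else
      ∏ l ∈ range (n + 1), upF (f j) (g (w₃ l))) = if mask j then 1 else upBe Mc g n z (f j) := by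
    intro j
    cases mask j
    · rfl
    · simp only [if_true, funext (Mc.ES_const 0 z n 1), Casc.av_const]
  have e3 : ∀ (idx : Fin K → I) (ω : Ω × (Fin K → X)),
      (D.prod (Casc.pi fun _ : Fin K => Mc)).ES 0 z n
        (fun w => ∏ l ∈ range (n + 1), upU s g b f mask idx (w l)) ω =
      D.ES 0 z n (fun w₁ : ℕ → Ω => b ^ (n + 1) * ∏ j, if mask j then
          ∏ l ∈ range (n + 1), upF (f j) (s (w₁ l) (idx j)) else 1) ω.1 *
        ∏ j, Mc.ES 0 z n (fun w₃ : ℕ → X => if mask j then 1 else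
          ∏ l ∈ range (n + 1), upF (f j) (g (w₃ l))) (ω.2 j) := fun idx ω => by
    rw [funext (e1 idx), ← ES_pi 0 z n fun _ : Fin K => Mc]
    exact ES_prod 0 z n D _ (fun w₁ : ℕ → Ω => b ^ (n + 1) * ∏ j, if mask j then
      ∏ l ∈ range (n + 1), upF (f j) (s (w₁ l) (idx j)) else 1) (fun w₂ : ℕ → Fin K → X =>
        ∏ j, (fun w₃ : ℕ → X => if mask j then 1 else
          ∏ l ∈ range (n + 1), upF (f j) (g (w₃ l))) fun l => w₂ l j) ω
  simp only [e3, av_prod, Casc.av_const_mul]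
  simp only [av_pi_prod (fun _ : Fin K => Mc) fun j => Mc.ES 0 z n fun w₃ : ℕ → X =>
    if mask j then 1 else ∏ l ∈ range (n + 1), upF (f j) (g (w₃ l)), e2]
  rw [← Casc.av_avg]
  congr 1
  funext ω
  simp only [mul_comm (D.ES 0 z n _ ω), ← Casc.ES_const_mul]
  rw [← Casc.ES_avg]
  congr 1
  funext w
  rw [avg_const_mul, avg_const_mul, avg_pi_prod fun j i => if mask j then
    ∏ l ∈ range (n + 1), upF (f j) (s (w l) i) else 1, mul_left_comm, ← prod_mul_distrib]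
  congr 1
  refine prod_congr rfl fun j _ => ?_
  cases mask j
  · simp [avg_const]
  · simp [upAl]

variable {p : Θ → ℝ} {θ : Θ → (Fin K → Bool) → ℝ} {j₀ : Fin K} {a b : Θ → ℝ}
  {f : Θ → Fin K → Bool → ℝ}

/-- the term of order `n + 1` -/
noncomputable def upW (m : ℕ → ℝ) (R : ℕ) (p b : Θ → ℝ) (f : Θ → Fin K → Bool → ℝ)
    (mask : Fin K → Bool) (n : ℕ) : ℝ :=
  ∑ t, p t * avg fun idx : Fin K → I => (D.prod (Casc.pi fun _ : Fin K => Mc)).av
    ((D.prod (Casc.pi fun _ : Fin K => Mc)).NN m R 0 n (upU s g (b t) (f t) mask idx))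

theorem upA_W [Nonempty X] [Nonempty I] (hP : PTF p θ j₀ a b f) (m : ℕ → ℝ) (R : ℕ)
    (mask : Fin K → Bool) (n : ℕ) : upW D Mc s g m R p b f mask n =
      (∑ t, p t * b t ^ (n + 1)) * Avg m R n fun z => D.av (D.ES 0 z n fun w =>
        ∏ j, if mask j then ∑ t, p t * upAl s n (f t j₀) w
          else ∑ t, p t * upBe Mc g n z (f t j₀)) := by
  unfold upW Casc.NN
  simp only [← Avg_av, ← Avg_avg, ← Avg_const_mul]
  rw [← Avg_sum]
  congr 1
  funext z
  simp only [upA_one, ← Casc.av_const_mul, ← Casc.ES_const_mul]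
  rw [← Casc.av_sum]
  congr 1
  funext ω
  rw [← Casc.ES_sum]
  congr 1
  funext w
  rw [hP.ind (fun x => x ^ (n + 1)) fun j φ => if mask j then upAl s n φ w else upBe Mc g n z φ]
  congr 1
  refine prod_congr rfl fun j _ => ?_
  cases mask j <;> simp

theorem upA_sign [Nonempty X] [Nonempty I] (hK : Even K) (hP : PTF p θ j₀ a b f) {m : ℕ → ℝ}
    {R : ℕ} (hm : Lv m R) (n : ℕ) :
    (-1) ^ n / (n + 1) * upW D Mc s g m R p b f (fun _ => true) n +
      (K - 1) * ((-1) ^ n / (n + 1) * upW D Mc s g m R p b f (fun _ => false) n) ≤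
      ∑ l, (-1) ^ n / (n + 1) * upW D Mc s g m R p b f (fun j => decide (j = l)) n := by
  have h1 : (-1) ^ n / (n + 1) * ∑ t, p t * b t ^ (n + 1) ≤ 0 := by
    have h2 : (-1 : ℝ) ^ n * ∑ t, p t * b t ^ (n + 1) = -∑ t, p t * (-b t) ^ (n + 1) := by
      rw [mul_sum, ← sum_neg_distrib]
      exact sum_congr rfl fun t _ => by rw [neg_pow (b t)]; ring
    rw [div_mul_eq_mul_div, h2]
    exact div_nonpos_of_nonpos_of_nonneg (neg_nonpos.mpr (hP.pos _ (by omega))) (by positivity)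
  simp only [upA_W D Mc s g hP, ← mul_assoc]
  rw [← mul_sum, mul_assoc ((K : ℝ) - 1), mul_assoc ((K : ℝ) - 1), mul_left_comm ((K : ℝ) - 1),
    ← mul_add]
  refine mul_le_mul_of_nonpos_left ?_ h1
  rw [← Avg_const_mul, ← Avg_add, ← Avg_sum]
  refine Avg_mono hm fun z _ => ?_
  rw [← Casc.av_const_mul, ← Casc.av_add, ← Casc.av_sum]
  refine D.av_mono fun ω => ?_
  rw [← Casc.ES_const_mul, ← Casc.ES_add, ← Casc.ES_sum]
  refine D.ES_mono 0 z n (fun w => ?_) ω
  generalize ∑ t, p t * upAl s n (f t j₀) w = A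
  generalize ∑ t, p t * upBe Mc g n z (f t j₀) = B
  have h3 : ∀ l : Fin K, ∏ j, (if decide (j = l) then A else B) = A * B ^ (K - 1) := fun l => by
    rw [← mul_prod_erase _ _ (mem_univ l), prod_congr rfl fun j hj =>
      if_neg (show ¬ decide (j = l) = true by simpa using ne_of_mem_erase hj)]
    simp
  have := upA_conv hK j₀.pos A B
  simp only [h3]
  simpa using this

theorem upA_approx [Nonempty Ω] [Nonempty X] [Nonempty I] (hp : Prob p) (hP : PTF p θ j₀ a b f)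
    {D : Casc Ω} {Mc : Casc X} {m : ℕ → ℝ} {R : ℕ} (hm : Lv m R) (hD : D.Top R) (hM : Mc.Top R)
    {s : Ω → I → ℝ} {g : X → ℝ} (hs : ∀ ω, Cube (s ω)) (hg : Cube g) {γ : ℝ} (h0 : 0 ≤ γ)
    (h1 : γ < 1) (hb : ∀ t, |b t| ≤ γ) (mask : Fin K → Bool) (n₀ : ℕ) :
    |SS D Mc m R s g p θ mask - (∑ t, p t * Real.log (a t) +
      ∑ n ∈ range n₀, (-1) ^ n / (n + 1) * upW D Mc s g m R p b f mask n)| ≤ γ ^ n₀ / (1 - γ) := by
  have hu : ∀ t idx ω, |upU s g (b t) (f t) mask idx ω| ≤ γ := fun t idx ω => by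
    rw [upU, abs_mul, abs_prod]
    refine (mul_le_mul_of_nonneg_left (prod_le_one (fun _ _ => abs_nonneg _) fun j _ =>
      upA_F (hP.hf t j) ?_) (abs_nonneg _)).trans (by rw [mul_one]; exact hb t)
    split_ifs
    exacts [hs _ _, hg _]
  have e1 : ∀ t idx (ω : Ω × (Fin K → X)),
      Real.log (cl (θ t) fun j => if mask j then s ω.1 (idx j) else g (ω.2 j)) =
        Real.log (1 + upU s g (b t) (f t) mask idx ω) + Real.log (a t) := fun t idx ω => by
    rw [cl_pt (hP.eq t), add_comm (Real.log _)]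
    exact Real.log_mul (hP.ha t).ne' (by linarith [(abs_le.1 (hu t idx ω)).1] :
      0 < 1 + upU s g (b t) (f t) mask idx ω).ne'
  have e2 : SS D Mc m R s g p θ mask - (∑ t, p t * Real.log (a t) +
      ∑ n ∈ range n₀, (-1) ^ n / (n + 1) * upW D Mc s g m R p b f mask n) =
      ∑ t, p t * avg fun idx : Fin K → I => (D.prod (Casc.pi fun _ : Fin K => Mc)).av fun ω =>
        (D.prod (Casc.pi fun _ : Fin K => Mc)).T m R 0
          (fun x => Real.log (1 + upU s g (b t) (f t) mask idx x)) ω -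
        ∑ n ∈ range n₀, (-1) ^ n / (n + 1) * (D.prod (Casc.pi fun _ : Fin K => Mc)).NN m R 0 n
          (upU s g (b t) (f t) mask idx) ω := by
    simp only [SS, upW, e1, funext (Casc.T_add_const _ hm.pos _ _), Casc.av_add, Casc.av_const,
      Casc.av_sub, Casc.av_sum, Casc.av_const_mul, avg_add, avg_sub, avg_const, avg_sum,
      avg_const_mul, mul_add, mul_sub, sum_add_distrib, sum_sub_distrib, mul_sum]
    rw [sum_comm (s := range n₀)]
    simp only [mul_left_comm (p _)]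
    ring
  rw [e2]
  refine (abs_sum_le_sum_abs _ _).trans ?_
  refine le_trans (sum_le_sum fun t _ => ?_) (le_of_eq (by
    rw [← sum_mul, hp.2, one_mul] : ∑ t, p t * (γ ^ n₀ / (1 - γ)) = _))
  rw [abs_mul, abs_of_nonneg (hp.1 t)]
  refine mul_le_mul_of_nonneg_left (abs_avg_le_of (div_nonneg (pow_nonneg h0 _) (by linarith))
    fun idx => Casc.abs_av_le _ fun ω => ?_) (hp.1 t)
  exact taylor _ hm (top_prod hD (top_pi fun _ => hM)) (Nat.zero_le R) h1 (hu t idx) n₀ ω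

end

theorem upA {K : ℕ} {Θ Ω X I : Type} [Fintype Θ] [Fintype Ω] [Fintype X] [Fintype I] [Nonempty Ω]
    [Nonempty X] [Nonempty I] {p : Θ → ℝ} {θ : Θ → (Fin K → Bool) → ℝ} {j₀ : Fin K}
    {a b : Θ → ℝ} {f : Θ → Fin K → Bool → ℝ} (hK : Even K) (hp : Prob p)
    (hP : PTF p θ j₀ a b f) {D : Casc Ω} {Mc : Casc X} {m : ℕ → ℝ} {R : ℕ} (hm : Lv m R)
    (hD : D.Top R) (hM : Mc.Top R) {s : Ω → I → ℝ} {g : X → ℝ} (hs : ∀ ω, Cube (s ω))
    (hg : Cube g) :
    SS D Mc m R s g p θ (fun _ => true) + (K - 1) * SS D Mc m R s g p θ (fun _ => false) ≤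
      ∑ l, SS D Mc m R s g p θ fun j => decide (j = l) := by
  obtain ⟨γ, h0, h1, hb⟩ : ∃ γ : ℝ, 0 ≤ γ ∧ γ < 1 ∧ ∀ t, |b t| ≤ γ := by
    rcases isEmpty_or_nonempty Θ with hΘ | hΘ
    · exact ⟨0, le_rfl, one_pos, fun t => hΘ.elim t⟩
    · obtain ⟨t, ht⟩ := Finite.exists_max fun t => |b t|
      exact ⟨_, abs_nonneg _, hP.hb t, ht⟩
  have hK1 : (1 : ℝ) ≤ K := by exact_mod_cast j₀.pos
  refine le_of_forall_pos_le_add fun ε hε => ?_
  obtain ⟨n₀, hn⟩ := exists_pow_lt_of_lt_one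
    (show 0 < ε / (2 * K) * (1 - γ) from mul_pos (by positivity) (by linarith)) h1
  have hn' : 2 * K * (γ ^ n₀ / (1 - γ)) ≤ ε := by
    rw [← le_div_iff₀' (by positivity), div_le_iff₀ (by linarith)]
    exact hn.le
  have key := fun mask => abs_le.1 (upA_approx hp hP hm hD hM hs hg h0 h1 hb mask n₀)
  have k1 := (key fun _ => true).2
  have k2 := mul_le_mul_of_nonneg_left (key fun _ => false).2 (sub_nonneg.mpr hK1)
  have k3 := sum_le_sum fun (l : Fin K) (_ : l ∈ univ) => (key fun j => decide (j = l)).1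
  have k4 := sum_le_sum fun n (_ : n ∈ range n₀) => upA_sign D Mc s g hK hP hm n
  rw [sum_add_distrib, ← mul_sum, sum_comm] at k4
  rw [sum_sub_distrib, sum_add_distrib, sum_const, sum_const, card_univ, Fintype.card_fin,
    nsmul_eq_mul, nsmul_eq_mul] at k3
  linarith

end Vale.Agent.P168
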