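import Vale.Agent.P168.Casc3

/-! The perturbed system: basic facts. -/

namespace Vale.Agent.P168

open Finset

section
variable {L I Sg : Type} [Fintype L] [DecidableEq L] {R t : ℕ}

theorem top_fld {j : ℕ} (hj : j < R) : (fld I L R j).Top R :=
  top_prod (top_lev hj _ _) (top_pi fun c => top_lev (max_le (Nat.le_of_lt_succ c.1.2) hj) _ _)

theorem fld_rel {j d : ℕ} (h : d ≤ j) (a b : Fl I L R) : (fld I L R j).rel d a b :=
  ⟨fun h' => absurd h' (by omega), fun _ h' => absurd ((le_max_right _ _).trans h') (by omega)⟩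

theorem top_sys : (sys Sg I L R t).Top R :=
  top_prod (top_lev le_rfl _ _) (top_pi fun c => top_fld c.1.2)

theorem sys_rel_zero (hR : 1 ≤ R) (a b : Om Sg I L R t) : (sys Sg I L R t).rel 0 a b :=
  ⟨fun h' => absurd h' (by omega), fun _ => fld_rel (Nat.zero_le _) _ _⟩

theorem Wf_mem {θ : ℝ} (h0 : 0 ≤ θ) (h1 : θ * Fintype.card L ≤ 1 / 2) (j : ℕ) (σ : I → Bool)
    (φ : Fl I L R) : 1 / 2 ≤ Wf θ j σ φ ∧ Wf θ j σ φ ≤ 3 / 2 := by
  have h2 : |∑ q, amp θ j R φ q * ind (σ φ.1.1) (φ.1.2.2.1 q)| ≤ θ * Fintype.card L := by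
    refine (abs_sum_le_sum_abs _ _).trans ?_
    rw [mul_comm, ← card_univ, ← nsmul_eq_mul, ← sum_const]
    refine sum_le_sum fun q _ => ?_
    have h3 : |amp θ j R φ q| ≤ θ := by
      unfold amp
      split_ifs
      · simp [abs_mul, abs_prod, abs_sg, abs_of_nonneg h0]
      · simpa using h0
    have h4 : |ind (σ φ.1.1) (φ.1.2.2.1 q)| ≤ 1 := by
      unfold ind
      split_ifs <;> simp
    rw [abs_mul]
    exact (mul_le_mul h3 h4 (abs_nonneg _) h0).trans_eq (mul_one _)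
  have h3 := abs_le.1 h2
  unfold Wf
  constructor <;> linarith [h3.1, h3.2]

variable [Fintype Sg] [Fintype I] {θ : ℝ} {ev : Sg → I → Bool}

theorem top_tsys (H : Sg → ℝ) : (tsys L R t θ ev H).Top R := top_sys

theorem XX_eq (hR : 1 ≤ R) (H : Sg → ℝ) (ω : Om Sg I L R t) :
    XX L R t θ ev H = (sys Sg I L R t).T (mm R) R 0 (hamS θ ev H) ω := by
  rw [XX, Casc.av_eq_E _ (sys_rel_zero hR) _ ω, Casc.E_of_meas _ (Casc.T_meas _ _ hR _)]

theorem XX_add (hR : 1 ≤ R) (H y : Sg → ℝ) (ω : Om Sg I L R t) :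
    XX L R t θ ev (fun σ => H σ + y σ) =
      XX L R t θ ev H + (tsys L R t θ ev H).T (mm R) R 0 (fun x => y x.1) ω := by
  rw [XX_eq hR _ ω, XX_eq hR _ ω, tsys,
    ← Casc.T_add _ (lv_mm hR).pos (top_sys.meas _) (top_sys.meas _)]
  congr 1
  funext x
  simp only [hamS]
  ring

theorem XX_lip [Nonempty Sg] [Nonempty I] (hR : 1 ≤ R) {H H' : Sg → ℝ} {c : ℝ}
    (h : ∀ σ, |H σ - H' σ| ≤ c) : |XX L R t θ ev H - XX L R t θ ev H'| ≤ c := by
  obtain ⟨ω⟩ : Nonempty (Om Sg I L R t) := inferInstance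
  rw [XX_eq hR _ ω, XX_eq hR _ ω]
  refine Casc.abs_T_sub_le _ (lv_mm hR).pos (fun x => ?_) ω
  simp only [hamS, add_sub_add_right_eq_sub]
  exact h _

theorem XX_pert [Nonempty Sg] [Nonempty I] (hR : 1 ≤ R) (h0 : 0 ≤ θ)
    (h1 : θ * Fintype.card L ≤ 1 / 2) (H : Sg → ℝ) :
    |XX L R t θ ev H - Real.log (avg fun σ => Real.exp (H σ))| ≤ R * t := by
  obtain ⟨ω⟩ : Nonempty (Om Sg I L R t) := inferInstance
  have e : (sys Sg I L R t).T (mm R) R 0 (fun x => H x.1) ω =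
      Real.log (avg fun σ => Real.exp (H σ)) := by
    rw [sys, T_spin (lv_mm hR).top hR]
    exact Casc.T_const (Casc.pi fun c : Fin R × Fin t => fld I L R c.1) (lv_mm hR).pos
      (Real.log (avg fun σ => Real.exp (H σ))) ω.2
  rw [XX_eq hR _ ω, ← e]
  refine Casc.abs_T_sub_le _ (lv_mm hR).pos (fun x => ?_) ω
  simp only [hamS, add_sub_cancel_left]
  refine (abs_sum_le_sum_abs _ _).trans ?_
  have e2 : (R * t : ℝ) = ∑ _c : Fin R × Fin t, (1 : ℝ) := by simp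
  rw [e2]
  refine sum_le_sum fun c _ => ?_
  obtain ⟨h2, h3⟩ := Wf_mem h0 h1 c.1 (ev x.1) (x.2 c)
  have hp : 0 < Wf θ c.1 (ev x.1) (x.2 c) := by linarith
  have h4 := Real.log_le_sub_one_of_pos hp
  have h5 := Real.one_sub_inv_le_log_of_pos hp
  have h6 : (Wf θ c.1 (ev x.1) (x.2 c))⁻¹ ≤ 2 := by
    rw [inv_le_comm₀ hp (by norm_num)]
    linarith
  rw [abs_le]
  constructor <;> linarith

theorem XXl_spin (hR : 1 ≤ R) (H : Sg → ℝ) (ω : Om Sg I L R t) :
    XX L R t θ ev H = (Casc.pi fun c : Fin R × Fin t => fld I L R c.1).T (mm R) R 0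
      (fun y => Real.log (avg fun σ => Real.exp (hamS θ ev H (σ, y)))) ω.2 := by
  rw [XX_eq hR _ ω, sys, T_spin (lv_mm hR).top hR]

end

theorem XXl_avg {n : ℕ} (H : (Fin (n + 1) → Bool) → ℝ) (w : (Fin n → Bool) → ℝ) :
    Real.log (avg fun σ : Fin (n + 1) → Bool => Real.exp (H σ + w fun i => σ i.succ)) =
      Real.log (avg fun σ : Fin n → Bool =>
        Real.exp (Real.log (∑ s : Bool, Real.exp (H (Fin.cons s σ))) + w σ)) + -Real.log 2 := by
  have hp : 0 < avg fun σ : Fin n → Bool =>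
      Real.exp (Real.log (∑ s : Bool, Real.exp (H (Fin.cons s σ))) + w σ) :=
    div_pos (sum_pos (fun _ _ => Real.exp_pos _) univ_nonempty) (by exact_mod_cast Fintype.card_pos)
  rw [← sub_eq_add_neg, ← Real.log_div hp.ne' two_ne_zero,
    ← avg_equiv (Fin.consEquiv fun _ : Fin (n + 1) => Bool), avg_prod, avg_comm, div_eq_mul_inv,
    ← avg_mul_const]
  congr 2
  funext σ
  rw [Real.exp_add, Real.exp_log (sum_pos (fun _ _ => Real.exp_pos _) univ_nonempty)]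
  show avg (fun s : Bool => Real.exp (H (Fin.cons s σ) + w σ)) = _
  simp only [avg, Real.exp_add, Fintype.card_bool, ← sum_mul]
  push_cast
  ring

theorem XXl_sub (L : Type) [Fintype L] [DecidableEq L] (R j n : ℕ) :
    Sub ((n : ℝ) / (n + 1)) (fld (Fin n) L R j) (fld (Fin (n + 1)) L R j)
      (Prod.map (Prod.map Fin.succ id) id) := by
  have h1 := sub_ulev (X := Fin n × Sp L R) (Y := Fin (n + 1) × Sp L R)
    (φ := Prod.map Fin.succ id) ((Fin.succ_injective n).prodMap Function.injective_id) (j + 1)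
  have h2 : (Fintype.card (Fin n × Sp L R) : ℝ) / Fintype.card (Fin (n + 1) × Sp L R) =
      (n : ℝ) / (n + 1) := by
    have h3 : (0 : ℝ) < Fintype.card (Sp L R) := by exact_mod_cast Fintype.card_pos
    rw [Fintype.card_prod, Fintype.card_prod (Fin (n + 1)), Fintype.card_fin, Fintype.card_fin]
    push_cast
    rw [mul_div_mul_right _ _ h3.ne']
  rw [h2] at h1
  have h3 := Sub.prod (by positivity) zero_le_one h1 (Sub.refl (Casc.pi
    fun c : Fin (R + 1) × Finset (Finset L) => lev (max c.1 (j + 1)) (rho1 c.2) (rho1_pos c.2)))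
  rw [mul_one] at h3
  exact h3

theorem XXl_Wf {L : Type} [Fintype L] [DecidableEq L] {R n : ℕ} (θ : ℝ) (j : ℕ)
    (σ : Fin (n + 1) → Bool) (φ : Fl (Fin n) L R) :
    Wf θ j σ (Prod.map (Prod.map Fin.succ id) id φ) = Wf θ j (fun i => σ i.succ) φ := rfl

theorem XXl_pt {L : Type} [Fintype L] [DecidableEq L] {R t n : ℕ} (θ : ℝ)
    (H : (Fin (n + 1) → Bool) → ℝ) (y : Fin R × Fin t → Fl (Fin n) L R) :
    Real.log (avg fun σ => Real.exp (hamS θ id H
        (σ, fun c => Prod.map (Prod.map Fin.succ id) id (y c)))) =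
      Real.log (avg fun σ => Real.exp (hamS θ id (fun σ : Fin n → Bool =>
        Real.log (∑ s : Bool, Real.exp (H (Fin.cons s σ)))) (σ, y))) + -Real.log 2 := by
  simp only [hamS, id, XXl_Wf]
  have h := XXl_avg H fun σ => ∑ c, Real.log (Wf θ c.1 σ (y c))
  exact h

theorem XXl_step (L : Type) [Fintype L] [DecidableEq L] {R : ℕ} (hR : 1 ≤ R) (t : ℕ) (θ : ℝ)
    {n : ℕ} (hn : 0 < n) (H : (Fin (n + 1) → Bool) → ℝ) :
    XX L R t θ id (fun σ : Fin n → Bool =>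
        Real.log (∑ s : Bool, Real.exp (H (Fin.cons s σ)))) + -Real.log 2 +
      (∑ e ∈ Ico 0 R, (mm R (e + 1))⁻¹) *
        Real.log (((n : ℝ) / (n + 1)) ^ Fintype.card (Fin R × Fin t)) ≤ XX L R t θ id H := by
  have hn1 : (0 : ℝ) < n := by exact_mod_cast hn
  have : Nonempty (Fin n) := ⟨⟨0, hn⟩⟩
  obtain ⟨ω⟩ : Nonempty (Om (Fin n → Bool) (Fin n) L R t) := inferInstance
  have hp : (0 : ℝ) < (n : ℝ) / (n + 1) := by positivity
  have h0 : Sub (((n : ℝ) / (n + 1)) ^ Fintype.card (Fin R × Fin t))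
      (Casc.pi fun c : Fin R × Fin t => fld (Fin n) L R c.1)
      (Casc.pi fun c : Fin R × Fin t => fld (Fin (n + 1)) L R c.1)
      (fun x c => Prod.map (Prod.map Fin.succ id) id (x c)) :=
    Sub.pi (φ := fun _ => Prod.map (Prod.map Fin.succ id) id) hp.le fun c => XXl_sub L R c.1 n
  have h1 := h0.T (R := R) (d := 0) (pow_pos hp _) (lv_mm hR).pos
    (fun y => Real.log (avg fun σ => Real.exp (hamS θ id H (σ, y)))) ω.2
  simp only [XXl_pt] at h1
  rw [Casc.T_add_const _ (lv_mm hR).pos, ← XXl_spin hR _ ω] at h1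
  exact h1.trans_eq (XXl_spin hR H
    (fun _ => true, fun c => Prod.map (Prod.map Fin.succ id) id (ω.2 c))).symm

/-- removing one site -/
theorem XX_cav (L : Type) [Fintype L] [DecidableEq L] {R : ℕ} (hR : 1 ≤ R) (t : ℕ) (θ : ℝ)
    {ε : ℝ} (hε : 0 < ε) : ∃ n₁ : ℕ, ∀ n, n₁ ≤ n → ∀ H : (Fin (n + 1) → Bool) → ℝ,
      XX L R t θ id (fun σ : Fin n → Bool =>
        Real.log (∑ s : Bool, Real.exp (H (Fin.cons s σ)))) - Real.log 2 - ε ≤
      XX L R t θ id H := by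
  obtain ⟨S, hS⟩ : ∃ S : ℝ, S = ∑ e ∈ Ico 0 R, (mm R (e + 1))⁻¹ := ⟨_, rfl⟩
  have hS0 : 0 ≤ S := by
    rw [hS]
    exact sum_nonneg fun e _ => (inv_pos.2 ((lv_mm hR).pos e)).le
  obtain ⟨c, hc⟩ : ∃ c : ℕ, c = Fintype.card (Fin R × Fin t) := ⟨_, rfl⟩
  obtain ⟨n₀, hn₀⟩ := exists_nat_ge (S * c / ε)
  refine ⟨n₀ + 1, fun n hn H => ?_⟩
  have hn1 : (0 : ℝ) < n := by exact_mod_cast (by omega : 0 < n)
  have hp : (0 : ℝ) < (n : ℝ) / (n + 1) := by positivity
  have h1 := XXl_step L hR t θ (by omega : 0 < n) H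
  rw [← hS, ← hc, Real.log_pow] at h1
  have h3 := Real.one_sub_inv_le_log_of_pos hp
  have h4 : 1 - ((n : ℝ) / (n + 1))⁻¹ = -(1 / n) := by
    field_simp
    ring
  have h5 : S * c * (1 / n) ≤ ε := by
    rw [mul_one_div, div_le_iff₀ hn1]
    rw [div_le_iff₀ hε] at hn₀
    have h6 : (n₀ : ℝ) ≤ n := by exact_mod_cast (by omega : n₀ ≤ n)
    have h7 := mul_le_mul_of_nonneg_left h6 hε.le
    linarith
  rw [h4] at h3
  have h6 := mul_le_mul_of_nonneg_left h3 (by positivity : 0 ≤ S * c)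
  linarith

end Vale.Agent.P168
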